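import Crest.Agent.R171.Defs

/-!
T1: calculus in a Steinberg family: conjugation formulas, diagonal elements, the symbol
`c i j u v = cm (h i j u) (h i j v)`.
-/

set_option autoImplicit false

namespace Crest.Agent.R171

/-- commutator -/
def cm {Γ : Type*} [Group Γ] (a b : Γ) : Γ := a * b * a⁻¹ * b⁻¹

namespace StFam

variable {I : Type*} {R : Type*} [CommRing R] {Γ : Type*} [Group Γ] (X : StFam I R Γ)

/-- the subgroup generated by the family -/
def gen : Subgroup Γ := Subgroup.closure {g | ∃ i j a, i ≠ j ∧ g = X.x i j a}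

/-- weights of `h_ij(u)` -/
def wt [DecidableEq I] (i j : I) (u : Rˣ) : I → Rˣ :=
  fun k => if k = i then u else if k = j then u⁻¹ else 1

/-- the symbol -/
def c (i j : I) (u v : Rˣ) : Γ := cm (X.h i j u) (X.h i j v)

theorem x_mem_gen {i j : I} (hij : i ≠ j) (a : R) : X.x i j a ∈ X.gen := by
  sorry

theorem h_mem_gen {i j : I} (hij : i ≠ j) (u : Rˣ) : X.h i j u ∈ X.gen := by
  sorry

theorem Diag.mul {X : StFam I R Γ} {g g' : Γ} {d d' : I → Rˣ} (h : X.Diag g d)
    (h' : X.Diag g' d') : X.Diag (g * g') (d * d') := by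
  sorry

theorem Diag.inv {X : StFam I R Γ} {g : Γ} {d : I → Rˣ} (h : X.Diag g d) :
    X.Diag g⁻¹ d⁻¹ := by
  sorry

/-- an element acting with constant weights commutes with everything in `X.gen`. -/
theorem Diag.comm_gen {X : StFam I R Γ} {g : Γ} {d : I → Rˣ} (h : X.Diag g d)
    (hd : ∀ i j, d i = d j) {y : Γ} (hy : y ∈ X.gen) : g * y = y * g := by
  sorry

/-- `h_ij(u)` is diagonal (needs a third index). -/
theorem diag_h [DecidableEq I] {i j : I} (hij : i ≠ j) (hI : ∃ k, k ≠ i ∧ k ≠ j) (u : Rˣ) :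
    X.Diag (X.h i j u) (wt i j u) := by
  sorry

/-- Diagonal elements with weights trivial on `i,j` commute with `h_ij(u)`. -/
theorem Diag.comm_h {X : StFam I R Γ} {g : Γ} {d : I → Rˣ} (h : X.Diag g d) {i j : I}
    (hij : i ≠ j) (hd : d i = d j) (u : Rˣ) : g * X.h i j u = X.h i j u * g := by
  sorry

/-- The commutator of two elements of `X.gen` only depends on them up to elements with the
same weights. -/
theorem commutator_congr {g g' k k' : Γ} (hg : g ∈ X.gen) (hg' : g' ∈ X.gen)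
    (hk : k ∈ X.gen) (hk' : k' ∈ X.gen) {d e : I → Rˣ} (h1 : X.Diag g d) (h2 : X.Diag g' d)
    (h3 : X.Diag k e) (h4 : X.Diag k' e) : cm g k = cm g' k' := by
  sorry

theorem c_diag [DecidableEq I] {i j : I} (hij : i ≠ j) (hI : ∃ k, k ≠ i ∧ k ≠ j) (u v : Rˣ) :
    X.Diag (X.c i j u v) 1 := by
  sorry

theorem c_mul_left {i j : I} (hij : i ≠ j) (hI : ∃ k, k ≠ i ∧ k ≠ j) (u u' v : Rˣ) :
    X.c i j (u * u') v = X.c i j u v * X.c i j u' v := by
  sorry

theorem c_mul_right {i j : I} (hij : i ≠ j) (hI : ∃ k, k ≠ i ∧ k ≠ j) (u v v' : Rˣ) :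
    X.c i j u (v * v') = X.c i j u v * X.c i j u v' := by
  sorry

/-- Steinberg relation: `w(u)w(-1)w(v) = w(uv)` when `u+v=1`. -/
theorem c_steinberg {i j : I} (hij : i ≠ j) (hI : ∃ k, k ≠ i ∧ k ≠ j) (u v : Rˣ)
    (huv : (u : R) + v = 1) : X.c i j u v = 1 := by
  sorry

/-- the symbol does not depend on the pair of indices. -/
theorem c_indep {i j k l : I} (hij : i ≠ j) (hkl : k ≠ l) (hik : i ≠ k) (hil : i ≠ l)
    (hjk : j ≠ k) (hjl : j ≠ l) (u v : Rˣ) : X.c i j u v = X.c k l u v := by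
  sorry

end StFam
end Crest.Agent.R171
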