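import Crest.Prelude.Def_Steinberg

/-!
# The matrix representation of the Steinberg group (result 171)
-/

set_option linter.unusedSectionVars false
set_option linter.unusedSimpArgs false

noncomputable section

namespace Crest.Agent.R171
open Crest.AlgebraR.Steinberg

section Gens

variable {R : Type*} [Ring R]

/-- generator of the Steinberg group -/
def X (i j : ℕ) (h : i ≠ j) (a : R) : St R := PresentedGroup.of (⟨(i, j), h⟩, a)

theorem X_add (i j : ℕ) (h : i ≠ j) (a b : R) : X i j h a * X i j h b = X i j h (a + b) := by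
  have : PresentedGroup.mk (rels R) (x i j h a * x i j h b * (x i j h (a + b))⁻¹) = 1 :=
    PresentedGroup.one_of_mem (Or.inl (Or.inl ⟨i, j, h, a, b, rfl⟩))
  rw [map_mul, map_mul, map_inv, mul_inv_eq_one] at this
  exact this

theorem X_comm (i j k l : ℕ) (hij : i ≠ j) (hkl : k ≠ l) (hjk : j ≠ k) (hil : i ≠ l) (a b : R) :
    X i j hij a * X k l hkl b = X k l hkl b * X i j hij a := by
  have : PresentedGroup.mk (rels R)
      (x i j hij a * x k l hkl b * (x i j hij a)⁻¹ * (x k l hkl b)⁻¹) = 1 :=
    PresentedGroup.one_of_mem (Or.inl (Or.inr ⟨i, j, k, l, hij, hkl, a, b, hjk, hil, rfl⟩))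
  rw [map_mul, map_mul, map_mul, map_inv, map_inv, mul_inv_eq_one, mul_inv_eq_iff_eq_mul] at this
  exact this

theorem X_commutator (i j l : ℕ) (hij : i ≠ j) (hjl : j ≠ l) (hil : i ≠ l) (a b : R) :
    X i j hij a * X j l hjl b * (X i j hij a)⁻¹ * (X j l hjl b)⁻¹ = X i l hil (a * b) := by
  have : PresentedGroup.mk (rels R)
      (x i j hij a * x j l hjl b * (x i j hij a)⁻¹ * (x j l hjl b)⁻¹ * (x i l hil (a * b))⁻¹) = 1 :=
    PresentedGroup.one_of_mem (Or.inr ⟨i, j, l, hij, hjl, hil, a, b, rfl⟩)
  rw [map_mul, map_mul, map_mul, map_mul, map_inv, map_inv, map_inv, mul_inv_eq_one] at this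
  exact this

theorem X_zero (i j : ℕ) (h : i ≠ j) : X i j h (0 : R) = 1 := by
  have := X_add i j h (0 : R) 0
  rw [add_zero] at this
  exact mul_eq_left.mp this

theorem X_neg (i j : ℕ) (h : i ≠ j) (a : R) : (X i j h a)⁻¹ = X i j h (-a) := by
  rw [inv_eq_iff_mul_eq_one, X_add, add_neg_cancel, X_zero]

theorem stMap_X {S : Type*} [Ring S] (φ : R →+* S) (i j : ℕ) (h : i ≠ j) (a : R) :
    stMap φ (X i j h a) = X i j h (φ a) := by
  rfl

theorem closure_X : Subgroup.closure {g : St R | ∃ (i j : ℕ) (h : i ≠ j) (a : R), g = X i j h a}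
    = ⊤ := by
  rw [← PresentedGroup.closure_range_of]
  congr 1
  ext g
  constructor
  · rintro ⟨i, j, h, a, rfl⟩
    exact ⟨(⟨(i, j), h⟩, a), rfl⟩
  · rintro ⟨⟨⟨⟨i, j⟩, h⟩, a⟩, rfl⟩
    exact ⟨i, j, h, a, rfl⟩

theorem St_induction {p : St R → Prop} (h1 : p 1) (hX : ∀ i j h a, p (X i j h a))
    (hmul : ∀ g g', p g → p g' → p (g * g')) (g : St R) : p g := by
  have hg : g ∈ Subgroup.closure {g : St R | ∃ (i j : ℕ) (h : i ≠ j) (a : R), g = X i j h a} := by
    rw [closure_X]; trivial
  refine Subgroup.closure_induction'' (p := fun g _ => p g) ?_ ?_ h1 ?_ hg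
  · rintro x ⟨i, j, h, a, rfl⟩
    exact hX i j h a
  · rintro x ⟨i, j, h, a, rfl⟩
    rw [X_neg]
    exact hX i j h _
  · intro x y _ _ hx hy
    exact hmul x y hx hy

end Gens

section Rep

variable {R : Type*} [CommRing R]

/-- The elementary endomorphism `a E_{ij}` of `R^{(ℕ)}`. -/
def E (i j : ℕ) (a : R) : Module.End R (ℕ →₀ R) :=
  a • (Finsupp.lsingle i ∘ₗ Finsupp.lapply j)

@[simp] theorem E_apply (i j : ℕ) (a : R) (v : ℕ →₀ R) :
    E i j a v = Finsupp.single i (a * v j) := by
  simp [E]

theorem E_add (i j : ℕ) (a b : R) : E i j a + E i j b = E i j (a + b) := by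
  simp [E, add_smul]

theorem E_mul_ne (i j k l : ℕ) (h : j ≠ k) (a b : R) : E i j a * E k l b = 0 := by
  apply LinearMap.ext
  intro v
  rw [Module.End.mul_apply, E_apply, E_apply, Finsupp.single_eq_of_ne (by exact h)]
  simp

theorem E_mul (i j l : ℕ) (a b : R) : E i j a * E j l b = E i l (a * b) := by
  apply LinearMap.ext
  intro v
  rw [Module.End.mul_apply, E_apply, E_apply, E_apply, Finsupp.single_eq_same, mul_assoc]

/-- the unit `1 + a E_{ij}` -/
def unitX (i j : ℕ) (h : i ≠ j) (a : R) : (Module.End R (ℕ →₀ R))ˣ where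
  val := 1 + E i j a
  inv := 1 + E i j (-a)
  val_inv := by
    have h1 := E_mul_ne i j i j h.symm a (-a)
    have h2 := E_add i j a (-a)
    rw [add_neg_cancel] at h2
    have h3 : E i j (0 : R) = 0 := by simp [E]
    rw [mul_add, add_mul, add_mul, h1, one_mul, mul_one, one_mul, add_zero, add_assoc, h2, h3,
      add_zero]
  inv_val := by
    have h1 := E_mul_ne i j i j h.symm (-a) a
    have h2 := E_add i j (-a) a
    rw [neg_add_cancel] at h2
    have h3 : E i j (0 : R) = 0 := by simp [E]
    rw [mul_add, add_mul, add_mul, h1, one_mul, mul_one, one_mul, add_zero, add_assoc, h2, h3,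
      add_zero]

theorem unitX_add (i j : ℕ) (h : i ≠ j) (a b : R) :
    unitX i j h a * unitX i j h b = unitX i j h (a + b) := by
  ext1
  change (1 + E i j a) * (1 + E i j b) = 1 + E i j (a + b)
  rw [← E_add]
  simp only [mul_add, add_mul, E_mul_ne i j i j h.symm, mul_one, one_mul]
  abel

theorem unitX_comm (i j k l : ℕ) (hij : i ≠ j) (hkl : k ≠ l) (hjk : j ≠ k) (hil : i ≠ l) (a b : R) :
    unitX i j hij a * unitX k l hkl b = unitX k l hkl b * unitX i j hij a := by
  ext1
  change (1 + E i j a) * (1 + E k l b) = (1 + E k l b) * (1 + E i j a)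
  rw [mul_add, add_mul, add_mul, mul_add, add_mul, add_mul, E_mul_ne i j k l hjk,
    E_mul_ne k l i j hil.symm, mul_one, one_mul, one_mul]
  simp only [mul_one]
  abel

theorem unitX_commutator (i j l : ℕ) (hij : i ≠ j) (hjl : j ≠ l) (hil : i ≠ l) (a b : R) :
    unitX i j hij a * unitX j l hjl b * (unitX i j hij a)⁻¹ * (unitX j l hjl b)⁻¹ =
      unitX i l hil (a * b) := by
  rw [mul_inv_eq_iff_eq_mul, mul_inv_eq_iff_eq_mul]
  ext1
  change (1 + E i j a) * (1 + E j l b) = (1 + E i l (a * b)) * (1 + E j l b) * (1 + E i j a)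
  simp only [mul_add, add_mul, mul_one, one_mul, E_mul, E_mul_ne i l j l hjl.symm.symm.symm,
    E_mul_ne j l i j hil.symm, E_mul_ne i l i j hil.symm]
  simp only [zero_mul, add_zero]
  abel

/-- the matrix representation of the Steinberg group -/
def rhoU : St R →* (Module.End R (ℕ →₀ R))ˣ :=
  PresentedGroup.toGroup (f := fun g : Gen R => unitX g.1.1.1 g.1.1.2 g.1.2 g.2) (by
    rintro r ((⟨i, j, h, a, b, rfl⟩ | ⟨i, j, k, l, hij, hkl, a, b, hjk, hil, rfl⟩) |
      ⟨i, j, l, hij, hjl, hil, a, b, rfl⟩)
    · simp only [x, map_mul, map_inv, FreeGroup.lift_apply_of]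
      rw [mul_inv_eq_one]
      exact unitX_add i j h a b
    · simp only [x, map_mul, map_inv, FreeGroup.lift_apply_of]
      rw [mul_inv_eq_one, mul_inv_eq_iff_eq_mul]
      exact unitX_comm i j k l hij hkl hjk hil a b
    · simp only [x, map_mul, map_inv, FreeGroup.lift_apply_of]
      rw [mul_inv_eq_one]
      exact unitX_commutator i j l hij hjl hil a b)

/-- the matrix representation of the Steinberg group, with values in endomorphisms -/
def rho : St R →* Module.End R (ℕ →₀ R) := (Units.coeHom _).comp rhoU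

@[simp] theorem rho_X (i j : ℕ) (h : i ≠ j) (a : R) : rho (X i j h a) = 1 + E i j a := by
  simp only [rho, rhoU, X, MonoidHom.comp_apply, PresentedGroup.toGroup.of]
  rfl

/-! ### embedding finite matrices -/

variable {ι : Type*} [Fintype ι] [DecidableEq ι] (e : ι → ℕ) (he : Function.Injective e)

/-- restriction of a vector to the block given by `e` -/
def resL : (ℕ →₀ R) →ₗ[R] (ι → R) where
  toFun v := fun a => v (e a)
  map_add' v w := by ext a; simp
  map_smul' r v := by ext a; simp

/-- extension of a vector by zero from the block given by `e` -/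
def extL : (ι → R) →ₗ[R] (ℕ →₀ R) where
  toFun w := ∑ a, Finsupp.single (e a) (w a)
  map_add' v w := by simp [Finset.sum_add_distrib]
  map_smul' r v := by simp [Finset.smul_sum]

theorem resL_apply (v : ℕ →₀ R) (a : ι) : resL e v a = v (e a) := rfl

include he in
theorem resL_extL (w : ι → R) : resL e (extL e w) = w := by
  ext a
  simp only [resL, extL, LinearMap.coe_mk, AddHom.coe_mk, Finsupp.finsetSum_apply]
  rw [Finset.sum_eq_single a]
  · simp
  · intro b _ hb
    rw [Finsupp.single_apply, if_neg (fun h => hb (he h))]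
  · simp

/-- the non-unital embedding of matrices: extension by zero -/
def embE (M : Matrix ι ι R) : Module.End R (ℕ →₀ R) :=
  (extL e ∘ₗ Matrix.mulVecLin M ∘ₗ resL e)

theorem embE_apply (M : Matrix ι ι R) (v : ℕ →₀ R) :
    embE e M v = ∑ a, Finsupp.single (e a) (∑ b, M a b * v (e b)) := by
  simp only [embE, LinearMap.comp_apply, extL, LinearMap.coe_mk, AddHom.coe_mk,
    Matrix.mulVecLin_apply, Matrix.mulVec, dotProduct, resL_apply]

include he in
theorem embE_mul (M N : Matrix ι ι R) : embE e (M * N) = embE e M * embE e N := by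
  apply LinearMap.ext
  intro v
  simp only [embE, Module.End.mul_apply, LinearMap.comp_apply, resL_extL e he,
    Matrix.mulVecLin_apply, Matrix.mulVec_mulVec]

theorem embE_add (M N : Matrix ι ι R) : embE e (M + N) = embE e M + embE e N := by
  apply LinearMap.ext
  intro v
  simp only [embE, LinearMap.comp_apply, LinearMap.add_apply, Matrix.mulVecLin_apply,
    Matrix.add_mulVec, map_add]

theorem embE_neg (M : Matrix ι ι R) : embE e (-M) = - embE e M := by
  apply LinearMap.ext
  intro v
  simp only [embE, LinearMap.comp_apply, LinearMap.neg_apply, Matrix.mulVecLin_apply,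
    Matrix.neg_mulVec, map_neg]

theorem embE_sub (M N : Matrix ι ι R) : embE e (M - N) = embE e M - embE e N := by
  apply LinearMap.ext
  intro v
  simp only [embE, LinearMap.comp_apply, LinearMap.sub_apply, Matrix.mulVecLin_apply,
    Matrix.sub_mulVec, map_sub]

theorem embE_zero : embE e (0 : Matrix ι ι R) = 0 := by
  apply LinearMap.ext
  intro v
  simp [embE]

/-- the multiplicative embedding of finite matrices (identity outside the block) -/
def emb (M : Matrix ι ι R) : Module.End R (ℕ →₀ R) := 1 + embE e (M - 1)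

theorem emb_one : emb e (1 : Matrix ι ι R) = 1 := by
  rw [emb, sub_self, embE_zero, add_zero]

include he in
theorem emb_mul (M N : Matrix ι ι R) : emb e (M * N) = emb e M * emb e N := by
  have h : M * N - 1 = (M - 1) + (N - 1) + (M - 1) * (N - 1) := by noncomm_ring
  rw [emb, emb, emb, h, embE_add, embE_add, embE_mul e he]
  noncomm_ring

include he in
theorem embE_injective {M N : Matrix ι ι R} (h : embE e M = embE e N) : M = N := by
  have h2 : Matrix.mulVecLin M = Matrix.mulVecLin N := by
    apply LinearMap.ext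
    intro w
    have := congrArg (fun f => resL e (f (extL e w))) h
    simpa only [embE, LinearMap.comp_apply, resL_extL e he] using this
  ext a b
  have := congrArg (fun f => f (Pi.single b 1) a) h2
  simpa using this

include he in
theorem emb_injective {M N : Matrix ι ι R} (h : emb e M = emb e N) : M = N := by
  have h2 : embE e (M - 1) = embE e (N - 1) := by
    apply LinearMap.ext
    intro v
    have := congrArg (fun f => f v) h
    simp only [emb, LinearMap.add_apply] at this
    exact add_left_cancel this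
  exact sub_left_injective (embE_injective e he h2)

theorem embE_single (a b : ι) (r : R) : embE e (Matrix.single a b r) = E (e a) (e b) r := by
  apply LinearMap.ext
  intro v
  rw [embE_apply, E_apply, Finset.sum_eq_single a]
  · congr 1
    rw [Finset.sum_eq_single b]
    · simp
    · intro c _ hc
      simp [Matrix.single_apply_of_col_ne, hc.symm]
    · simp
  · intro c _ hc
    rw [Finset.sum_eq_zero, Finsupp.single_zero]
    intro d _
    simp [Matrix.single_apply_of_row_ne, hc.symm]
  · simp

theorem emb_transvection (a b : ι) (r : R) :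
    emb e (Matrix.transvection a b r) = 1 + E (e a) (e b) r := by
  rw [emb, Matrix.transvection, add_sub_cancel_left, embE_single]

theorem embE_sum_sum {α β : Type*} [Fintype α] [Fintype β] (F : α → β → Matrix ι ι R) :
    embE e (∑ i : α, ∑ j : β, F i j) = ∑ i : α, ∑ j : β, embE e (F i j) := by
  let φ : Matrix ι ι R →+ Module.End R (ℕ →₀ R) :=
    { toFun := embE e, map_zero' := embE_zero e, map_add' := embE_add e }
  change φ _ = ∑ i : α, ∑ j : β, φ (F i j)
  simp only [map_sum]

/-- relation between embeddings along different blocks: `e = e' ∘ f`. -/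
theorem embE_comp {κ : Type*} [Fintype κ] [DecidableEq κ] (e' : κ → ℕ) (f : ι → κ)
    (M : Matrix ι ι R) :
    embE (e' ∘ f) M = embE e' (Matrix.of fun a b : κ =>
      ∑ i : ι, ∑ j : ι, if f i = a ∧ f j = b then M i j else 0) := by
  have h1 : M = ∑ i : ι, ∑ j : ι, Matrix.single i j (M i j) := Matrix.matrix_eq_sum_single M
  have h2 : (Matrix.of fun a b : κ =>
      ∑ i : ι, ∑ j : ι, if f i = a ∧ f j = b then M i j else 0) =
      ∑ i : ι, ∑ j : ι, Matrix.single (f i) (f j) (M i j) := by
    ext a b
    simp only [Matrix.of_apply, Matrix.sum_apply, Matrix.single_apply]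
  rw [h2, embE_sum_sum]
  conv_lhs => rw [h1]
  rw [embE_sum_sum]
  simp only [embE_single, Function.comp_apply]

end Rep

section Naturality

variable {R S : Type*} [CommRing R] [CommRing S] (φ : R →+* S)

/-- base change of a vector -/
def mapV (v : ℕ →₀ R) : ℕ →₀ S := Finsupp.mapRange φ (map_zero φ) v

@[simp] theorem mapV_apply (v : ℕ →₀ R) (i : ℕ) : mapV φ v i = φ (v i) := by simp [mapV]

theorem mapV_single (i : ℕ) (r : R) :
    mapV φ (Finsupp.single i r) = Finsupp.single i (φ r) := by
  simp [mapV]

theorem mapV_add (v w : ℕ →₀ R) : mapV φ (v + w) = mapV φ v + mapV φ w := by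
  ext i; simp

theorem rho_stMap (g : St R) (v : ℕ →₀ R) : rho (stMap φ g) (mapV φ v) = mapV φ (rho g v) := by
  induction g using St_induction generalizing v with
  | h1 => simp
  | hX i j h a =>
    rw [stMap_X, rho_X, rho_X]
    simp only [LinearMap.add_apply, Module.End.one_apply, E_apply, mapV_add, mapV_single,
      mapV_apply, map_mul]
  | hmul g g' hg hg' =>
    rw [map_mul, map_mul, map_mul, Module.End.mul_apply, Module.End.mul_apply, hg', hg]

theorem emb_map {ι : Type*} [Fintype ι] [DecidableEq ι] (e : ι → ℕ)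
    (M : Matrix ι ι R) (v : ℕ →₀ R) :
    emb e (M.map φ) (mapV φ v) = mapV φ (emb e M v) := by
  simp only [emb, LinearMap.add_apply, Module.End.one_apply, mapV_add]
  congr 1
  rw [embE_apply, embE_apply]
  have : ∀ (F : ι → ℕ →₀ R), mapV φ (∑ a, F a) = ∑ a, mapV φ (F a) := by
    intro F
    let ψ : (ℕ →₀ R) →+ (ℕ →₀ S) :=
      { toFun := mapV φ, map_zero' := by ext; simp, map_add' := mapV_add φ }
    exact map_sum ψ F _
  rw [this]
  refine Finset.sum_congr rfl fun a _ => ?_
  rw [mapV_single]
  congr 1
  rw [map_sum]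
  refine Finset.sum_congr rfl fun b _ => ?_
  rw [map_mul, mapV_apply]
  congr 1
  simp only [Matrix.sub_apply, Matrix.map_apply, map_sub, Matrix.one_apply]
  split_ifs <;> simp

/-- naturality of the matrix representation on elements supported in a finite block -/
theorem rho_stMap_of_emb {ι : Type*} [Fintype ι] [DecidableEq ι] (e : ι → ℕ)
    {g : St R} {M : Matrix ι ι R} (h : rho g = emb e M) :
    rho (stMap φ g) = emb e (M.map φ) := by
  apply Finsupp.lhom_ext'
  intro i
  apply LinearMap.ext_ring
  have h1 : (Finsupp.single i (1 : S)) = mapV φ (Finsupp.single i 1) := by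
    rw [mapV_single, map_one]
  simp only [LinearMap.comp_apply, Finsupp.lsingle_apply]
  rw [h1, rho_stMap, emb_map, h]

end Naturality

end Crest.Agent.R171
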