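import Crest.Agent.R171.Defs
import Crest.Agent.R171.StRep

/-!
FACT A: the kernel of `St(R) → GL(R)` (finitary automorphisms of `ℕ →₀ R`) is central.
-/

set_option autoImplicit false
set_option linter.unusedSimpArgs false

open Crest.AlgebraR.Steinberg

namespace Crest.Agent.R171.Central

variable {R : Type*} [CommRing R]

/-- the elementary matrix unit `a E_ij` acting on `ℕ →₀ R`. -/
noncomputable def E (i j : ℕ) (a : R) : Module.End R (ℕ →₀ R) :=
  (Finsupp.lsingle i).comp (a • (Finsupp.lapply j))

@[simp] theorem E_apply (i j : ℕ) (a : R) (v : ℕ →₀ R) :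
    E i j a v = Finsupp.single i (a * v j) := by
  simp [E]

theorem E_mul_E (i j k l : ℕ) (a b : R) :
    E i j a * E k l b = if j = k then E i l (a * b) else 0 := by
  ext m n
  by_cases h : j = k
  · subst h; simp [Module.End.mul_apply, mul_assoc]
  · simp [Module.End.mul_apply, h, Finsupp.single_apply, Ne.symm h]

theorem E_add (i j : ℕ) (a b : R) : E i j (a + b) = E i j a + E i j b := by
  ext m n
  simp [add_mul]

@[simp] theorem E_zero (i j : ℕ) : E i j (0 : R) = 0 := by
  ext m n
  simp

/-- the elementary automorphism `1 + a E_ij`. -/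
noncomputable def el (i j : ℕ) (h : i ≠ j) (a : R) : (Module.End R (ℕ →₀ R))ˣ where
  val := 1 + E i j a
  inv := 1 + E i j (-a)
  val_inv := by
    rw [mul_add, add_mul, add_mul, E_mul_E, if_neg (Ne.symm h)]
    have : E i j a + E i j (-a) = 0 := by rw [← E_add]; simp
    simp only [mul_one, one_mul, add_zero]
    rw [add_assoc, this, add_zero]
  inv_val := by
    rw [mul_add, add_mul, add_mul, E_mul_E, if_neg (Ne.symm h)]
    have : E i j (-a) + E i j a = 0 := by rw [← E_add]; simp
    simp only [mul_one, one_mul, add_zero]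
    rw [add_assoc, this, add_zero]

@[simp] theorem el_val (i j : ℕ) (h : i ≠ j) (a : R) :
    (el i j h a : Module.End R (ℕ →₀ R)) = 1 + E i j a := rfl

@[simp] theorem el_inv_val (i j : ℕ) (h : i ≠ j) (a : R) :
    ((el i j h a)⁻¹ : (Module.End R (ℕ →₀ R))ˣ) = el i j h (-a) := by
  ext1
  rfl

theorem el_apply (i j : ℕ) (h : i ≠ j) (a : R) (v : ℕ →₀ R) :
    (el i j h a : Module.End R (ℕ →₀ R)) v = v + Finsupp.single i (a * v j) := by
  simp

/-- The generators map to elementary automorphisms. -/
noncomputable def genRep (g : Gen R) : (Module.End R (ℕ →₀ R))ˣ := el g.1.1.1 g.1.1.2 g.1.2 g.2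

theorem lift_x (i j : ℕ) (h : i ≠ j) (a : R) :
    FreeGroup.lift (genRep (R := R)) (x i j h a) = el i j h a := by
  simp [x, genRep]

theorem rep_rels : ∀ r ∈ rels R, FreeGroup.lift (genRep (R := R)) r = 1 := by
  rintro w ((⟨i, j, h, a, b, rfl⟩ | ⟨i, j, k, l, hij, hkl, a, b, hjk, hil, rfl⟩) |
    ⟨i, j, l, hij, hjl, hil, a, b, rfl⟩)
  · rw [map_mul, map_mul, map_inv, lift_x, lift_x, lift_x, mul_inv_eq_one]
    ext1
    simp only [Units.val_mul, el_val, mul_add, add_mul, E_mul_E, if_neg (Ne.symm h), mul_one,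
      one_mul, E_add, add_zero]
    abel
  · rw [map_mul, map_mul, map_mul, map_inv, map_inv, lift_x, lift_x, mul_inv_eq_one,
      mul_inv_eq_iff_eq_mul]
    ext1
    simp only [Units.val_mul, el_val, mul_add, add_mul, E_mul_E, if_neg hjk, if_neg (Ne.symm hil),
      mul_one, one_mul, add_zero]
    abel
  · rw [map_mul, map_mul, map_mul, map_mul, map_inv, map_inv, map_inv, lift_x, lift_x, lift_x,
      mul_inv_eq_one, mul_inv_eq_iff_eq_mul, mul_inv_eq_iff_eq_mul]
    ext1
    simp only [Units.val_mul, el_val, mul_add, add_mul, E_mul_E, if_neg hjl,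
      if_neg (Ne.symm hij), if_neg (Ne.symm hil), if_neg (Ne.symm hjl), mul_one, one_mul,
      add_zero, if_true, if_neg hil, if_neg hij]
    abel

/-- The standard representation `St(R) → GL(ℕ →₀ R)`. -/
noncomputable def rep : St R →* (Module.End R (ℕ →₀ R))ˣ :=
  PresentedGroup.toGroup rep_rels

/-- generators of `St(R)` (junk value `1` if `i = j`). -/
noncomputable abbrev X (i j : ℕ) (a : R) : St R := (stFam R).x i j a

theorem rep_X (i j : ℕ) (h : i ≠ j) (a : R) : rep (X i j a) = el i j h a := by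
  simp only [X, stFam, h, ne_eq, not_false_eq_true, dite_true, rep]
  rw [PresentedGroup.toGroup.of]
  rfl

theorem closure_X : Subgroup.closure {g : St R | ∃ i j, i ≠ j ∧ ∃ a, g = X i j a} = ⊤ := by
  rw [eq_top_iff, ← PresentedGroup.closure_range_of (rels R), Subgroup.closure_le]
  rintro _ ⟨⟨⟨⟨i, j⟩, hij⟩, a⟩, rfl⟩
  apply Subgroup.subset_closure
  refine ⟨i, j, hij, a, ?_⟩
  simp [X, stFam, show i ≠ j from hij]

/-! ### homs from finitely supported functions -/

theorem exists_hom {G : Type*} [Group G] (y : ℕ → R → G)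
    (hadd : ∀ i a b, y i (a + b) = y i a * y i b)
    (hcomm : ∀ i a j b, y i a * y j b = y j b * y i a) :
    ∃ Ψ : Multiplicative (ℕ →₀ R) →* G,
      (∀ i a, Ψ (Multiplicative.ofAdd (Finsupp.single i a)) = y i a) ∧
      ∀ f, Ψ f ∈ Subgroup.closure {g | ∃ i a, g = y i a} := by
  set k : Set G := {g | ∃ i a, g = y i a} with hk
  have hc : ∀ a ∈ k, ∀ b ∈ k, a * b = b * a := by
    rintro _ ⟨i, a, rfl⟩ _ ⟨j, b, rfl⟩
    exact hcomm i a j b
  have hM : IsMulCommutative (Subgroup.closure k) := Subgroup.isMulCommutative_closure hc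
  let _ : CommGroup (Subgroup.closure k) :=
    { (inferInstance : Group (Subgroup.closure k)) with
      mul_comm := hM.is_comm.comm }
  let F : ℕ → R →+ Additive (Subgroup.closure k) := fun i =>
    { toFun := fun a => Additive.ofMul ⟨y i a, Subgroup.subset_closure ⟨i, a, rfl⟩⟩
      map_zero' := by
        have h := hadd i 0 0
        rw [add_zero] at h
        have h1 : y i (0 : R) = 1 := by
          simpa using h
        apply Additive.toMul.injective
        ext1
        exact h1
      map_add' := fun a b => by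
        apply Additive.toMul.injective
        ext1
        exact hadd i a b }
  let L := Finsupp.liftAddHom F
  refine ⟨(Subgroup.closure k).subtype.comp (AddMonoidHom.toMultiplicativeLeft L), ?_, ?_⟩
  · intro i a
    have : L (Finsupp.single i a) = F i a := by simp [L]
    change ((Additive.toMul (L (Finsupp.single i a)) : Subgroup.closure k) : G) = y i a
    rw [this]
    rfl
  · intro f
    exact ((Additive.toMul (L (Multiplicative.toAdd f)) : Subgroup.closure k)).2

/-! ### column and row subgroups -/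

/-- the generator `x_{in}(a)` for `i ≠ n`, and `1` for `i = n`. -/
theorem X_self (i : ℕ) (a : R) : X i i a = (1 : St R) := by
  simp [X, stFam]

theorem X_zero (i j : ℕ) : X i j (0 : R) = 1 := by
  by_cases h : i = j
  · subst h; exact X_self i 0
  · have h1 := (stFam R).add i j h 0 0
    rw [add_zero] at h1
    simpa using h1

theorem X_inv (i j : ℕ) (a : R) : (X i j a)⁻¹ = X i j (-a) := by
  by_cases h : i = j
  · subst h; rw [X_self, X_self, inv_one]
  · rw [inv_eq_iff_mul_eq_one, X, X, (stFam R).add i j h]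
    simp [X_zero i j]

theorem X_add (i j : ℕ) (a b : R) : X i j (a + b) = X i j a * X i j b := by
  by_cases h : i = j
  · subst h; simp [X_self]
  · exact ((stFam R).add i j h a b).symm

/-- column subgroup -/
def col (R : Type*) [CommRing R] (n : ℕ) : Subgroup (St R) :=
  Subgroup.closure {g | ∃ i a, g = X i n a}

/-- row subgroup -/
def row (R : Type*) [CommRing R] (n : ℕ) : Subgroup (St R) :=
  Subgroup.closure {g | ∃ j a, g = X n j a}

/-- the subgroup generated by `x_{ij}(a)` with `i, j ≠ n`. -/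
def away (R : Type*) [CommRing R] (n : ℕ) : Subgroup (St R) :=
  Subgroup.closure {g | ∃ i j, i ≠ j ∧ i ≠ n ∧ j ≠ n ∧ ∃ a, g = X i j a}

theorem X_commute_col (n i j : ℕ) (a b : R) : X i n a * X j n b = X j n b * X i n a := by
  by_cases hi : i = n
  · subst hi; simp [X_self]
  by_cases hj : j = n
  · subst hj; simp [X_self]
  exact (stFam R).comm i n j n hi hj (Ne.symm hj) hi a b

theorem X_commute_row (n i j : ℕ) (a b : R) : X n i a * X n j b = X n j b * X n i a := by
  by_cases hi : i = n
  · subst hi; simp [X_self]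
  by_cases hj : j = n
  · subst hj; simp [X_self]
  exact (stFam R).comm n i n j (Ne.symm hi) (Ne.symm hj) hi (Ne.symm hj) a b

theorem col_ker (n : ℕ) (p : St R) (hp : p ∈ col R n) (h1 : rep p = 1) : p = 1 := by
  obtain ⟨Ψ, hΨ, -⟩ := exists_hom (fun i a => (X i n a : St R)) (fun i a b => X_add i n a b)
    (fun i a j b => X_commute_col n i j a b)
  have hr : ∀ (f : ℕ →₀ R) (v : ℕ →₀ R),
      (rep (Ψ (Multiplicative.ofAdd f)) : Module.End R (ℕ →₀ R)) v = v + v n • (f.erase n) := by
    intro f
    induction f using Finsupp.induction_linear with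
    | zero => intro v; simp
    | add f g hf hg =>
      intro v
      rw [ofAdd_add, map_mul, map_mul, Units.val_mul, Module.End.mul_apply, hg, hf,
        Finsupp.erase_add]
      simp only [Finsupp.add_apply, Finsupp.smul_apply, Finsupp.erase_same, smul_eq_mul, mul_zero,
        add_zero, smul_add]
      abel
    | single i a =>
      intro v
      rw [hΨ]
      by_cases hi : i = n
      · subst hi; simp [X_self]
      · rw [rep_X i n hi, el_apply, Finsupp.erase_single_ne (Ne.symm hi)]
        simp [mul_comm]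
  have hsurj : ∃ f : ℕ →₀ R, p = Ψ (Multiplicative.ofAdd f) ∧ f n = 0 := by
    refine Subgroup.closure_induction (p := fun p _ => ∃ f : ℕ →₀ R,
      p = Ψ (Multiplicative.ofAdd f) ∧ f n = 0) ?_ ?_ ?_ ?_ hp
    · rintro _ ⟨i, a, rfl⟩
      by_cases hi : i = n
      · subst hi
        refine ⟨0, ?_, rfl⟩
        simp [X_self]
      · refine ⟨Finsupp.single i a, (hΨ i a).symm, ?_⟩
        simp [Finsupp.single_apply, hi]
    · exact ⟨0, by simp, rfl⟩
    · rintro _ _ _ _ ⟨f, rfl, hf⟩ ⟨g, rfl, hg⟩
      exact ⟨f + g, by rw [ofAdd_add, map_mul], by simp [hf, hg]⟩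
    · rintro _ _ ⟨f, rfl, hf⟩
      exact ⟨-f, by rw [ofAdd_neg, map_inv], by simp [hf]⟩
  obtain ⟨f, rfl, hf⟩ := hsurj
  have h2 := hr f (Finsupp.single n 1)
  rw [h1] at h2
  simp only [Units.val_one, Module.End.one_apply, Finsupp.single_eq_same, one_smul] at h2
  have h3 : f.erase n = 0 := by simpa using h2
  have h4 : f = 0 := by
    rw [← Finsupp.single_add_erase n f, h3, hf]
    simp
  rw [h4]; simp

theorem row_ker (n : ℕ) (p : St R) (hp : p ∈ row R n) (h1 : rep p = 1) : p = 1 := by
  obtain ⟨Ψ, hΨ, -⟩ := exists_hom (fun i a => (X n i a : St R)) (fun i a b => X_add n i a b)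
    (fun i a j b => X_commute_row n i j a b)
  have hr : ∀ (f : ℕ →₀ R) (v : ℕ →₀ R),
      (rep (Ψ (Multiplicative.ofAdd f)) : Module.End R (ℕ →₀ R)) v =
        v + Finsupp.single n ((f.erase n).sum (fun j a => a * v j)) := by
    intro f
    induction f using Finsupp.induction_linear with
    | zero => intro v; simp
    | add f g hf hg =>
      intro v
      rw [ofAdd_add, map_mul, map_mul, Units.val_mul, Module.End.mul_apply, hg, hf,
        Finsupp.erase_add, Finsupp.sum_add_index' (by simp) (by intros; ring)]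
      have : (f.erase n).sum (fun j a => a * (v + Finsupp.single n ((g.erase n).sum fun j a => a * v j)) j)
          = (f.erase n).sum (fun j a => a * v j) := by
        apply Finsupp.sum_congr
        intro j hj
        have hjn : j ≠ n := by
          rintro rfl
          simp at hj
        simp [Finsupp.single_apply, Ne.symm hjn]
      rw [this, Finsupp.single_add]
      abel
    | single i a =>
      intro v
      rw [hΨ]
      by_cases hi : i = n
      · subst hi; simp [X_self]
      · rw [rep_X n i (Ne.symm hi), el_apply, Finsupp.erase_single_ne (Ne.symm hi)]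
        simp
  have hsurj : ∃ f : ℕ →₀ R, p = Ψ (Multiplicative.ofAdd f) ∧ f n = 0 := by
    refine Subgroup.closure_induction (p := fun p _ => ∃ f : ℕ →₀ R,
      p = Ψ (Multiplicative.ofAdd f) ∧ f n = 0) ?_ ?_ ?_ ?_ hp
    · rintro _ ⟨i, a, rfl⟩
      by_cases hi : i = n
      · subst hi
        refine ⟨0, ?_, rfl⟩
        simp [X_self]
      · refine ⟨Finsupp.single i a, (hΨ i a).symm, ?_⟩
        simp [Finsupp.single_apply, hi]
    · exact ⟨0, by simp, rfl⟩
    · rintro _ _ _ _ ⟨f, rfl, hf⟩ ⟨g, rfl, hg⟩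
      exact ⟨f + g, by rw [ofAdd_add, map_mul], by simp [hf, hg]⟩
    · rintro _ _ ⟨f, rfl, hf⟩
      exact ⟨-f, by rw [ofAdd_neg, map_inv], by simp [hf]⟩
  obtain ⟨f, rfl, hf⟩ := hsurj
  have h4 : f = 0 := by
    ext j
    by_cases hj : j = n
    · subst hj; simpa using hf
    · have h2 := hr f (Finsupp.single j 1)
      rw [h1] at h2
      simp only [Units.val_one, Module.End.one_apply] at h2
      have h3 : (f.erase n).sum (fun j' a => a * (Finsupp.single j (1:R)) j') = 0 := by
        have h5 := left_eq_add.mp h2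
        have h6 := DFunLike.congr_fun h5 n
        rwa [Finsupp.single_eq_same] at h6
      rw [Finsupp.sum_eq_single j] at h3
      · simpa [Finsupp.erase_ne hj] using h3
      · intro b _ hb
        simp [Finsupp.single_apply, Ne.symm hb]
      · simp
  rw [h4]; simp

/-! ### conjugation -/

theorem conj_col (n i j k : ℕ) (hij : i ≠ j) (hi : i ≠ n) (hj : j ≠ n) (a b : R) :
    X i j a * X k n b * (X i j a)⁻¹ = (if j = k then X i n (a * b) else 1) * X k n b := by
  by_cases hk : k = n
  · subst hk
    rw [if_neg hj]; simp [X_self]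
  by_cases hjk : j = k
  · subst hjk
    rw [if_pos rfl]
    have h := (stFam R).mul i j n hij hj hi a b
    rw [mul_inv_eq_iff_eq_mul] at h
    exact h
  · rw [if_neg hjk, one_mul, mul_inv_eq_iff_eq_mul]
    exact (stFam R).comm i j k n hij hk hjk hi a b

theorem conj_row (n i j k : ℕ) (hij : i ≠ j) (hi : i ≠ n) (hj : j ≠ n) (a b : R) :
    X i j a * X n k b * (X i j a)⁻¹ = (if i = k then X n j (-(b * a)) else 1) * X n k b := by
  by_cases hk : k = n
  · subst hk
    rw [if_neg hi]; simp [X_self]
  by_cases hik : i = k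
  · subst hik
    rw [if_pos rfl]
    have h := (stFam R).mul n i j (Ne.symm hi) hij (Ne.symm hj) b a
    rw [mul_inv_eq_iff_eq_mul, mul_inv_eq_iff_eq_mul] at h
    rw [mul_inv_eq_iff_eq_mul, ← X_inv, mul_assoc, eq_inv_mul_iff_mul_eq]
    rw [← mul_assoc]
    exact h.symm
  · rw [if_neg hik, one_mul, mul_inv_eq_iff_eq_mul]
    exact (stFam R).comm i j n k hij (Ne.symm hk) hj hik a b

theorem X_mem_col (n i : ℕ) (a : R) : X i n a ∈ col R n := Subgroup.subset_closure ⟨i, a, rfl⟩

theorem X_mem_row (n i : ℕ) (a : R) : X n i a ∈ row R n := Subgroup.subset_closure ⟨i, a, rfl⟩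

theorem gen_conj_mem_col (n i j : ℕ) (hij : i ≠ j) (hi : i ≠ n) (hj : j ≠ n) (a : R) (p : St R)
    (hp : p ∈ col R n) : X i j a * p * (X i j a)⁻¹ ∈ col R n := by
  have : col R n ≤ (col R n).comap (MulAut.conj (X i j a : St R)).toMonoidHom := by
    rw [col, Subgroup.closure_le]
    rintro _ ⟨k, b, rfl⟩
    change X i j a * X k n b * (X i j a)⁻¹ ∈ col R n
    rw [conj_col n i j k hij hi hj]
    refine mul_mem ?_ (X_mem_col n k b)
    split_ifs
    · exact X_mem_col n i _
    · exact one_mem _
  exact this hp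

theorem gen_conj_mem_row (n i j : ℕ) (hij : i ≠ j) (hi : i ≠ n) (hj : j ≠ n) (a : R) (p : St R)
    (hp : p ∈ row R n) : X i j a * p * (X i j a)⁻¹ ∈ row R n := by
  have : row R n ≤ (row R n).comap (MulAut.conj (X i j a : St R)).toMonoidHom := by
    rw [row, Subgroup.closure_le]
    rintro _ ⟨k, b, rfl⟩
    change X i j a * X n k b * (X i j a)⁻¹ ∈ row R n
    rw [conj_row n i j k hij hi hj]
    refine mul_mem ?_ (X_mem_row n k b)
    split_ifs
    · exact X_mem_row n j _
    · exact one_mem _
  exact this hp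

theorem away_conj_mem (n : ℕ) (P : Subgroup (St R))
    (hP : ∀ i j, i ≠ j → i ≠ n → j ≠ n → ∀ (a : R) (p : St R), p ∈ P →
      X i j a * p * (X i j a)⁻¹ ∈ P)
    (z : St R) (hz : z ∈ away R n) : ∀ p ∈ P, z * p * z⁻¹ ∈ P := by
  have key : (∀ p ∈ P, z * p * z⁻¹ ∈ P) ∧ (∀ p ∈ P, z⁻¹ * p * z ∈ P) := by
    refine Subgroup.closure_induction (p := fun z _ => (∀ p ∈ P, z * p * z⁻¹ ∈ P) ∧
      (∀ p ∈ P, z⁻¹ * p * z ∈ P)) ?_ ?_ ?_ ?_ hz
    · rintro _ ⟨i, j, hij, hi, hj, a, rfl⟩
      refine ⟨hP i j hij hi hj a, fun p hp => ?_⟩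
      have := hP i j hij hi hj (-a) p hp
      rw [← X_inv, inv_inv] at this
      exact this
    · simp
    · rintro x y _ _ ⟨hx1, hx2⟩ ⟨hy1, hy2⟩
      refine ⟨fun p hp => ?_, fun p hp => ?_⟩
      · have := hx1 _ (hy1 p hp)
        rw [mul_inv_rev]
        simpa only [mul_assoc] using this
      · have := hy2 _ (hx2 p hp)
        rw [mul_inv_rev]
        simpa only [mul_assoc] using this
    · rintro x _ ⟨hx1, hx2⟩
      refine ⟨fun p hp => ?_, fun p hp => ?_⟩
      · rw [inv_inv]; exact hx2 p hp
      · rw [inv_inv]; exact hx1 p hp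
  exact key.1

theorem exists_away (z : St R) : ∃ n, z ∈ away R n := by
  have key : ∃ N, ∀ n, N ≤ n → z ∈ away R n := by
    have hz : z ∈ Subgroup.closure {g : St R | ∃ i j, i ≠ j ∧ ∃ a, g = X i j a} := by
      rw [closure_X]; trivial
    refine Subgroup.closure_induction (p := fun z _ => ∃ N, ∀ n, N ≤ n → z ∈ away R n)
      ?_ ?_ ?_ ?_ hz
    · rintro _ ⟨i, j, hij, a, rfl⟩
      refine ⟨max i j + 1, fun n hn => Subgroup.subset_closure ⟨i, j, hij, ?_, ?_, a, rfl⟩⟩
      · have := le_max_left i j; omega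
      · have := le_max_right i j; omega
    · exact ⟨0, fun n _ => one_mem _⟩
    · rintro x y _ _ ⟨N, hN⟩ ⟨M, hM⟩
      exact ⟨max N M, fun n hn => mul_mem (hN n (le_trans (le_max_left _ _) hn))
        (hM n (le_trans (le_max_right _ _) hn))⟩
    · rintro x _ ⟨N, hN⟩
      exact ⟨N, fun n hn => inv_mem (hN n hn)⟩
  obtain ⟨N, hN⟩ := key
  exact ⟨N, hN N le_rfl⟩

/-- **FACT A**: the kernel of `St(R) → GL(R)` is central. -/
theorem ker_central (z : St R) (hz : rep z = 1) (g : St R) : z * g = g * z := by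
  obtain ⟨n, hn⟩ := exists_away z
  have hcol : ∀ p ∈ col R n, z * p * z⁻¹ = p := by
    intro p hp
    have h1 := away_conj_mem n (col R n)
      (fun i j hij hi hj a p hp => gen_conj_mem_col n i j hij hi hj a p hp) z hn p hp
    have h2 : z * p * z⁻¹ * p⁻¹ ∈ col R n := mul_mem h1 (inv_mem hp)
    have h3 : rep (z * p * z⁻¹ * p⁻¹) = 1 := by
      rw [map_mul, map_mul, map_mul, map_inv, map_inv, hz]; simp
    exact mul_inv_eq_one.mp (col_ker n _ h2 h3)
  have hrow : ∀ p ∈ row R n, z * p * z⁻¹ = p := by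
    intro p hp
    have h1 := away_conj_mem n (row R n)
      (fun i j hij hi hj a p hp => gen_conj_mem_row n i j hij hi hj a p hp) z hn p hp
    have h2 : z * p * z⁻¹ * p⁻¹ ∈ row R n := mul_mem h1 (inv_mem hp)
    have h3 : rep (z * p * z⁻¹ * p⁻¹) = 1 := by
      rw [map_mul, map_mul, map_mul, map_inv, map_inv, hz]; simp
    exact mul_inv_eq_one.mp (row_ker n _ h2 h3)
  have hc : ∀ i a, z * X i n a = X i n a * z := fun i a =>
    mul_inv_eq_iff_eq_mul.mp (hcol _ (X_mem_col n i a))
  have hr : ∀ i a, z * X n i a = X n i a * z := fun i a =>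
    mul_inv_eq_iff_eq_mul.mp (hrow _ (X_mem_row n i a))
  have hgen : Subgroup.closure {g : St R | ∃ i j, i ≠ j ∧ ∃ a, g = X i j a} ≤
      Subgroup.centralizer {z} := by
    rw [Subgroup.closure_le]
    rintro _ ⟨i, j, hij, a, rfl⟩
    by_cases hj : j = n
    · subst hj
      rw [SetLike.mem_coe, Subgroup.mem_centralizer_singleton_iff]
      exact (hc i a).symm
    by_cases hi : i = n
    · subst hi
      rw [SetLike.mem_coe, Subgroup.mem_centralizer_singleton_iff]
      exact (hr j a).symm
    · have h := (stFam R).mul i n j hi (Ne.symm hj) hij a 1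
      rw [mul_one] at h
      change _ = X i j a at h
      rw [← h]
      have m1 : X i n a ∈ Subgroup.centralizer ({z} : Set (St R)) :=
        Subgroup.mem_centralizer_singleton_iff.mpr (hc i a).symm
      have m2 : X n j (1 : R) ∈ Subgroup.centralizer ({z} : Set (St R)) :=
        Subgroup.mem_centralizer_singleton_iff.mpr (hr j 1).symm
      exact mul_mem (mul_mem (mul_mem m1 m2) (inv_mem m1)) (inv_mem m2)
  have hg : g ∈ Subgroup.centralizer ({z} : Set (St R)) := by
    apply hgen
    rw [closure_X]; trivial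
  exact (Subgroup.mem_centralizer_singleton_iff.mp hg).symm

theorem rep_val_eq_rho (g : St R) : (rep g : Module.End R (ℕ →₀ R)) = rho g := by
  induction g using St_induction with
  | h1 => simp
  | hX i j h a =>
    rw [rho_X]
    have : Crest.Agent.R171.X i j h a = X i j a := by
      simp only [X, stFam, ne_eq, h, not_false_eq_true, dite_true]
      rfl
    rw [this, rep_X i j h, el_val]
    congr 1
    apply LinearMap.ext
    intro v
    rw [E_apply, R171.E_apply]
  | hmul g g' h1 h2 => rw [map_mul, map_mul, Units.val_mul, h1, h2]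

end Crest.Agent.R171.Central

namespace Crest.Agent.R171

/-- **FACT A**: the kernel of `rho` is central. -/
theorem rho_ker_central {R : Type*} [CommRing R] (g : St R) (hg : rho g = 1) (h : St R) :
    g * h = h * g := by
  apply Central.ker_central
  ext1
  rw [Central.rep_val_eq_rho, hg]
  rfl

end Crest.Agent.R171
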