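import Crest.Agent.R171.Defs

/-!
T6: the Dennis trace 3-cocycle on `St(A)` attached to three derivations.
-/

set_option autoImplicit false

open Crest.AlgebraR.Steinberg

namespace Crest.Agent.R171

theorem exists_dennis {A M : Type} [CommRing A] [CommRing M] (𝒟 : DerData A M) :
    ∃ f : Cocycle3 (St A) M, ∀ u v w : Aˣ,
      f.pair (((stFam A).reindex (Fin.val (n := 12)) Fin.val_injective).g1 u)
          (((stFam A).reindex (Fin.val (n := 12)) Fin.val_injective).g2 v)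
          (((stFam A).reindex (Fin.val (n := 12)) Fin.val_injective).g3 w) =
        4 * (𝒟.q ((u⁻¹ : Aˣ) : A) * 𝒟.q ((v⁻¹ : Aˣ) : A) * 𝒟.q ((w⁻¹ : Aˣ) : A)) *
          Matrix.det !![𝒟.D 0 (u : A), 𝒟.D 1 (u : A), 𝒟.D 2 (u : A);
                        𝒟.D 0 (v : A), 𝒟.D 1 (v : A), 𝒟.D 2 (v : A);
                        𝒟.D 0 (w : A), 𝒟.D 1 (w : A), 𝒟.D 2 (w : A)] := by
  sorry

end Crest.Agent.R171
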