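import Crest.Agent.R171.Defs
import Crest.Agent.R171.StRep

/-!
Dennis trace 3-cocycle by truncation: for a group `G` with a representation
`ρ : G →* Module.End A (ℕ →₀ A)` by endomorphisms differing from the identity in finitely many
matrix entries, and derivation data `𝒟 : DerData A M`, the function
`(u, v, w) ↦ tr (q((uvw)⁻¹) D_a(u) D_b(v) D_c(w))` is a 3-cocycle with values in `M`.
-/

set_option autoImplicit false

open Matrix

namespace Crest.Agent.R171.D5

section fin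

variable {A M : Type} [CommRing A] [CommRing M] (𝒟 : DerData A M)

theorem derMapZero (k : Fin 3) : 𝒟.D k 0 = 0 := by
  have h := 𝒟.add k 0 0
  rw [add_zero] at h
  exact left_eq_add.1 h

theorem derMapOne (k : Fin 3) : 𝒟.D k 1 = 0 := by
  have h := 𝒟.leib k 1 1
  rw [mul_one, _root_.map_one, one_mul, mul_one] at h
  exact left_eq_add.1 h

/-- the additive version of `D k` -/
def derHom (k : Fin 3) : A →+ M where
  toFun := 𝒟.D k
  map_zero' := derMapZero 𝒟 k
  map_add' := 𝒟.add k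

theorem derMapIte (k : Fin 3) (p : Prop) [Decidable p] :
    𝒟.D k (if p then 1 else 0) = 0 := by
  split_ifs
  · exact derMapOne 𝒟 k
  · exact derMapZero 𝒟 k

variable {n : Type} [Fintype n] [DecidableEq n]

omit [DecidableEq n] in
theorem derMapMatrixMul (k : Fin 3) (U V : Matrix n n A) :
    (U * V).map (𝒟.D k) = U.map 𝒟.q * V.map (𝒟.D k) + U.map (𝒟.D k) * V.map 𝒟.q := by
  ext i j
  simp only [Matrix.map_apply, Matrix.mul_apply, Matrix.add_apply]
  have h1 : 𝒟.D k (∑ l, U i l * V l j) = ∑ l, 𝒟.D k (U i l * V l j) :=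
    map_sum (derHom 𝒟 k) _ _
  rw [h1, ← Finset.sum_add_distrib]
  exact Finset.sum_congr rfl fun l _ => 𝒟.leib k _ _

/-- The basic trilinear expression at a finite level; `P` plays the role of `(UVW)⁻¹`. -/
def psi (k : Fin 3 → Fin 3) (P U V W : Matrix n n A) : M :=
  trace (P.map 𝒟.q * U.map (𝒟.D (k 0)) * V.map (𝒟.D (k 1)) * W.map (𝒟.D (k 2)))

theorem psi_cocycle (k : Fin 3 → Fin 3) (a b c d a' b' c' d' : Matrix n n A)
    (ha : a' * a = 1) (hd : d * d' = 1) :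
    psi 𝒟 k (d' * c' * b') b c d - psi 𝒟 k (d' * c' * b' * a') (a * b) c d +
      psi 𝒟 k (d' * c' * b' * a') a (b * c) d - psi 𝒟 k (d' * c' * b' * a') a b (c * d) +
      psi 𝒟 k (c' * b' * a') a b c = 0 := by
  have hq : ∀ X Y : Matrix n n A, (X * Y).map 𝒟.q = X.map 𝒟.q * Y.map 𝒟.q := fun X Y =>
    Matrix.map_mul
  have hq1 : (1 : Matrix n n A).map 𝒟.q = 1 := Matrix.map_one _ (_root_.map_zero _) (_root_.map_one _)
  have ha' : a'.map 𝒟.q * a.map 𝒟.q = 1 := by rw [← hq, ha, hq1]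
  have hd' : d.map 𝒟.q * d'.map 𝒟.q = 1 := by rw [← hq, hd, hq1]
  unfold psi
  simp only [derMapMatrixMul, hq]
  obtain ⟨qa, hqa⟩ : ∃ X, X = a.map 𝒟.q := ⟨_, rfl⟩
  obtain ⟨qb, hqb⟩ : ∃ X, X = b.map 𝒟.q := ⟨_, rfl⟩
  obtain ⟨qc, hqc⟩ : ∃ X, X = c.map 𝒟.q := ⟨_, rfl⟩
  obtain ⟨qd, hqd⟩ : ∃ X, X = d.map 𝒟.q := ⟨_, rfl⟩
  obtain ⟨pa, hpa⟩ : ∃ X, X = a'.map 𝒟.q := ⟨_, rfl⟩
  obtain ⟨pb, hpb⟩ : ∃ X, X = b'.map 𝒟.q := ⟨_, rfl⟩
  obtain ⟨pc, hpc⟩ : ∃ X, X = c'.map 𝒟.q := ⟨_, rfl⟩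
  obtain ⟨pd, hpd⟩ : ∃ X, X = d'.map 𝒟.q := ⟨_, rfl⟩
  rw [← hpa, ← hqa] at ha'
  rw [← hpd, ← hqd] at hd'
  rw [← hpa, ← hqa, ← hqb, ← hqc, ← hqd, ← hpb, ← hpc, ← hpd]
  generalize a.map (𝒟.D (k 0)) = A0
  generalize b.map (𝒟.D (k 0)) = B0
  generalize b.map (𝒟.D (k 1)) = B1
  generalize c.map (𝒟.D (k 1)) = C1
  generalize c.map (𝒟.D (k 2)) = C2
  generalize d.map (𝒟.D (k 2)) = D2
  have e1 : pd * pc * pb * pa * (qa * B0 + A0 * qb) * C1 * D2 =
      pd * pc * pb * B0 * C1 * D2 + pd * pc * pb * pa * A0 * qb * C1 * D2 := by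
    have : pd * pc * pb * pa * (qa * B0) = pd * pc * pb * B0 := by
      rw [← mul_assoc, mul_assoc (pd * pc * pb) pa qa, ha', mul_one]
    rw [mul_add, add_mul, add_mul, this, ← mul_assoc]
  have e2 : pd * pc * pb * pa * A0 * (qb * C1 + B1 * qc) * D2 =
      pd * pc * pb * pa * A0 * qb * C1 * D2 + pd * pc * pb * pa * A0 * B1 * qc * D2 := by
    rw [mul_add, add_mul, ← mul_assoc, ← mul_assoc]
  have e3 : pd * pc * pb * pa * A0 * B1 * (qc * D2 + C2 * qd) =
      pd * pc * pb * pa * A0 * B1 * qc * D2 + pd * (pc * pb * pa * A0 * B1 * C2 * qd) := by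
    rw [mul_add]; simp only [mul_assoc]
  have e4 : trace (pd * (pc * pb * pa * A0 * B1 * C2 * qd)) =
      trace (pc * pb * pa * A0 * B1 * C2) := by
    rw [trace_mul_comm, mul_assoc _ qd pd, hd', mul_one]
  rw [e1, e2, e3, trace_add, trace_add, trace_add, e4]
  abel

end fin

section infinite

variable {A M : Type} [CommRing A] [CommRing M] (𝒟 : DerData A M)

/-- matrix entries of an endomorphism of the free module on `ℕ` -/
noncomputable def ent (T : Module.End A (ℕ →₀ A)) (i j : ℕ) : A := T (Finsupp.single j 1) i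

/-- `T` has trivial entries outside the `s × s` square. -/
def Bd (s : Set ℕ) (T : Module.End A (ℕ →₀ A)) : Prop :=
  ∀ i j, (i ∉ s ∨ j ∉ s) → ent T i j = if i = j then 1 else 0

theorem Bd.mono {s t : Set ℕ} (h : s ⊆ t) {T : Module.End A (ℕ →₀ A)} (hT : Bd s T) : Bd t T :=
  fun i j hij => hT i j (hij.imp (fun h' h'' => h' (h h'')) (fun h' h'' => h' (h h'')))

theorem ent_one (i j : ℕ) : ent (1 : Module.End A (ℕ →₀ A)) i j = if i = j then 1 else 0 := by
  simp only [ent, Module.End.one_apply, Finsupp.single_apply]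
  simp only [eq_comm]

theorem Bd_one (s : Set ℕ) : Bd s (1 : Module.End A (ℕ →₀ A)) := fun i j _ => ent_one i j

/-- entries of a product -/
theorem ent_mul (S T : Module.End A (ℕ →₀ A)) (i j : ℕ) :
    ent (S * T) i j = ∑ k ∈ (T (Finsupp.single j 1)).support, ent S i k * ent T k j := by
  have h1 : T (Finsupp.single j 1) = ∑ k ∈ (T (Finsupp.single j 1)).support,
      (T (Finsupp.single j 1) k) • Finsupp.single k (1 : A) := by
    conv_lhs => rw [← Finsupp.sum_single (T (Finsupp.single j 1))]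
    rw [Finsupp.sum]
    refine Finset.sum_congr rfl fun k _ => ?_
    rw [Finsupp.smul_single, smul_eq_mul, mul_one]
  show (S (T (Finsupp.single j 1))) i = _
  conv_lhs => rw [h1]
  rw [map_sum, Finsupp.finsetSum_apply]
  refine Finset.sum_congr rfl fun k _ => ?_
  rw [map_smul, Finsupp.smul_apply, smul_eq_mul, mul_comm]
  rfl

/-- the finite block of `T` along `e : ι → ℕ` -/
noncomputable def blk {ι : Type} (e : ι → ℕ) (T : Module.End A (ℕ →₀ A)) : Matrix ι ι A :=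
  Matrix.of fun i j => ent T (e i) (e j)

theorem ent_mul_of_mem {ι : Type} [Fintype ι] {e : ι → ℕ} (he : Function.Injective e)
    {S T : Module.End A (ℕ →₀ A)} (hT : Bd (Set.range e) T) (i : ℕ) (j : ι) :
    ent (S * T) i (e j) = ∑ k : ι, ent S i (e k) * ent T (e k) (e j) := by
  classical
  rw [ent_mul]
  have h1 : (T (Finsupp.single (e j) 1)).support ⊆ Finset.univ.image e := by
    intro k hk
    rw [Finset.mem_image]
    by_contra hcon
    have hk' : k ∉ Set.range e := fun ⟨l, hl⟩ => hcon ⟨l, Finset.mem_univ _, hl⟩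
    have h2 := hT k (e j) (Or.inl hk')
    rw [if_neg (fun h => hk' ⟨j, h.symm⟩)] at h2
    exact (Finsupp.mem_support_iff.1 hk) h2
  rw [Finset.sum_subset h1 (fun k _ hk => by
    have : ent T k (e j) = 0 := Finsupp.notMem_support_iff.1 hk
    rw [this, mul_zero])]
  rw [Finset.sum_image (fun a _ b _ hab => he hab)]

theorem Bd.mul {ι : Type} [Fintype ι] {e : ι → ℕ} (he : Function.Injective e)
    {S T : Module.End A (ℕ →₀ A)} (hS : Bd (Set.range e) S) (hT : Bd (Set.range e) T) :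
    Bd (Set.range e) (S * T) := by
  classical
  intro i j hij
  by_cases hj : j ∈ Set.range e
  · obtain ⟨j, rfl⟩ := hj
    have hi : i ∉ Set.range e := hij.resolve_right (fun h => h ⟨j, rfl⟩)
    rw [ent_mul_of_mem he hT, Finset.sum_eq_zero]
    · rw [if_neg (fun h => hi ⟨j, h.symm⟩)]
    · intro k _
      rw [hS i (e k) (Or.inl hi), if_neg (fun h => hi ⟨k, h.symm⟩), zero_mul]
  · have h1 : T (Finsupp.single j 1) = Finsupp.single j 1 := by
      ext k
      have := hT k j (Or.inr hj)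
      rw [Finsupp.single_apply]
      simpa [ent, eq_comm] using this
    have h2 : ent (S * T) i j = ent S i j := by
      show (S (T (Finsupp.single j 1))) i = _
      rw [h1]; rfl
    rw [h2]
    exact hS i j (Or.inr hj)

theorem blk_mul {ι : Type} [Fintype ι] {e : ι → ℕ} (he : Function.Injective e)
    {S T : Module.End A (ℕ →₀ A)} (hT : Bd (Set.range e) T) :
    blk e (S * T) = blk e S * blk e T := by
  ext i j
  simp only [blk, Matrix.of_apply, Matrix.mul_apply]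
  exact ent_mul_of_mem he hT _ _

theorem blk_one {ι : Type} [DecidableEq ι] {e : ι → ℕ} (he : Function.Injective e) :
    blk e (1 : Module.End A (ℕ →₀ A)) = 1 := by
  ext i j
  simp only [blk, Matrix.of_apply, ent_one, Matrix.one_apply, he.eq_iff]

/-- the infinite trace expression -/
noncomputable def psiInf (k : Fin 3 → Fin 3) (P U V W : Module.End A (ℕ →₀ A)) : M :=
  ∑ᶠ p : ℕ × ℕ × ℕ × ℕ, 𝒟.q (ent P p.1 p.2.1) * 𝒟.D (k 0) (ent U p.2.1 p.2.2.1) *
    𝒟.D (k 1) (ent V p.2.2.1 p.2.2.2) * 𝒟.D (k 2) (ent W p.2.2.2 p.1)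

theorem psiInf_eq (k : Fin 3 → Fin 3) {ι : Type} [Fintype ι] {e : ι → ℕ}
    (he : Function.Injective e) (P : Module.End A (ℕ →₀ A)) {U V W : Module.End A (ℕ →₀ A)}
    (hU : Bd (Set.range e) U) (hV : Bd (Set.range e) V) (hW : Bd (Set.range e) W) :
    psiInf 𝒟 k P U V W = psi 𝒟 k (blk e P) (blk e U) (blk e V) (blk e W) := by
  classical
  have hD : ∀ (T : Module.End A (ℕ →₀ A)), Bd (Set.range e) T → ∀ l i j,
      (i ∉ Set.range e ∨ j ∉ Set.range e) → 𝒟.D l (ent T i j) = 0 := by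
    intro T hT l i j hij
    rw [hT i j hij]; exact derMapIte 𝒟 l _
  let φ : ι × ι × ι × ι → ℕ × ℕ × ℕ × ℕ := fun p => (e p.1, e p.2.1, e p.2.2.1, e p.2.2.2)
  have hφ : Function.Injective φ := by
    rintro ⟨a, b, c, d⟩ ⟨a', b', c', d'⟩ h
    simp only [φ, Prod.mk.injEq] at h
    obtain ⟨h1, h2, h3, h4⟩ := h
    rw [he h1, he h2, he h3, he h4]
  set g : ℕ × ℕ × ℕ × ℕ → M := fun p => 𝒟.q (ent P p.1 p.2.1) *
    𝒟.D (k 0) (ent U p.2.1 p.2.2.1) * 𝒟.D (k 1) (ent V p.2.2.1 p.2.2.2) *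
    𝒟.D (k 2) (ent W p.2.2.2 p.1) with hg
  have hsupp : Function.support g ⊆ Set.range φ := by
    rintro ⟨a, b, c, d⟩ hp
    by_contra hcon
    apply hp
    have h1 : a ∉ Set.range e ∨ b ∉ Set.range e ∨ c ∉ Set.range e ∨ d ∉ Set.range e := by
      by_contra hall
      push Not at hall
      obtain ⟨⟨a', rfl⟩, ⟨b', rfl⟩, ⟨c', rfl⟩, ⟨d', rfl⟩⟩ := hall
      exact hcon ⟨(a', b', c', d'), rfl⟩
    simp only [hg]
    rcases h1 with h | h | h | h
    · rw [hD W hW _ _ _ (Or.inr h), mul_zero]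
    · rw [hD U hU _ _ _ (Or.inl h), mul_zero, zero_mul, zero_mul]
    · rw [hD U hU _ _ _ (Or.inr h), mul_zero, zero_mul, zero_mul]
    · rw [hD V hV _ _ _ (Or.inr h), mul_zero, zero_mul]
  have h1 : psiInf 𝒟 k P U V W = ∑ p : ι × ι × ι × ι, g (φ p) := by
    rw [← finsum_eq_sum_of_fintype, ← finsum_mem_range hφ]
    rw [finsum_mem_def, Set.indicator_eq_self.2 hsupp]
    rfl
  rw [h1]
  simp only [psi, Matrix.trace, Matrix.diag_apply, Matrix.mul_apply, Matrix.map_apply, blk,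
    Matrix.of_apply, Fintype.sum_prod_type, hg, φ]
  refine Finset.sum_congr rfl fun a _ => ?_
  -- reorder the sums
  simp only [Finset.sum_mul]
  rw [Finset.sum_comm]
  have h2 : ∀ c : ι, ∑ b : ι, ∑ d : ι, 𝒟.q (ent P (e a) (e b)) * 𝒟.D (k 0) (ent U (e b) (e c)) *
      𝒟.D (k 1) (ent V (e c) (e d)) * 𝒟.D (k 2) (ent W (e d) (e a)) =
      ∑ d : ι, ∑ b : ι, 𝒟.q (ent P (e a) (e b)) * 𝒟.D (k 0) (ent U (e b) (e c)) *
      𝒟.D (k 1) (ent V (e c) (e d)) * 𝒟.D (k 2) (ent W (e d) (e a)) := fun c => Finset.sum_comm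
  simp_rw [h2]
  rw [Finset.sum_comm]

/-- **Dennis trace cocycle.** -/
theorem exists_dennis5 {G : Type} [Group G] (ρ : G →* Module.End A (ℕ →₀ A))
    (hfin : ∀ g, ∃ N : ℕ, Bd (Set.Iio N) (ρ g)) (k : Fin 3 → Fin 3) :
    ∃ f : Cocycle3 G M, ∀ u v w : G, f.f u v w = psiInf 𝒟 k (ρ (u * v * w)⁻¹) (ρ u) (ρ v) (ρ w) := by
  classical
  refine ⟨⟨fun u v w => psiInf 𝒟 k (ρ (u * v * w)⁻¹) (ρ u) (ρ v) (ρ w), ?_⟩, fun u v w => rfl⟩
  intro a b c d
  obtain ⟨Na, hNa⟩ := hfin a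
  obtain ⟨Nb, hNb⟩ := hfin b
  obtain ⟨Nc, hNc⟩ := hfin c
  obtain ⟨Nd, hNd⟩ := hfin d
  obtain ⟨Na', hNa'⟩ := hfin a⁻¹
  obtain ⟨Nb', hNb'⟩ := hfin b⁻¹
  obtain ⟨Nc', hNc'⟩ := hfin c⁻¹
  obtain ⟨Nd', hNd'⟩ := hfin d⁻¹
  set N : ℕ := Na + Nb + Nc + Nd + Na' + Nb' + Nc' + Nd' with hN
  let e : Fin N → ℕ := Fin.val
  have he : Function.Injective e := Fin.val_injective
  have hr : Set.range e = Set.Iio N := by
    ext i
    constructor
    · rintro ⟨j, rfl⟩; exact j.2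
    · intro hi; exact ⟨⟨i, hi⟩, rfl⟩
  have hmono : ∀ N' (T : Module.End A (ℕ →₀ A)), N' ≤ N → Bd (Set.Iio N') T →
      Bd (Set.range e) T := by
    intro N' T hN' hT
    rw [hr]
    exact hT.mono (Set.Iio_subset_Iio hN')
  have ha := hmono Na _ (by omega) hNa
  have hb := hmono Nb _ (by omega) hNb
  have hc := hmono Nc _ (by omega) hNc
  have hd := hmono Nd _ (by omega) hNd
  have ha' := hmono Na' _ (by omega) hNa'
  have hb' := hmono Nb' _ (by omega) hNb'
  have hc' := hmono Nc' _ (by omega) hNc'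
  have hd' := hmono Nd' _ (by omega) hNd'
  have hab : Bd (Set.range e) (ρ (a * b)) := by rw [map_mul]; exact ha.mul he hb
  have hbc : Bd (Set.range e) (ρ (b * c)) := by rw [map_mul]; exact hb.mul he hc
  have hcd : Bd (Set.range e) (ρ (c * d)) := by rw [map_mul]; exact hc.mul he hd
  have e1 : blk e (ρ (b * c * d)⁻¹) = blk e (ρ d⁻¹) * blk e (ρ c⁻¹) * blk e (ρ b⁻¹) := by
    rw [_root_.mul_inv_rev, _root_.mul_inv_rev, map_mul, map_mul, blk_mul he (hc'.mul he hb'), blk_mul he hb',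
      mul_assoc]
  have e2 : blk e (ρ (c * d)⁻¹) = blk e (ρ d⁻¹) * blk e (ρ c⁻¹) := by
    rw [_root_.mul_inv_rev, map_mul, blk_mul he hc']
  have e3 : ∀ g : G, g = a * b * c * d → blk e (ρ g⁻¹) =
      blk e (ρ d⁻¹) * blk e (ρ c⁻¹) * blk e (ρ b⁻¹) * blk e (ρ a⁻¹) := by
    rintro g rfl
    rw [_root_.mul_inv_rev, _root_.mul_inv_rev, _root_.mul_inv_rev, map_mul, map_mul, map_mul,
      blk_mul he (hc'.mul he (hb'.mul he ha')), blk_mul he (hb'.mul he ha'), blk_mul he ha',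
      mul_assoc, mul_assoc]
  have e4 : blk e (ρ (a * b * c)⁻¹) = blk e (ρ c⁻¹) * blk e (ρ b⁻¹) * blk e (ρ a⁻¹) := by
    rw [_root_.mul_inv_rev, _root_.mul_inv_rev, map_mul, map_mul, blk_mul he (hb'.mul he ha'), blk_mul he ha',
      mul_assoc]
  have eab : blk e (ρ (a * b)) = blk e (ρ a) * blk e (ρ b) := by rw [map_mul, blk_mul he hb]
  have ebc : blk e (ρ (b * c)) = blk e (ρ b) * blk e (ρ c) := by rw [map_mul, blk_mul he hc]
  have ecd : blk e (ρ (c * d)) = blk e (ρ c) * blk e (ρ d) := by rw [map_mul, blk_mul he hd]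
  have h1 : blk e (ρ a⁻¹) * blk e (ρ a) = 1 := by
    rw [← blk_mul he ha, ← map_mul, inv_mul_cancel, map_one, blk_one he]
  have h2 : blk e (ρ d) * blk e (ρ d⁻¹) = 1 := by
    rw [← blk_mul he hd', ← map_mul, mul_inv_cancel, map_one, blk_one he]
  show psiInf 𝒟 k (ρ (b * c * d)⁻¹) (ρ b) (ρ c) (ρ d) -
    psiInf 𝒟 k (ρ (a * b * c * d)⁻¹) (ρ (a * b)) (ρ c) (ρ d) +
    psiInf 𝒟 k (ρ (a * (b * c) * d)⁻¹) (ρ a) (ρ (b * c)) (ρ d) -
    psiInf 𝒟 k (ρ (a * b * (c * d))⁻¹) (ρ a) (ρ b) (ρ (c * d)) +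
    psiInf 𝒟 k (ρ (a * b * c)⁻¹) (ρ a) (ρ b) (ρ c) = 0
  rw [psiInf_eq 𝒟 k he _ hb hc hd, psiInf_eq 𝒟 k he _ hab hc hd, psiInf_eq 𝒟 k he _ ha hbc hd,
    psiInf_eq 𝒟 k he _ ha hb hcd, psiInf_eq 𝒟 k he _ ha hb hc, e1, e3 _ rfl,
    e3 (a * (b * c) * d) (by rw [mul_assoc a b c]), e3 (a * b * (c * d)) (by rw [mul_assoc (a * b) c d]),
    e4, eab, ebc, ecd]
  exact psi_cocycle 𝒟 k _ _ _ _ _ _ _ _ h1 h2

end infinite

section rep

open Crest.AlgebraR.Steinberg

variable {A M : Type} [CommRing A] [CommRing M]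

theorem ent_add (S T : Module.End A (ℕ →₀ A)) (i j : ℕ) :
    ent (S + T) i j = ent S i j + ent T i j := rfl

theorem ent_E (i j : ℕ) (a : A) (k l : ℕ) :
    ent (E i j a) k l = if i = k ∧ j = l then a else 0 := by
  simp only [ent, E_apply, Finsupp.single_apply]
  by_cases h2 : j = l
  · subst h2
    by_cases h1 : i = k <;> simp [h1]
  · have h3 : ¬ l = j := fun h => h2 h.symm
    simp [h2, h3]

theorem exists_Bd (g : St A) : ∃ N : ℕ, Bd (Set.Iio N) (rho g) := by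
  induction g using St_induction with
  | h1 => exact ⟨0, by rw [map_one]; exact Bd_one _⟩
  | hX i j h a =>
    refine ⟨i + j + 1, ?_⟩
    rw [rho_X]
    intro k l hkl
    have hne : ¬ (i = k ∧ j = l) := by
      rintro ⟨rfl, rfl⟩
      simp only [Set.mem_Iio, not_lt] at hkl
      omega
    rw [ent_add, ent_one, ent_E, if_neg hne, add_zero]
  | hmul g g' hg hg' =>
    obtain ⟨N, hN⟩ := hg
    obtain ⟨N', hN'⟩ := hg'
    let e : Fin (N + N') → ℕ := Fin.val
    have he : Function.Injective e := Fin.val_injective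
    have hr : Set.range e = Set.Iio (N + N') := by
      ext i
      constructor
      · rintro ⟨j, rfl⟩; exact j.2
      · intro hi; exact ⟨⟨i, hi⟩, rfl⟩
    refine ⟨N + N', ?_⟩
    rw [map_mul, ← hr]
    refine Bd.mul he ?_ ?_
    · rw [hr]; exact hN.mono (Set.Iio_subset_Iio (by omega))
    · rw [hr]; exact hN'.mono (Set.Iio_subset_Iio (by omega))

variable {ι : Type} [Fintype ι] [DecidableEq ι] {e : ι → ℕ}

theorem ent_embE (M : Matrix ι ι A) (i j : ℕ) :
    ent (embE e M) i j = ∑ a, ∑ b, if e a = i ∧ e b = j then M a b else 0 := by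
  simp only [ent, embE_apply, Finsupp.finsetSum_apply]
  refine Finset.sum_congr rfl fun a _ => ?_
  rw [Finsupp.single_apply]
  split_ifs with h
  · refine Finset.sum_congr rfl fun b _ => ?_
    rw [Finsupp.single_apply]
    by_cases h2 : j = e b
    · rw [if_pos h2, if_pos ⟨h, h2.symm⟩, mul_one]
    · rw [if_neg h2, if_neg (fun h3 => h2 h3.2.symm), mul_zero]
  · rw [Finset.sum_eq_zero]
    intro b _
    rw [if_neg (fun h3 => h h3.1)]

theorem Bd_emb (M : Matrix ι ι A) : Bd (Set.range e) (emb e M) := by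
  intro i j hij
  rw [emb, ent_add, ent_one, ent_embE, Finset.sum_eq_zero, add_zero]
  intro a _
  rw [Finset.sum_eq_zero]
  intro b _
  rw [if_neg]
  rintro ⟨rfl, rfl⟩
  rcases hij with h | h
  · exact h ⟨a, rfl⟩
  · exact h ⟨b, rfl⟩

theorem blk_emb (he : Function.Injective e) (M : Matrix ι ι A) : blk e (emb e M) = M := by
  ext a b
  simp only [blk, Matrix.of_apply, emb, ent_add, ent_one, ent_embE, he.eq_iff]
  rw [Finset.sum_eq_single a, Finset.sum_eq_single b]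
  · simp only [and_self, if_true, Matrix.sub_apply, Matrix.one_apply]
    split_ifs <;> ring
  · intro c _ hc
    rw [if_neg (fun h => hc h.2)]
  · simp
  · intro c _ hc
    rw [Finset.sum_eq_zero]
    intro d _
    rw [if_neg (fun h => hc h.1)]
  · simp

/-- **Dennis trace cocycle on `St(A)`**, with its values on elements represented by finite
matrices; `P` is the inverse of `U * V * W`. -/
theorem exists_dennis_rho (𝒟 : DerData A M) (k : Fin 3 → Fin 3) :
    ∃ f : Cocycle3 (St A) M, ∀ (ι : Type) [Fintype ι] [DecidableEq ι] (e : ι → ℕ),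
      Function.Injective e → ∀ (u v w : St A) (U V W P : Matrix ι ι A),
      rho u = emb e U → rho v = emb e V → rho w = emb e W → P * (U * V * W) = 1 →
      f.f u v w = Matrix.trace (P.map 𝒟.q * U.map (𝒟.D (k 0)) * V.map (𝒟.D (k 1)) *
        W.map (𝒟.D (k 2))) := by
  obtain ⟨f, hf⟩ := exists_dennis5 (M := M) 𝒟 (G := St A) rho exists_Bd k
  refine ⟨f, ?_⟩
  intro ι _ _ e he u v w U V W P hu hv hw hP
  have hP' : rho (u * v * w)⁻¹ = emb e P := by
    have h1 : emb e P * rho (u * v * w) = 1 := by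
      rw [map_mul, map_mul, hu, hv, hw, ← emb_mul e he, ← emb_mul e he, ← emb_mul e he, hP,
        emb_one]
    have h2 : rho (u * v * w) * rho (u * v * w)⁻¹ = 1 := by
      rw [← map_mul, mul_inv_cancel, map_one]
    calc rho (u * v * w)⁻¹ = (emb e P * rho (u * v * w)) * rho (u * v * w)⁻¹ := by rw [h1, one_mul]
      _ = emb e P * (rho (u * v * w) * rho (u * v * w)⁻¹) := mul_assoc _ _ _
      _ = emb e P := by rw [h2, mul_one]
  rw [hf, hP', hu, hv, hw, psiInf_eq 𝒟 k he _ (Bd_emb U) (Bd_emb V) (Bd_emb W),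
    blk_emb he, blk_emb he, blk_emb he, blk_emb he]
  rfl

end rep

end Crest.Agent.R171.D5
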