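import Crest.Agent.R171.Defs

/-!
T5: interface with Mathlib's group homology.
-/

set_option autoImplicit false

open Crest.AlgebraR.Steinberg CategoryTheory groupHomology

namespace Crest.Agent.R171

/-! ### Homology of a chain complex of modules: when is the class of a cycle zero -/

section Complex

universe u

variable {k : Type u} [CommRing k]

theorem exists_toCycles_eq_of_homologyπ_eq_zero (K : ChainComplex (ModuleCat.{u} k) ℕ) (n : ℕ)
    (x : K.cycles n) (hx : K.homologyπ n x = 0) : ∃ y : K.X (n + 1), K.toCycles (n + 1) n y = x := by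
  let S : ShortComplex (ModuleCat.{u} k) :=
    ShortComplex.mk (K.toCycles (n + 1) n) (K.homologyπ n) (K.toCycles_comp_homologyπ _ _)
  have hS : S.Exact := ShortComplex.exact_of_g_is_cokernel _
    (K.homologyIsCokernel (n + 1) n (by simp))
  exact (ShortComplex.moduleCat_exact_iff S).1 hS x hx

theorem exists_d_eq_of_homologyπ_eq_zero (K : ChainComplex (ModuleCat.{u} k) ℕ) (n : ℕ)
    (x : K.cycles n) (hx : K.homologyπ n x = 0) :
    ∃ y : K.X (n + 1), K.d (n + 1) n y = K.iCycles n x := by
  obtain ⟨y, rfl⟩ := exists_toCycles_eq_of_homologyπ_eq_zero K n x hx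
  refine ⟨y, ?_⟩
  rw [← K.toCycles_i (n + 1) n]
  rfl

theorem homologyπ_eq_zero_of_d_eq (K : ChainComplex (ModuleCat.{u} k) ℕ) (n : ℕ)
    (x : K.cycles n) (y : K.X (n + 1)) (hy : K.d (n + 1) n y = K.iCycles n x) :
    K.homologyπ n x = 0 := by
  have h1 : K.toCycles (n + 1) n y = x := by
    apply (ModuleCat.mono_iff_injective (K.iCycles n)).1 inferInstance
    rw [← hy, ← K.toCycles_i (n + 1) n]
    rfl
  rw [← h1]
  have h2 := K.toCycles_comp_homologyπ (n + 1) n
  exact congrArg (fun f => f.hom y) h2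

end Complex

/-! ### 3-chains and 3-cocycles -/

section Chains

variable {G : Type} [Group G]

/-- 3-chains of `G` with trivial integer coefficients. -/
abbrev Ch (G : Type) (n : ℕ) : Type := (Fin n → G) →₀ ℤ

/-- Evaluation of a 3-cocycle on a 3-chain. -/
noncomputable def Cocycle3.eval {M : Type} [AddCommGroup M] (f : Cocycle3 G M) :
    Ch G 3 →+ M :=
  Finsupp.liftAddHom fun g => zmultiplesHom M (f.f (g 0) (g 1) (g 2))

@[simp]
theorem Cocycle3.eval_single {M : Type} [AddCommGroup M] (f : Cocycle3 G M)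
    (g : Fin 3 → G) (n : ℤ) : f.eval (Finsupp.single g n) = n • f.f (g 0) (g 1) (g 2) := by
  simp [Cocycle3.eval]

/-- The boundary operator in inhomogeneous chains of the trivial representation. -/
noncomputable def bd (G : Type) [Group G] (n : ℕ) : Ch G (n + 1) →+ Ch G n :=
  (inhomogeneousChains.d (Rep.trivial ℤ G ℤ) n).hom.toAddMonoidHom

theorem bd_single (n : ℕ) (g : Fin (n + 1) → G) (a : ℤ) :
    bd G n (Finsupp.single g a) = Finsupp.single (fun i => g i.succ) a +
      Finset.univ.sum fun j : Fin (n + 1) =>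
        (-1 : ℤ) ^ ((j : ℕ) + 1) • Finsupp.single (Fin.contractNth j (· * ·) g) a := by
  have h := inhomogeneousChains.d_single (A := Rep.trivial ℤ G ℤ) n g a
  simpa [bd] using! h

theorem bd_three (g : Fin 4 → G) (a : ℤ) :
    bd G 3 (Finsupp.single g a) = Finsupp.single ![g 1, g 2, g 3] a
      - Finsupp.single ![g 0 * g 1, g 2, g 3] a + Finsupp.single ![g 0, g 1 * g 2, g 3] a
      - Finsupp.single ![g 0, g 1, g 2 * g 3] a + Finsupp.single ![g 0, g 1, g 2] a := by
  rw [bd_single]
  have e0 : (fun i : Fin 3 => g i.succ) = ![g 1, g 2, g 3] := by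
    ext i; fin_cases i <;> rfl
  have e1 : Fin.contractNth (0 : Fin 4) (· * ·) g = ![g 0 * g 1, g 2, g 3] := by
    ext i; fin_cases i <;> rfl
  have e2 : Fin.contractNth (1 : Fin 4) (· * ·) g = ![g 0, g 1 * g 2, g 3] := by
    ext i; fin_cases i <;> rfl
  have e3 : Fin.contractNth (2 : Fin 4) (· * ·) g = ![g 0, g 1, g 2 * g 3] := by
    ext i; fin_cases i <;> rfl
  have e4 : Fin.contractNth (3 : Fin 4) (· * ·) g = ![g 0, g 1, g 2] := by
    ext i; fin_cases i <;> rfl
  rw [e0]
  simp only [Nat.reduceAdd, Fin.sum_univ_four, e1, e2, e3, e4]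
  simp
  abel

theorem Cocycle3.eval_bd {M : Type} [AddCommGroup M] (f : Cocycle3 G M) (c : Ch G 4) :
    f.eval (bd G 3 c) = 0 := by
  induction c using Finsupp.induction_linear with
  | zero => simp
  | add x y hx hy => rw [map_add, map_add, hx, hy, add_zero]
  | single g a =>
    rw [bd_three]
    have h := f.cocycle (g 0) (g 1) (g 2) (g 3)
    simp only [map_add, map_sub, Cocycle3.eval_single, Matrix.cons_val_zero, Matrix.cons_val_one,
      Matrix.cons_val]
    rw [← smul_sub, ← smul_add, ← smul_sub, ← smul_add, h, smul_zero]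

/-- The tautological cocycle with values in chains modulo boundaries. -/
noncomputable def tautCocycle (G : Type) [Group G] :
    Cocycle3 G (Ch G 3 ⧸ (bd G 3).range) where
  f a b c := QuotientAddGroup.mk' _ (Finsupp.single ![a, b, c] 1)
  cocycle a b c d := by
    rw [← map_sub, ← map_add, ← map_sub, ← map_add]
    rw [QuotientAddGroup.mk'_apply, QuotientAddGroup.eq_zero_iff]
    exact ⟨Finsupp.single ![a, b, c, d] 1, bd_three _ _⟩

theorem tautCocycle_eval (z : Ch G 3) :
    (tautCocycle G).eval z = QuotientAddGroup.mk' _ z := by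
  induction z using Finsupp.induction_linear with
  | zero => simp
  | add x y hx hy => rw [map_add, map_add, hx, hy]
  | single g a =>
    have e : ![g 0, g 1, g 2] = g := by
      ext i; fin_cases i <;> rfl
    rw [Cocycle3.eval_single]
    change a • QuotientAddGroup.mk' _ (Finsupp.single ![g 0, g 1, g 2] 1) = _
    rw [e, ← map_zsmul, Finsupp.smul_single, smul_eq_mul, mul_one]

theorem exists_bd_of_eval (z : Ch G 3)
    (h : ∀ (N : Type) [AddCommGroup N] (f : Cocycle3 G N), f.eval z = 0) :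
    ∃ w : Ch G 4, bd G 3 w = z := by
  have h1 := h _ (tautCocycle G)
  rw [tautCocycle_eval, QuotientAddGroup.mk'_apply, QuotientAddGroup.eq_zero_iff] at h1
  exact h1

/-- Push-forward of chains. -/
noncomputable def pushCh {G H : Type} [Group G] [Group H] (φ : G →* H) (n : ℕ) :
    Ch G n →+ Ch H n :=
  Finsupp.mapDomain.addMonoidHom (fun g => φ ∘ g)

@[simp]
theorem pushCh_single {G H : Type} [Group G] [Group H] (φ : G →* H) (n : ℕ) (g : Fin n → G)
    (a : ℤ) : pushCh φ n (Finsupp.single g a) = Finsupp.single (φ ∘ g) a := by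
  simp [pushCh]

theorem chainsMap_eq_pushCh {A F : Type} [CommRing A] [CommRing F] (φ : A →+* F) (n : ℕ)
    (z : Ch (St A) n) :
    (chainsMap (stMap φ) (trivialHom φ)).f n z = pushCh (stMap φ) n z := by
  induction z using Finsupp.induction_linear with
  | zero =>
    exact (map_zero ((chainsMap (stMap φ) (trivialHom φ)).f n).hom).trans
      (map_zero (pushCh (stMap φ) n)).symm
  | add x y hx hy =>
    refine (map_add ((chainsMap (stMap φ) (trivialHom φ)).f n).hom x y).trans ?_
    rw [map_add (pushCh (stMap φ) n), ← hx, ← hy]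
  | single g a =>
    rw [pushCh_single]
    exact chainsMap_f_single (stMap φ) (trivialHom φ) n g a

/-- Evaluation of a 2-cochain on 2-chains. -/
noncomputable def evalTwo {M : Type} [AddCommGroup M] (k : G → G → M) : Ch G 2 →+ M :=
  Finsupp.liftAddHom fun g => zmultiplesHom M (k (g 0) (g 1))

@[simp]
theorem evalTwo_single {M : Type} [AddCommGroup M] (k : G → G → M) (g : Fin 2 → G) (n : ℤ) :
    evalTwo k (Finsupp.single g n) = n • k (g 0) (g 1) := by
  simp [evalTwo]

theorem bd_two (g : Fin 3 → G) (a : ℤ) :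
    bd G 2 (Finsupp.single g a) = Finsupp.single ![g 1, g 2] a
      - Finsupp.single ![g 0 * g 1, g 2] a + Finsupp.single ![g 0, g 1 * g 2] a
      - Finsupp.single ![g 0, g 1] a := by
  rw [bd_single]
  have e0 : (fun i : Fin 2 => g i.succ) = ![g 1, g 2] := by
    ext i; fin_cases i <;> rfl
  have e1 : Fin.contractNth (0 : Fin 3) (· * ·) g = ![g 0 * g 1, g 2] := by
    ext i; fin_cases i <;> rfl
  have e2 : Fin.contractNth (1 : Fin 3) (· * ·) g = ![g 0, g 1 * g 2] := by
    ext i; fin_cases i <;> rfl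
  have e3 : Fin.contractNth (2 : Fin 3) (· * ·) g = ![g 0, g 1] := by
    ext i; fin_cases i <;> rfl
  rw [e0]
  simp only [Nat.reduceAdd, Fin.sum_univ_three, e1, e2, e3]
  simp
  abel

/-- Conjugation acts trivially on the evaluation of 3-cocycles on 3-cycles. -/
theorem Cocycle3.eval_conj {M : Type} [AddCommGroup M] (f : Cocycle3 G M) (g : G)
    (z : Ch G 3) (hz : bd G 2 z = 0) :
    f.eval (pushCh (MulAut.conj g).toMonoidHom 3 z) = f.eval z := by
  let c : G → G := fun x => g * x * g⁻¹
  let k : G → G → M := fun a b =>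
    f.f g⁻¹ (c a) (c b) - f.f a g⁻¹ (c b) + f.f a b g⁻¹
  have key : ∀ z : Ch G 3,
      f.eval (pushCh (MulAut.conj g).toMonoidHom 3 z) = f.eval z + evalTwo k (bd G 2 z) := by
    intro z
    induction z using Finsupp.induction_linear with
    | zero => simp
    | add x y hx hy =>
      simp only [map_add, hx, hy]
      abel
    | single x n =>
      rw [pushCh_single, bd_two, Cocycle3.eval_single, Cocycle3.eval_single]
      simp only [map_add, map_sub, evalTwo_single, Matrix.cons_val_zero, Matrix.cons_val_one,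
        Matrix.cons_val, Function.comp]
      rw [← smul_sub, ← smul_add, ← smul_sub, ← smul_add]
      congr 1
      change f.f (c (x 0)) (c (x 1)) (c (x 2)) = _
      set a := x 0
      set b := x 1
      set d := x 2
      have hc : ∀ y, g⁻¹ * c y = y * g⁻¹ := fun y => by simp [c, mul_assoc]
      have hcm : ∀ y y', c (y * y') = c y * c y' := fun y y' => by simp [c, mul_assoc]
      have h1 := f.cocycle g⁻¹ (c a) (c b) (c d)
      have h2 := f.cocycle a g⁻¹ (c b) (c d)
      have h3 := f.cocycle a b g⁻¹ (c d)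
      have h4 := f.cocycle a b d g⁻¹
      rw [hc] at h1 h2 h3
      simp only [k, hcm]
      rw [← sub_eq_zero]
      have : f.f (c a) (c b) (c d) -
          (f.f a b d +
            (f.f g⁻¹ (c b) (c d) - f.f b g⁻¹ (c d) + f.f b d g⁻¹ -
                  (f.f g⁻¹ (c a * c b) (c d) - f.f (a * b) g⁻¹ (c d) + f.f (a * b) d g⁻¹) +
                (f.f g⁻¹ (c a) (c b * c d) - f.f a g⁻¹ (c b * c d) + f.f a (b * d) g⁻¹) -
              (f.f g⁻¹ (c a) (c b) - f.f a g⁻¹ (c b) + f.f a b g⁻¹))) =
          (f.f (c a) (c b) (c d) - f.f (a * g⁻¹) (c b) (c d) + f.f g⁻¹ (c a * c b) (c d) -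
            f.f g⁻¹ (c a) (c b * c d) + f.f g⁻¹ (c a) (c b)) -
          (f.f g⁻¹ (c b) (c d) - f.f (a * g⁻¹) (c b) (c d) + f.f a (b * g⁻¹) (c d) -
            f.f a g⁻¹ (c b * c d) + f.f a g⁻¹ (c b)) +
          (f.f b g⁻¹ (c d) - f.f (a * b) g⁻¹ (c d) + f.f a (b * g⁻¹) (c d) -
            f.f a b (d * g⁻¹) + f.f a b g⁻¹) -
          (f.f b d g⁻¹ - f.f (a * b) d g⁻¹ + f.f a (b * d) g⁻¹ -
            f.f a b (d * g⁻¹) + f.f a b d) := by abel
      rw [this, h1, h2, h3, h4]
      simp
  rw [key, hz, map_zero, add_zero]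

/-- The chain `∑_{i<n} [u | u^i | u]`. -/
noncomputable def beta (n : ℕ) (u : G) : Ch G 3 :=
  ∑ i ∈ Finset.range n, Finsupp.single ![u, u ^ i, u] 1

theorem bd_beta (n : ℕ) (u : G) (hu : u ^ n = 1) : bd G 2 (beta n u) = 0 := by
  have h : ∀ m : ℕ, bd G 2 (beta m u) = Finsupp.single ![1, u] 1 - Finsupp.single ![u ^ m, u] 1
      + Finsupp.single ![u, u ^ m] 1 - Finsupp.single ![u, 1] 1 := by
    intro m
    induction m with
    | zero => simp [beta]
    | succ m ih =>
      rw [beta, Finset.sum_range_succ, map_add, ← beta, ih, bd_two]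
      simp only [Matrix.cons_val_zero, Matrix.cons_val_one, Matrix.cons_val]
      rw [← pow_succ', ← pow_succ]
      abel
  rw [h, hu]
  abel

theorem pushCh_beta {G H : Type} [Group G] [Group H] (φ : G →* H) (n : ℕ) (u : G) :
    pushCh φ 3 (beta n u) = beta n (φ u) := by
  simp only [beta, map_sum, pushCh_single]
  refine Finset.sum_congr rfl fun i _ => ?_
  congr 1
  ext j
  fin_cases j <;> simp

/-- Evaluation of a cocycle on `beta`. -/
theorem Cocycle3.eval_beta {M : Type} [AddCommGroup M] (f : Cocycle3 G M) (n : ℕ) (u : G) :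
    f.eval (beta n u) = ∑ i ∈ Finset.range n, f.f u (u ^ i) u := by
  simp [beta]

/-- The torus chain of a commuting triple. -/
noncomputable def torus (a b c : G) : Ch G 3 :=
  Finsupp.single ![a, b, c] 1 + Finsupp.single ![b, c, a] 1 + Finsupp.single ![c, a, b] 1
    - Finsupp.single ![b, a, c] 1 - Finsupp.single ![a, c, b] 1 - Finsupp.single ![c, b, a] 1

theorem bd_torus (a b c : G) (hab : a * b = b * a) (hac : a * c = c * a) (hbc : b * c = c * b) :
    bd G 2 (torus a b c) = 0 := by
  simp only [torus, map_add, map_sub, bd_two, Matrix.cons_val_zero, Matrix.cons_val_one,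
    Matrix.cons_val, hab, hac, hbc]
  abel

theorem Cocycle3.eval_torus {M : Type} [AddCommGroup M] (f : Cocycle3 G M) (a b c : G) :
    f.eval (torus a b c) = f.pair a b c := by
  simp [torus, Cocycle3.pair]

theorem pushCh_torus {G H : Type} [Group G] [Group H] (φ : G →* H) (a b c : G) :
    pushCh φ 3 (torus a b c) = torus (φ a) (φ b) (φ c) := by
  have h : ∀ x y z : G, φ ∘ ![x, y, z] = ![φ x, φ y, φ z] := by
    intro x y z
    ext j
    fin_cases j <;> simp
  simp only [torus, map_add, map_sub, pushCh_single, h]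

end Chains

/-- General non-injectivity criterion for `H3map`. -/
theorem not_injective_H3map_of_chain {A F : Type} [CommRing A] [CommRing F] (φ : A →+* F)
    (z : Ch (St A) 3) (hz : bd (St A) 2 z = 0)
    {M : Type} [AddCommGroup M] (D : Cocycle3 (St A) M) (hD : D.eval z ≠ 0)
    (hv : ∀ (N : Type) [AddCommGroup N] (f : Cocycle3 (St F) N),
      f.eval (pushCh (stMap φ) 3 z) = 0) :
    ¬ Function.Injective (H3map φ).hom := by
  intro hinj
  have hz' : (inhomogeneousChains (Rep.trivial ℤ (St A) ℤ)).d 3 2 z = 0 := by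
    rw [inhomogeneousChains.d_def]
    exact hz
  have hn : (ComplexShape.down ℕ).next 3 = 2 := by simp
  let x : cycles (Rep.trivial ℤ (St A) ℤ) 3 := cyclesMk 3 2 hn z hz'
  have hxi : iCycles (Rep.trivial ℤ (St A) ℤ) 3 x = z :=
    iCycles_mk (A := Rep.trivial ℤ (St A) ℤ) hn z hz'
  have hx0 : groupHomology.π (Rep.trivial ℤ (St A) ℤ) 3 x ≠ 0 := by
    intro h0
    obtain ⟨y, hy⟩ := exists_d_eq_of_homologyπ_eq_zero _ 3 x h0
    have hy' : bd (St A) 3 y = z := by
      rw [← hxi, ← hy, inhomogeneousChains.d_def]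
      rfl
    exact hD (by rw [← hy', Cocycle3.eval_bd])
  apply hx0
  apply hinj
  rw [map_zero]
  change (groupHomology.map (stMap φ) (trivialHom φ) 3)
    (groupHomology.π (Rep.trivial ℤ (St A) ℤ) 3 x) = 0
  rw [groupHomology.π_map_apply]
  obtain ⟨w, hw⟩ := exists_bd_of_eval _ hv
  refine homologyπ_eq_zero_of_d_eq _ 3 _ w ?_
  rw [inhomogeneousChains.d_def]
  have h2 := congrArg (fun f => f.hom x)
    (HomologicalComplex.cyclesMap_i (chainsMap (stMap φ) (trivialHom φ)) 3)
  refine (show _ = pushCh (stMap φ) 3 z from hw).trans ?_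
  refine Eq.trans ?_ h2.symm
  change _ = (chainsMap (stMap φ) (trivialHom φ)).f 3 (iCycles (Rep.trivial ℤ (St A) ℤ) 3 x)
  rw [hxi, chainsMap_eq_pushCh]

/-- Version for torus classes (skeleton statement). -/
theorem not_injective_H3map {A F : Type} [CommRing A] [CommRing F] (φ : A →+* F)
    (g₁ g₂ g₃ : St A) (h12 : g₁ * g₂ = g₂ * g₁) (h13 : g₁ * g₃ = g₃ * g₁)
    (h23 : g₂ * g₃ = g₃ * g₂)
    {M : Type} [AddCommGroup M] (D : Cocycle3 (St A) M) (hD : 2 • D.pair g₁ g₂ g₃ ≠ 0)
    (hv : ∀ (N : Type) [AddCommGroup N] (f : Cocycle3 (St F) N),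
      2 • f.pair (stMap φ g₁) (stMap φ g₂) (stMap φ g₃) = 0) :
    ¬ Function.Injective (H3map φ).hom := by
  refine not_injective_H3map_of_chain φ (2 • torus g₁ g₂ g₃) ?_ D ?_ ?_
  · rw [map_nsmul, bd_torus _ _ _ h12 h13 h23, smul_zero]
  · rw [map_nsmul, Cocycle3.eval_torus]
    exact hD
  · intro N _ f
    rw [map_nsmul, map_nsmul, pushCh_torus, Cocycle3.eval_torus]
    exact hv N f

/-- Version for the classes `β(u)` of elements of finite order: two elements `u₀, u₁` with
`uⱼ ^ n = 1` whose images are conjugate in `St F` but which are separated by a cocycle. -/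
theorem not_injective_H3map_of_beta {A F : Type} [CommRing A] [CommRing F] (φ : A →+* F)
    (n : ℕ) (u₀ u₁ : St A) (h0 : u₀ ^ n = 1) (h1 : u₁ ^ n = 1) (t : St F)
    (ht : t * stMap φ u₀ * t⁻¹ = stMap φ u₁)
    {M : Type} [AddCommGroup M] (D : Cocycle3 (St A) M)
    (hD : ∑ i ∈ Finset.range n, D.f u₁ (u₁ ^ i) u₁ ≠
      ∑ i ∈ Finset.range n, D.f u₀ (u₀ ^ i) u₀) :
    ¬ Function.Injective (H3map φ).hom := by
  refine not_injective_H3map_of_chain φ (beta n u₁ - beta n u₀) ?_ D ?_ ?_
  · rw [map_sub, bd_beta n u₁ h1, bd_beta n u₀ h0, sub_zero]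
  · rw [map_sub, Cocycle3.eval_beta, Cocycle3.eval_beta]
    exact sub_ne_zero.mpr hD
  · intro N _ f
    rw [map_sub, map_sub, pushCh_beta, pushCh_beta, ← ht]
    have h2 : bd (St F) 2 (beta n (stMap φ u₀)) = 0 :=
      bd_beta n _ (by rw [← map_pow, h0, map_one])
    have h3 := f.eval_conj t _ h2
    rw [pushCh_beta] at h3
    have h4 : (MulAut.conj t).toMonoidHom (stMap φ u₀) = t * stMap φ u₀ * t⁻¹ := rfl
    rw [h4] at h3
    rw [h3, sub_self]

end Crest.Agent.R171
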