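import Crest.Agent.R171.Defs

/-!
T7: the two-dimensional regular local ring `A = (ℤ[t,y][x]/(Φ₅(1+x) - t y⁵))_(x,y)`.
-/

set_option autoImplicit false

namespace Crest.Agent.R171

theorem exists_ring :
    ∃ (A : Type) (_ : CommRing A) (_ : IsDomain A) (_ : IsRegularLocalRing A),
      ringKrullDim A = 2 ∧ CharZero A ∧ (5 : A) ∈ IsLocalRing.maximalIdeal A ^ 2 ∧
      ∃ (M : Type) (_ : CommRing M) (𝒟 : DerData A M) (x y t : A),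
        (1 + x) ^ 5 = 1 + t * x * y ^ 5 ∧
        x ∈ IsLocalRing.maximalIdeal A ∧ y ∈ IsLocalRing.maximalIdeal A ∧
        x ≠ 0 ∧ y ≠ 0 ∧ t ≠ 0 ∧ (5 : M) = 0 ∧
        𝒟.D 0 x = 1 ∧ 𝒟.D 0 y = 0 ∧ 𝒟.D 0 t = 0 ∧
        𝒟.D 1 x = 0 ∧ 𝒟.D 1 y = 1 ∧ 𝒟.D 1 t = 0 ∧
        𝒟.D 2 x = 0 ∧ 𝒟.D 2 y = 0 ∧ 𝒟.D 2 t = 1 ∧
        𝒟.q x * 𝒟.q y ^ 4 ≠ 0 := by
  sorry

end Crest.Agent.R171
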