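import Crest.Agent.R171.View
import Crest.Agent.R171.Homology
import Crest.Agent.R171.Dennis
import Crest.Agent.R171.Ring

/-!
T8: final assembly.
-/

set_option autoImplicit false

open Crest.AlgebraR.Steinberg

namespace Crest.Agent.R171

namespace StFam

variable {I : Type*} {R S : Type*} [CommRing R] [CommRing S] {Γ Γ' : Type*} [Group Γ] [Group Γ']

theorem map_w (X : StFam I R Γ) (X' : StFam I S Γ') (π : Γ →* Γ') (φ : R →+* S)
    (hx : ∀ i j a, i ≠ j → π (X.x i j a) = X'.x i j (φ a)) {i j : I} (hij : i ≠ j) (u : Rˣ) :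
    π (X.w i j u) = X'.w i j (Units.map (φ : R →* S) u) := by
  unfold w
  rw [map_mul, map_mul, hx i j _ hij, hx j i _ hij.symm, map_neg]
  rfl

theorem map_h (X : StFam I R Γ) (X' : StFam I S Γ') (π : Γ →* Γ') (φ : R →+* S)
    (hx : ∀ i j a, i ≠ j → π (X.x i j a) = X'.x i j (φ a)) {i j : I} (hij : i ≠ j) (u : Rˣ) :
    π (X.h i j u) = X'.h i j (Units.map (φ : R →* S) u) := by
  unfold h
  rw [map_mul, map_w X X' π φ hx hij, map_w X X' π φ hx hij]
  congr 2
  ext
  simp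

theorem map_g1 (X : StFam (Fin 12) R Γ) (X' : StFam (Fin 12) S Γ') (π : Γ →* Γ') (φ : R →+* S)
    (hx : ∀ i j a, i ≠ j → π (X.x i j a) = X'.x i j (φ a)) (u : Rˣ) :
    π (X.g1 u) = X'.g1 (Units.map (φ : R →* S) u) := by
  unfold g1
  rw [map_mul, map_h X X' π φ hx (by decide), map_h X X' π φ hx (by decide)]

theorem map_g2 (X : StFam (Fin 12) R Γ) (X' : StFam (Fin 12) S Γ') (π : Γ →* Γ') (φ : R →+* S)
    (hx : ∀ i j a, i ≠ j → π (X.x i j a) = X'.x i j (φ a)) (u : Rˣ) :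
    π (X.g2 u) = X'.g2 (Units.map (φ : R →* S) u) := by
  unfold g2
  simp only [map_mul, map_inv]
  rw [map_h X X' π φ hx (by decide), map_h X X' π φ hx (by decide),
    map_h X X' π φ hx (by decide), map_h X X' π φ hx (by decide),
    map_h X X' π φ hx (by decide), map_h X X' π φ hx (by decide)]

theorem map_g3 (X : StFam (Fin 12) R Γ) (X' : StFam (Fin 12) S Γ') (π : Γ →* Γ') (φ : R →+* S)
    (hx : ∀ i j a, i ≠ j → π (X.x i j a) = X'.x i j (φ a)) (u : Rˣ) :
    π (X.g3 u) = X'.g3 (Units.map (φ : R →* S) u) := by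
  unfold g3
  simp only [map_mul, map_inv]
  rw [map_h X X' π φ hx (by decide), map_h X X' π φ hx (by decide),
    map_h X X' π φ hx (by decide), map_h X X' π φ hx (by decide),
    map_h X X' π φ hx (by decide), map_h X X' π φ hx (by decide)]

end StFam

/-- the family on twelve indices in `St(R)`. -/
noncomputable abbrev fam (R : Type*) [CommRing R] : StFam (Fin 12) R (St R) :=
  (stFam R).reindex (Fin.val (n := 12)) Fin.val_injective

theorem stMap_fam {A F : Type*} [CommRing A] [CommRing F] (φ : A →+* F) (i j : Fin 12) (a : A)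
    (hij : i ≠ j) : stMap φ ((fam A).x i j a) = (fam F).x i j (φ a) := by
  have hij' : (i : ℕ) ≠ (j : ℕ) := Fin.val_injective.ne hij
  simp only [fam, StFam.reindex, stFam, ne_eq, hij', not_false_eq_true, dite_true]
  change (QuotientGroup.mk (FreeGroup.map (genMap φ) (FreeGroup.of (⟨((i : ℕ), (j : ℕ)), _⟩, a)))
    : St F) = _
  rw [FreeGroup.map.of]
  rfl

theorem main :
    ∃ (A : Type) (_ : CommRing A) (_ : IsDomain A) (_ : IsRegularLocalRing A),
      ringKrullDim A = 2 ∧ CharZero A ∧ (5 : A) ∈ IsLocalRing.maximalIdeal A ^ 2 ∧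
        ¬ Function.Injective (H3map (algebraMap A (FractionRing A))).hom := by
  obtain ⟨A, iA, iD, iR, hdim, hchar, h5, M, iM, 𝒟, x, y, t, hrel, hx, hy, hx0, hy0, ht0, hM5,
    d0x, d0y, d0t, d1x, d1y, d1t, d2x, d2y, d2t, hne⟩ := exists_ring
  refine ⟨A, iA, iD, iR, hdim, hchar, h5, ?_⟩
  -- units
  have unit_add : ∀ u m : A, IsUnit u → m ∈ IsLocalRing.maximalIdeal A → IsUnit (u + m) := by
    intro u m hu hm
    by_contra hcon
    have h1 : u + m ∈ IsLocalRing.maximalIdeal A := (IsLocalRing.mem_maximalIdeal _).2 hcon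
    have h2 : u ∈ IsLocalRing.maximalIdeal A := by
      have := Ideal.sub_mem _ h1 hm
      simpa using this
    exact (IsLocalRing.mem_maximalIdeal _).1 h2 hu
  have h5m : (5 : A) ∈ IsLocalRing.maximalIdeal A :=
    Ideal.pow_le_self two_ne_zero h5
  have hu2 : IsUnit (2 : A) := by
    have h6 : IsUnit (1 + 5 : A) := unit_add 1 5 isUnit_one h5m
    have h6' : (1 + 5 : A) = 2 * 3 := by norm_num
    rw [h6'] at h6
    exact isUnit_of_mul_isUnit_left h6
  obtain ⟨uζ, huζ⟩ : IsUnit (1 + x) := unit_add 1 x isUnit_one hx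
  obtain ⟨ub, hub⟩ : IsUnit (1 + t * x * y ^ 4) :=
    unit_add 1 _ isUnit_one (Ideal.mul_mem_right _ _ (Ideal.mul_mem_left _ _ hx))
  obtain ⟨uy, huy⟩ : IsUnit (-1 + y) := unit_add (-1) y isUnit_one.neg hy
  obtain ⟨uW, huW⟩ : IsUnit (2 + x) := unit_add 2 x hu2 hx
  set a : A := -(t * x * y ^ 4) with ha
  set U : Aˣ := uζ ^ 5 * ub⁻¹ with hU
  set V : Aˣ := uy * ub⁻¹ with hV
  have hUe : (U : A) * (1 - a) = (1 + x) ^ 5 := by
    have : (1 - a : A) = ub := by rw [hub, ha]; ring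
    rw [this, hU, Units.val_mul, mul_assoc, Units.inv_mul, mul_one, Units.val_pow_eq_pow_val, huζ]
  have hVe : (V : A) * (1 - a) = y - 1 := by
    have : (1 - a : A) = ub := by rw [hub, ha]; ring
    rw [this, hV, Units.val_mul, mul_assoc, Units.inv_mul, mul_one, huy]; ring
  have h1ay : (1 - a * y : A) = (1 + x) ^ 5 := by rw [hrel, ha]; ring
  obtain ⟨D, hD⟩ := exists_dennis 𝒟
  set φ : A →+* FractionRing A := algebraMap A (FractionRing A) with hφ
  have hφi : Function.Injective φ := IsFractionRing.injective A (FractionRing A)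
  refine not_injective_H3map φ ((fam A).g1 U) ((fam A).g2 V) ((fam A).g3 uW)
    ((fam A).g1_comm_g2 U V) ((fam A).g1_comm_g3 U uW) ((fam A).g2_comm_g3 V uW) D ?_ ?_
  · -- nonvanishing
    rw [hD U V uW, Matrix.det_fin_three]
    simp only [Matrix.of_apply, Matrix.cons_val', Matrix.cons_val_zero, Matrix.cons_val_one,
      Matrix.cons_val]
    intro h0
    have D1 : ∀ k, 𝒟.D k 1 = 0 := by
      intro k
      have := 𝒟.leib k 1 1
      simp only [mul_one, map_one, one_mul] at this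
      exact (left_eq_add.mp this)
    have D0 : ∀ k, 𝒟.D k 0 = 0 := by
      intro k
      have := 𝒟.add k 0 0
      simp only [add_zero] at this
      exact (left_eq_add.mp this)
    have Dneg : ∀ k b, 𝒟.D k (-b) = - 𝒟.D k b := by
      intro k b
      have := 𝒟.add k b (-b)
      rw [add_neg_cancel, D0] at this
      exact (neg_eq_of_add_eq_zero_right this.symm).symm
    have D2 : ∀ k, 𝒟.D k 2 = 0 := by
      intro k
      have := 𝒟.add k 1 1
      rw [D1, add_zero] at this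
      rw [← this]; norm_num
    have Dpow : ∀ k b (n : ℕ), 𝒟.D k (b ^ (n + 1)) = (n + 1 : ℕ) * 𝒟.q b ^ n * 𝒟.D k b := by
      intro k b n
      induction n with
      | zero => simp
      | succ n ih =>
        rw [pow_succ, 𝒟.leib, ih, map_pow]
        push_cast
        ring
    have DU : ∀ k, 𝒟.D k (U : A) * 𝒟.q (1 - a) = 𝒟.q (U : A) * 𝒟.D k a := by
      intro k
      have h1 := 𝒟.leib k (U : A) (1 - a)
      rw [hUe, Dpow k (1 + x) 4] at h1
      have h2 : 𝒟.D k (1 - a) = - 𝒟.D k a := by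
        rw [sub_eq_add_neg, 𝒟.add, D1, Dneg, zero_add]
      rw [h2] at h1
      have h3 : ((4 + 1 : ℕ) : M) = 0 := by rw [← hM5]; norm_num
      rw [h3] at h1
      linear_combination -h1
    have DV : ∀ k, 𝒟.D k (V : A) * 𝒟.q (1 - a) = 𝒟.D k y + 𝒟.q (V : A) * 𝒟.D k a := by
      intro k
      have h1 := 𝒟.leib k (V : A) (1 - a)
      have h2 : 𝒟.D k (1 - a) = - 𝒟.D k a := by
        rw [sub_eq_add_neg, 𝒟.add, D1, Dneg, zero_add]
      have h3 : 𝒟.D k (y - 1) = 𝒟.D k y := by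
        rw [sub_eq_add_neg, 𝒟.add, Dneg, D1, neg_zero, add_zero]
      rw [hVe, h2, h3] at h1
      linear_combination -h1
    have DW : ∀ k, 𝒟.D k (uW : A) = 𝒟.D k x := by
      intro k
      rw [huW, 𝒟.add, D2, zero_add]
    have Da2 : 𝒟.D 2 a = - (𝒟.q x * 𝒟.q y ^ 4) := by
      rw [ha, Dneg, 𝒟.leib, 𝒟.leib, Dpow 2 y 3, d2x, d2y, d2t]
      simp
    have qU : 𝒟.q (U : A) * 𝒟.q ((U⁻¹ : Aˣ) : A) = 1 := by rw [← map_mul, Units.mul_inv, map_one]
    have qV : 𝒟.q (V : A) * 𝒟.q ((V⁻¹ : Aˣ) : A) = 1 := by rw [← map_mul, Units.mul_inv, map_one]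
    have qW : 𝒟.q (uW : A) * 𝒟.q ((uW⁻¹ : Aˣ) : A) = 1 := by
      rw [← map_mul, Units.mul_inv, map_one]
    apply hne
    have e0 := DU 0
    have e1 := DU 1
    have e2 := DU 2
    have f0 := DV 0
    have f1 := DV 1
    have f2 := DV 2
    rw [DW 0, DW 1, DW 2, d0x, d1x, d2x] at h0
    rw [d0y] at f0
    rw [d1y] at f1
    rw [d2y] at f2
    rw [Da2] at e2 f2
    set DU0 := 𝒟.D 0 (U : A)
    set DU1 := 𝒟.D 1 (U : A)
    set DU2 := 𝒟.D 2 (U : A)
    set DV0 := 𝒟.D 0 (V : A)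
    set DV1 := 𝒟.D 1 (V : A)
    set DV2 := 𝒟.D 2 (V : A)
    set qa := 𝒟.q (1 - a)
    set QU := 𝒟.q (U : A)
    set QV := 𝒟.q (V : A)
    set QW := 𝒟.q (uW : A)
    set QU' := 𝒟.q ((U⁻¹ : Aˣ) : A)
    set QV' := 𝒟.q ((V⁻¹ : Aˣ) : A)
    set QW' := 𝒟.q ((uW⁻¹ : Aˣ) : A)
    -- h0 : 2 • (4 * (QU' QV' QW') * det) = 0
    have hdet : (DU1 * DV2 - DU2 * DV1) * qa ^ 2 = QU * (𝒟.q x * 𝒟.q y ^ 4) := by
      have : (DU1 * DV2 - DU2 * DV1) * qa ^ 2 = (DU1 * qa) * (DV2 * qa) - (DU2 * qa) * (DV1 * qa) := by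
        ring
      rw [this, e1, e2, f1, f2]
      ring
    have h16 : (16 : M) = 1 := by
      have : (16 : M) = 1 + 3 * 5 := by norm_num
      rw [this, hM5]; ring
    have h0' : 8 * (QU' * QV' * QW') * (DU1 * DV2 - DU2 * DV1) = 0 := by
      rw [← h0]; simp only [nsmul_eq_mul]; push_cast; ring
    calc 𝒟.q x * 𝒟.q y ^ 4 = 16 * (𝒟.q x * 𝒟.q y ^ 4) := by rw [h16, one_mul]
      _ = 16 * (QU * QU') * (𝒟.q x * 𝒟.q y ^ 4) := by rw [qU]; ring
      _ = 16 * QU' * ((DU1 * DV2 - DU2 * DV1) * qa ^ 2) := by rw [hdet]; ring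
      _ = 16 * QU' * ((QV * QV') * (QW * QW')) * ((DU1 * DV2 - DU2 * DV1) * qa ^ 2) := by
          rw [qV, qW]; ring
      _ = 2 * QV * QW * qa ^ 2 * (8 * (QU' * QV' * QW') * (DU1 * DV2 - DU2 * DV1)) := by ring
      _ = 0 := by rw [h0', mul_zero]
  · intro N iN f
    rw [StFam.map_g1 (fam A) (fam (FractionRing A)) (stMap φ) φ (fun i j a h => stMap_fam φ i j a h),
      StFam.map_g2 (fam A) (fam (FractionRing A)) (stMap φ) φ (fun i j a h => stMap_fam φ i j a h),
      StFam.map_g3 (fam A) (fam (FractionRing A)) (stMap φ) φ (fun i j a h => stMap_fam φ i j a h)]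
    refine vanish f (fam (FractionRing A)) _ _ _ (φ (1 + x)) (φ y) (φ a) ?_ ?_ ?_ ?_ ?_ ?_ ?_
    · rw [← huζ]; exact (uζ.isUnit.map φ).ne_zero
    · exact fun h => hy0 (hφi (by rw [h, map_zero]))
    · intro h
      have : a = 0 := hφi (by rw [h, map_zero])
      rw [ha, neg_eq_zero] at this
      exact (mul_ne_zero (mul_ne_zero ht0 hx0) (pow_ne_zero 4 hy0)) this
    · rw [← map_mul, ← map_one φ, ← map_sub, h1ay, map_pow]
    · have := congrArg φ (hUe.trans h1ay.symm)
      simp only [map_mul, map_sub, map_one] at this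
      exact this
    · have := congrArg φ hVe
      simp only [map_mul, map_sub, map_one] at this
      exact this
    · have := congrArg φ huW
      have h2 : (2 + x : A) = 1 + (1 + x) := by ring
      rw [h2] at this
      rw [map_add, map_one] at this
      exact this

end Crest.Agent.R171
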