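import Crest.Agent.R171.Defs

/-!
Homology interface for the conjugation variant: 5-torsion elements `u`, the 3-cycle
`β(u) = ∑_{i<5} [u | u^i | u]`, invariance under inner conjugation and detection by a 3-cocycle.
-/

set_option autoImplicit false

open Crest.AlgebraR.Steinberg CategoryTheory

namespace Crest.Agent.R171

/-- value of a 3-cocycle on `β(u)` -/
def Cocycle3.beta {G : Type*} [Group G] {M : Type*} [AddCommGroup M] (f : Cocycle3 G M)
    (u : G) : M := ∑ i ∈ Finset.range 5, f.f u (u ^ i) u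

/-- A 3-cocycle takes the same value on `β(u)` and `β(t u t⁻¹)`. -/
theorem Cocycle3.beta_conj {G : Type*} [Group G] {M : Type*} [AddCommGroup M]
    (f : Cocycle3 G M) (u t : G) (hu : u ^ 5 = 1) : f.beta (t * u * t⁻¹) = f.beta u := by
  -- the 2-cochain `g`
  set cj : G → G := fun a => t * a * t⁻¹ with hcj
  set g : G → G → M := fun a b => f.f t a b - f.f (cj a) t b + f.f (cj a) (cj b) t with hg
  have hct : ∀ a, cj a * t = t * a := fun a => by simp [hcj]
  have hmul : ∀ a b, cj a * cj b = cj (a * b) := fun a b => by simp [hcj, mul_assoc]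
  have key : ∀ a b c, f.f a b c - f.f (cj a) (cj b) (cj c) =
      g b c - g (a * b) c + g a (b * c) - g a b := by
    intro a b c
    have h1 := f.cocycle t a b c
    have h2 := f.cocycle (cj a) t b c
    have h3 := f.cocycle (cj a) (cj b) t c
    have h4 := f.cocycle (cj a) (cj b) (cj c) t
    rw [hct] at h2 h3 h4
    rw [hmul] at h3 h4
    rw [hmul] at h4
    simp only [hg]
    have h5 : (f.f a b c - f.f (t * a) b c + f.f t (a * b) c - f.f t a (b * c) + f.f t a b) -
      (f.f t b c - f.f (t * a) b c + f.f (cj a) (t * b) c - f.f (cj a) t (b * c) + f.f (cj a) t b) +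
      (f.f (cj b) t c - f.f (cj (a * b)) t c + f.f (cj a) (t * b) c - f.f (cj a) (cj b) (t * c) +
        f.f (cj a) (cj b) t) -
      (f.f (cj b) (cj c) t - f.f (cj (a * b)) (cj c) t + f.f (cj a) (cj (b * c)) t -
        f.f (cj a) (cj b) (t * c) + f.f (cj a) (cj b) (cj c)) = 0 := by
      rw [h1, h2, h3, h4]; simp
    rw [← sub_eq_zero]
    rw [← h5]
    abel
  have hpow : ∀ i : ℕ, (t * u * t⁻¹) ^ i = cj (u ^ i) := fun i => by
    rw [conj_pow]
  have h6 : f.beta u - f.beta (t * u * t⁻¹) = 0 := by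
    unfold Cocycle3.beta
    rw [← Finset.sum_sub_distrib]
    have : ∀ i ∈ Finset.range 5, f.f u (u ^ i) u -
        f.f (t * u * t⁻¹) ((t * u * t⁻¹) ^ i) (t * u * t⁻¹) =
        (g (u ^ i) u - g u (u ^ i)) - (g (u ^ (i + 1)) u - g u (u ^ (i + 1))) := by
      intro i _
      rw [hpow i]
      have := key u (u ^ i) u
      rw [this, ← pow_succ', ← pow_succ]
      abel
    rw [Finset.sum_congr rfl this, Finset.sum_range_sub']
    simp [hu]
  exact (sub_eq_zero.1 h6).symm

section Chains

open groupHomology Finsupp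

variable (G : Type) [Group G]

/-- the chain complex -/
noncomputable abbrev CC : ChainComplex (ModuleCat ℤ) ℕ := inhomogeneousChains (Rep.trivial ℤ G ℤ)

variable {G}

/-- A basic `3`-chain. -/
noncomputable def tri (a b c : G) : (Fin 3 → G) →₀ ℤ := single ![a, b, c] 1

/-- A basic `4`-chain. -/
noncomputable def tet (a b c d : G) : (Fin 4 → G) →₀ ℤ := single ![a, b, c, d] 1

theorem d_tri (a b c : G) : (CC G).d 3 2 (tri a b c : (Fin 3 → G) →₀ ℤ) =
    ((single ![b, c] 1 - single ![a * b, c] 1 + single ![a, b * c] 1 - single ![a, b] 1 :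
      (Fin 2 → G) →₀ ℤ)) := by
  have h2 : (CC G).d 3 2 = inhomogeneousChains.d (Rep.trivial ℤ G ℤ) 2 :=
    inhomogeneousChains.d_def (A := Rep.trivial ℤ G ℤ) 2
  rw [h2]
  unfold tri
  refine (inhomogeneousChains.d_single (A := Rep.trivial ℤ G ℤ) 2 ![a, b, c] (1 : ℤ)).trans ?_
  have e0 : (fun i : Fin 2 => (![a, b, c] : Fin 3 → G) i.succ) = ![b, c] := by
    ext i; fin_cases i <;> rfl
  have c0 : Fin.contractNth (0 : Fin 3) (· * ·) ![a, b, c] = ![a * b, c] := by
    ext i; fin_cases i <;> rfl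
  have c1 : Fin.contractNth (1 : Fin 3) (· * ·) ![a, b, c] = ![a, b * c] := by
    ext i; fin_cases i <;> rfl
  have c2 : Fin.contractNth (2 : Fin 3) (· * ·) ![a, b, c] = ![a, b] := by
    ext i; fin_cases i <;> rfl
  rw [Fin.sum_univ_three, e0, c0, c1, c2]
  simp
  abel

theorem d_tet (a b c d : G) : (CC G).d 4 3 (tet a b c d : (Fin 4 → G) →₀ ℤ) =
    ((tri b c d - tri (a * b) c d + tri a (b * c) d - tri a b (c * d) + tri a b c :
      (Fin 3 → G) →₀ ℤ)) := by
  have h2 : (CC G).d 4 3 = inhomogeneousChains.d (Rep.trivial ℤ G ℤ) 3 :=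
    inhomogeneousChains.d_def (A := Rep.trivial ℤ G ℤ) 3
  rw [h2]
  unfold tet tri
  refine (inhomogeneousChains.d_single (A := Rep.trivial ℤ G ℤ) 3 ![a, b, c, d] (1 : ℤ)).trans ?_
  have e0 : (fun i : Fin 3 => (![a, b, c, d] : Fin 4 → G) i.succ) = ![b, c, d] := by
    ext i; fin_cases i <;> rfl
  have c0 : Fin.contractNth (0 : Fin 4) (· * ·) ![a, b, c, d] = ![a * b, c, d] := by
    ext i; fin_cases i <;> rfl
  have c1 : Fin.contractNth (1 : Fin 4) (· * ·) ![a, b, c, d] = ![a, b * c, d] := by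
    ext i; fin_cases i <;> rfl
  have c2 : Fin.contractNth (2 : Fin 4) (· * ·) ![a, b, c, d] = ![a, b, c * d] := by
    ext i; fin_cases i <;> rfl
  have c3 : Fin.contractNth (3 : Fin 4) (· * ·) ![a, b, c, d] = ![a, b, c] := by
    ext i; fin_cases i <;> rfl
  rw [Fin.sum_univ_four, e0, c0, c1, c2, c3]
  simp
  abel

/-- the fourth differential as a linear map between finitely supported functions -/
noncomputable def d4 (G : Type) [Group G] : ((Fin 4 → G) →₀ ℤ) →ₗ[ℤ] ((Fin 3 → G) →₀ ℤ) :=
  ((CC G).d 4 3).hom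

theorem d4_tet (a b c d : G) : d4 G (tet a b c d) =
    tri b c d - tri (a * b) c d + tri a (b * c) d - tri a b (c * d) + tri a b c := d_tet a b c d

/-- the third differential as a linear map between finitely supported functions -/
noncomputable def d3 (G : Type) [Group G] : ((Fin 3 → G) →₀ ℤ) →ₗ[ℤ] ((Fin 2 → G) →₀ ℤ) :=
  ((CC G).d 3 2).hom

theorem d3_tri (a b c : G) : d3 G (tri a b c) =
    single ![b, c] 1 - single ![a * b, c] 1 + single ![a, b * c] 1 - single ![a, b] 1 :=
  d_tri a b c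

/-- evaluation of a cocycle on 3-chains -/
noncomputable def Cocycle3.lin {M : Type*} [AddCommGroup M] (f : Cocycle3 G M) :
    ((Fin 3 → G) →₀ ℤ) →ₗ[ℤ] M :=
  Finsupp.linearCombination ℤ fun g : Fin 3 → G => f.f (g 0) (g 1) (g 2)

theorem Cocycle3.lin_tri {M : Type*} [AddCommGroup M] (f : Cocycle3 G M) (a b c : G) :
    f.lin (tri a b c) = f.f a b c := by
  simp [Cocycle3.lin, tri]

theorem Cocycle3.lin_comp_d4 {M : Type*} [AddCommGroup M] (f : Cocycle3 G M) :
    f.lin ∘ₗ d4 G = 0 := by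
  ext g
  have hg : g = ![g 0, g 1, g 2, g 3] := by
    ext i; fin_cases i <;> rfl
  have h1 : (single g 1 : (Fin 4 → G) →₀ ℤ) = tet (g 0) (g 1) (g 2) (g 3) := by
    rw [tet, ← hg]
  simp only [LinearMap.comp_apply, Finsupp.lsingle_apply, LinearMap.zero_apply]
  rw [h1, d4_tet]
  simp only [map_add, map_sub, Cocycle3.lin_tri]
  exact f.cocycle _ _ _ _

/-- the universal 3-cocycle -/
noncomputable def univCocycle (G : Type) [Group G] :
    Cocycle3 G (((Fin 3 → G) →₀ ℤ) ⧸ LinearMap.range (d4 G)) where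
  f a b c := Submodule.Quotient.mk (tri a b c)
  cocycle a b c d := by
    rw [← Submodule.Quotient.mk_sub, ← Submodule.Quotient.mk_add, ← Submodule.Quotient.mk_sub,
      ← Submodule.Quotient.mk_add, ← d4_tet]
    exact (Submodule.Quotient.mk_eq_zero _).2 ⟨_, rfl⟩

/-- the chain `β(u)` -/
noncomputable def bch (u : G) : (Fin 3 → G) →₀ ℤ := ∑ i ∈ Finset.range 5, tri u (u ^ i) u

theorem Cocycle3.lin_bch {M : Type*} [AddCommGroup M] (f : Cocycle3 G M) (u : G) :
    f.lin (bch u) = f.beta u := by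
  simp only [bch, map_sum, Cocycle3.lin_tri, Cocycle3.beta]

theorem d3_bch (u : G) (hu : u ^ 5 = 1) : d3 G (bch u) = 0 := by
  unfold bch
  rw [map_sum]
  have : ∀ i ∈ Finset.range 5, d3 G (tri u (u ^ i) u) =
      (single ![u ^ i, u] 1 - single ![u, u ^ i] 1 : (Fin 2 → G) →₀ ℤ) -
      (single ![u ^ (i + 1), u] 1 - single ![u, u ^ (i + 1)] 1) := by
    intro i _
    rw [d3_tri, ← pow_succ', ← pow_succ]
    abel
  rw [Finset.sum_congr rfl this, Finset.sum_range_sub']
  simp [hu]

theorem exists_d4_conj (u t : G) (hu : u ^ 5 = 1) :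
    ∃ w, d4 G w = bch (t * u * t⁻¹) - bch u := by
  have h := (univCocycle G).beta_conj u t hu
  have h1 : ∀ v : G, (univCocycle G).beta v = Submodule.Quotient.mk (bch v) := by
    intro v
    unfold Cocycle3.beta bch
    exact (map_sum (Submodule.mkQ (LinearMap.range (d4 G))) _ _).symm
  rw [h1, h1, Submodule.Quotient.eq] at h
  exact h

/-- A 3-cycle detected by a 3-cocycle but mapping to a boundary shows non-injectivity. -/
theorem not_injective_of_chain {A F : Type} [CommRing A] [CommRing F] (φ : A →+* F)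
    (z : (Fin 3 → St A) →₀ ℤ) (hz : d3 (St A) z = 0) {M : Type} [AddCommGroup M]
    (f : Cocycle3 (St A) M) (hf : f.lin z ≠ 0)
    (w : (Fin 4 → St F) →₀ ℤ)
    (hw : d4 (St F) w = Finsupp.mapDomain (fun g => stMap φ ∘ g) z) :
    ¬ Function.Injective (H3map φ).hom := by
  intro hinj
  -- the cycle and its class
  let cyc : (CC (St A)).cycles 3 := (CC (St A)).cyclesMk (i := 3) z 2 (by simp) hz
  have hcyc : (CC (St A)).iCycles 3 cyc = z := (CC (St A)).i_cyclesMk (i := 3) z 2 (by simp) hz
  -- the class is non-zero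
  have hne : (CC (St A)).homologyπ 3 cyc ≠ 0 := by
    intro h0
    have hd : (CC (St A)).d 4 3 ≫ (ModuleCat.ofHom f.lin : (CC (St A)).X 3 ⟶ ModuleCat.of ℤ M) = 0 := by
      ext1
      exact f.lin_comp_d4
    have h1 : (CC (St A)).homologyπ 3 ≫ (CC (St A)).homologyι 3 ≫
        (CC (St A)).descOpcycles (ModuleCat.ofHom f.lin : (CC (St A)).X 3 ⟶ ModuleCat.of ℤ M)
          4 (by simp) hd = (CC (St A)).iCycles 3 ≫ ModuleCat.ofHom f.lin := by
      rw [HomologicalComplex.homology_π_ι_assoc, HomologicalComplex.p_descOpcycles]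
    have h2 := congrArg (fun k => k.hom cyc) h1
    simp only [ModuleCat.hom_comp, LinearMap.comp_apply] at h2
    rw [h0, map_zero, map_zero] at h2
    rw [hcyc] at h2
    exact hf h2.symm
  -- its image vanishes
  have hzero : (H3map φ).hom ((CC (St A)).homologyπ 3 cyc) = 0 := by
    have h1 := groupHomology.π_map (stMap φ) (trivialHom φ) 3
    have h2 := congrArg (fun k => k.hom cyc) h1
    simp only [ModuleCat.hom_comp, LinearMap.comp_apply] at h2
    have h3 : (HomologicalComplex.cyclesMap (chainsMap (stMap φ) (trivialHom φ)) 3).hom cyc =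
        ((CC (St F)).toCycles 4 3).hom w := by
      have hmono : Function.Injective ((CC (St F)).iCycles 3).hom :=
        (ModuleCat.mono_iff_injective _).1 inferInstance
      apply hmono
      have h4 := congrArg (fun k => k.hom cyc)
        (HomologicalComplex.cyclesMap_i (chainsMap (stMap φ) (trivialHom φ)) 3)
      have h5 := congrArg (fun k => k.hom w) ((CC (St F)).toCycles_i 4 3)
      simp only [ModuleCat.hom_comp, LinearMap.comp_apply] at h4 h5
      have h6 : ((chainsMap (stMap φ) (trivialHom φ)).f 3).hom z =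
          Finsupp.mapDomain (fun g => stMap φ ∘ g) z := by
        rw [chainsMap_f]
        ext g
        rfl
      refine h4.trans ?_
      refine Eq.trans ?_ h5.symm
      refine (congrArg ((chainsMap (stMap φ) (trivialHom φ)).f 3).hom hcyc).trans ?_
      exact h6.trans hw.symm
    have h7 := congrArg (fun k => k.hom w) ((CC (St F)).toCycles_comp_homologyπ 4 3)
    simp only [ModuleCat.hom_comp, LinearMap.comp_apply] at h7
    refine h2.trans ?_
    refine (congrArg ((CC (St F)).homologyπ 3).hom h3).trans ?_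
    exact h7
  exact hne (hinj (hzero.trans (map_zero (H3map φ).hom).symm))

theorem mapDomain_bch {G H : Type} [Group G] [Group H] (ψ : G →* H) (u : G) :
    Finsupp.mapDomain (fun g : Fin 3 → G => ψ ∘ g) (bch u) = bch (ψ u) := by
  unfold bch
  rw [← Finsupp.lmapDomain_apply (M := ℤ) (R := ℤ), map_sum]
  refine Finset.sum_congr rfl fun i _ => ?_
  unfold tri
  rw [Finsupp.lmapDomain_apply, Finsupp.mapDomain_single]
  congr 1
  ext j
  fin_cases j <;> simp

/-- **Homology interface**: two elements `u₀, u₁ ∈ St(A)` with `u⁵ = 1` which become conjugate in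
`St(F)` but are distinguished by a 3-cocycle on `St(A)` show that `K₃(A) → K₃(F)` is not
injective. -/
theorem not_injective_of_conj {A F : Type} [CommRing A] [CommRing F] (φ : A →+* F)
    (u₀ u₁ : St A) (h₀ : u₀ ^ 5 = 1) (h₁ : u₁ ^ 5 = 1) (t : St F)
    (ht : t * stMap φ u₀ * t⁻¹ = stMap φ u₁) {M : Type} [AddCommGroup M]
    (f : Cocycle3 (St A) M)
    (hne : ∑ i ∈ Finset.range 5, f.f u₁ (u₁ ^ i) u₁ ≠ ∑ i ∈ Finset.range 5, f.f u₀ (u₀ ^ i) u₀) :
    ¬ Function.Injective (H3map φ).hom := by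
  obtain ⟨w, hw⟩ := exists_d4_conj (stMap φ u₀) t (by rw [← map_pow, h₀, map_one])
  rw [ht] at hw
  refine not_injective_of_chain φ (bch u₁ - bch u₀) ?_ f ?_ w ?_
  · rw [map_sub, d3_bch u₁ h₁, d3_bch u₀ h₀, sub_zero]
  · rw [map_sub, Cocycle3.lin_bch, Cocycle3.lin_bch]
    exact sub_ne_zero.2 hne
  · rw [hw, ← Finsupp.lmapDomain_apply (M := ℤ) (R := ℤ), map_sub, Finsupp.lmapDomain_apply,
      Finsupp.lmapDomain_apply, mapDomain_bch, mapDomain_bch]

end Chains

end Crest.Agent.R171
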