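import Crest.Agent.R171.Defs

/-!
Partial matrix computations (helper357, for helper757): the two conjugate `C₅`-lattices, and the value of
the Dennis-trace cocycle on the order-five class.
-/

set_option autoImplicit false

namespace Crest.Agent.R171.MatBase

open Matrix

section basic

variable {A : Type*} [CommRing A]

/-- companion matrix of `Φ₅` -/
def g0 (A : Type*) [CommRing A] : Matrix (Fin 4) (Fin 4) A :=
  !![0, 0, 0, -1; 1, 0, 0, -1; 0, 1, 0, -1; 0, 0, 1, -1]

/-- the second lattice -/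
def g1 (x z t : A) : Matrix (Fin 4) (Fin 4) A :=
  !![0, -1, 0, t * x ^ 4; 1, z - 1, 0, -(z - 1) * t * x ^ 4; 0, x, 0, -(1 + t * x ^ 5);
     0, 0, 1, -z]

/-- the change of basis -/
def bm (x z : A) : Matrix (Fin 4) (Fin 4) A :=
  !![x, 0, 1, 0; 0, x, -(z - 1), 1; 0, 0, 1, -(z - 1); 0, 0, 0, 1]

theorem g0_pow_five : g0 A ^ 5 = 1 := by
  have h2 : g0 A * g0 A = !![0, 0, -1, 1; 0, 0, -1, 0; 1, 0, -1, 0; 0, 1, -1, 0] := by
    ext i j
    fin_cases i <;> fin_cases j <;> simp [g0, Matrix.mul_apply, Fin.sum_univ_four]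
  have h4 : (g0 A * g0 A) * (g0 A * g0 A) = !![-1, 1, 0, 0; -1, 0, 1, 0; -1, 0, 0, 1; -1, 0, 0, 0] := by
    rw [h2]
    ext i j
    fin_cases i <;> fin_cases j <;> simp [Matrix.mul_apply, Fin.sum_univ_four]
  have h5 : g0 A ^ 5 = ((g0 A * g0 A) * (g0 A * g0 A)) * g0 A := by
    simp only [pow_succ, pow_zero, one_mul, mul_assoc]
  rw [h5, h4]
  ext i j
  fin_cases i <;> fin_cases j <;> simp [g0, Matrix.mul_apply, Fin.sum_univ_four]

theorem g0_mul_bm (x z t : A) (hE : z ^ 2 - z - 1 = t * x ^ 5) :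
    g0 A * bm x z = bm x z * g1 x z t := by
  ext i j
  fin_cases i <;> fin_cases j <;>
    simp [g0, bm, g1, Matrix.mul_apply, Fin.sum_univ_four] <;>
    (try ring_nf) <;> (try linear_combination -hE)

theorem det_bm (x z : A) : (bm x z).det = x ^ 2 := by
  simp [bm, Matrix.det_succ_row_zero, Fin.sum_univ_succ, Fin.succAbove]
  ring

theorem g1_pow_five [IsDomain A] (x z t : A) (hx : x ≠ 0) (hE : z ^ 2 - z - 1 = t * x ^ 5) :
    g1 x z t ^ 5 = 1 := by
  have h : ∀ n : ℕ, g0 A ^ n * bm x z = bm x z * g1 x z t ^ n := by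
    intro n
    induction n with
    | zero => simp
    | succ n ih =>
      rw [pow_succ, mul_assoc, g0_mul_bm x z t hE, ← mul_assoc, ih, mul_assoc, ← pow_succ]
  have h5 := h 5
  rw [g0_pow_five, one_mul] at h5
  have h6 : (x ^ 2) • (g1 x z t ^ 5 - 1) = 0 := by
    have h7 : adjugate (bm x z) * (bm x z * (g1 x z t ^ 5 - 1)) = 0 := by
      rw [mul_sub, ← h5, mul_one, sub_self, mul_zero]
    rw [← mul_assoc, adjugate_mul, det_bm, smul_mul_assoc, one_mul] at h7
    exact h7
  rcases smul_eq_zero.mp h6 with h8 | h8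
  · exact absurd (pow_eq_zero_iff (two_ne_zero)|>.mp h8) hx
  · exact sub_eq_zero.mp h8

end basic

/-! ### derivations on matrices -/

section der

variable {A Q : Type*} [CommRing A] [CommRing Q] (𝒟 : DerData A Q)
variable {n : Type*} [Fintype n] [DecidableEq n]

theorem D_zero (k : Fin 3) : 𝒟.D k 0 = 0 := by
  have h := 𝒟.add k 0 0
  simp only [add_zero] at h
  exact left_eq_add.mp h

theorem D_one (k : Fin 3) : 𝒟.D k 1 = 0 := by
  have h := 𝒟.leib k 1 1
  simp only [mul_one, map_one, one_mul] at h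
  exact left_eq_add.mp h

theorem D_neg (k : Fin 3) (a : A) : 𝒟.D k (-a) = -𝒟.D k a := by
  have h := 𝒟.add k a (-a)
  rw [add_neg_cancel, D_zero] at h
  exact eq_neg_of_add_eq_zero_right h.symm

theorem D_sub (k : Fin 3) (a b : A) : 𝒟.D k (a - b) = 𝒟.D k a - 𝒟.D k b := by
  rw [sub_eq_add_neg, 𝒟.add, D_neg, sub_eq_add_neg]

theorem D_pow (k : Fin 3) (a : A) (m : ℕ) :
    𝒟.D k (a ^ m) = m * 𝒟.q a ^ (m - 1) * 𝒟.D k a := by
  induction m with
  | zero => simp [D_one]
  | succ m ih =>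
    rw [pow_succ, 𝒟.leib, ih]
    rcases m with _ | m
    · simp
    · simp only [Nat.add_sub_cancel, map_pow]
      push_cast
      ring

theorem D_sum (k : Fin 3) {ι : Type*} (s : Finset ι) (f : ι → A) :
    𝒟.D k (∑ i ∈ s, f i) = ∑ i ∈ s, 𝒟.D k (f i) := by
  classical
  induction s using Finset.induction_on with
  | empty => simp [D_zero]
  | insert a s ha ih => rw [Finset.sum_insert ha, 𝒟.add, ih, Finset.sum_insert ha]

theorem mapD_mul (k : Fin 3) (M N : Matrix n n A) :
    (M * N).map (𝒟.D k) = M.map 𝒟.q * N.map (𝒟.D k) + M.map (𝒟.D k) * N.map 𝒟.q := by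
  ext i j
  simp only [Matrix.map_apply, Matrix.mul_apply, Matrix.add_apply, D_sum, 𝒟.leib,
    Finset.sum_add_distrib]

theorem mapD_one (k : Fin 3) : (1 : Matrix n n A).map (𝒟.D k) = 0 := by
  ext i j
  by_cases h : i = j
  · subst h; simp [D_one]
  · simp [h, D_zero]

theorem mapq_mul (M N : Matrix n n A) : (M * N).map 𝒟.q = M.map 𝒟.q * N.map 𝒟.q :=
  Matrix.map_mul

theorem mapq_one : (1 : Matrix n n A).map 𝒟.q = 1 := by
  ext i j
  by_cases h : i = j
  · subst h; simp
  · simp [h]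

end der

end Crest.Agent.R171.MatBase
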