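import Crest.Agent.R171.StRep

/-!
# Order five elements in the Steinberg group (result 171)
-/

set_option autoImplicit false
set_option linter.unusedSectionVars false

noncomputable section

namespace Crest.Agent.R171
open Crest.AlgebraR.Steinberg

/-! ### group theoretic lemmas on homomorphisms with central kernel -/

section Central

variable {G : Type*} [Group G] {M : Type*} [Monoid M] (ρ : G →* M)
  (hc : ∀ g, ρ g = 1 → ∀ h, g * h = h * g)

theorem exists_central_of_map_eq {a a' : G} (h : ρ a = ρ a') : ∃ c, ρ c = 1 ∧ a = c * a' := by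
  refine ⟨a * a'⁻¹, ?_, by group⟩
  have h1 : ρ a' * ρ a'⁻¹ = 1 := by rw [← map_mul, mul_inv_cancel, map_one]
  rw [map_mul, h, h1]

include hc in
/-- commutators only depend on the images -/
theorem commutator_eq_of_map_eq {a a' b b' : G} (ha : ρ a = ρ a') (hb : ρ b = ρ b') :
    a * b * a⁻¹ * b⁻¹ = a' * b' * a'⁻¹ * b'⁻¹ := by
  obtain ⟨c, hc1, rfl⟩ := exists_central_of_map_eq ρ ha
  obtain ⟨d, hd1, rfl⟩ := exists_central_of_map_eq ρ hb
  have hc2 := hc c hc1
  have hd2 := hc d hd1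
  calc c * a' * (d * b') * (c * a')⁻¹ * (d * b')⁻¹
      = c * (a' * (d * b')) * a'⁻¹ * c⁻¹ * b'⁻¹ * d⁻¹ := by group
    _ = (a' * (d * b')) * c * a'⁻¹ * c⁻¹ * b'⁻¹ * d⁻¹ := by rw [hc2]
    _ = a' * d * b' * (c * a'⁻¹) * c⁻¹ * b'⁻¹ * d⁻¹ := by group
    _ = a' * d * b' * (a'⁻¹ * c) * c⁻¹ * b'⁻¹ * d⁻¹ := by rw [hc2]
    _ = a' * (d * (b' * a'⁻¹ * b'⁻¹)) * d⁻¹ := by group
    _ = a' * ((b' * a'⁻¹ * b'⁻¹) * d) * d⁻¹ := by rw [hd2]
    _ = a' * b' * a'⁻¹ * b'⁻¹ := by group

include hc in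
/-- if `ρ(h)⁵ = 1` and `ρ(w)` conjugates `ρ(h)⁻¹` to `ρ(h)`, then `[h,w]⁵ = 1`. -/
theorem commutator_pow_five {h w : G} (h5 : ρ (h ^ 5) = 1) (hw : ρ (w * h⁻¹ * w⁻¹) = ρ h) :
    (h * w * h⁻¹ * w⁻¹) ^ 5 = 1 := by
  obtain ⟨c, hc1, hc3⟩ := exists_central_of_map_eq ρ hw
  have hc2 := hc c hc1
  have hk := hc (h ^ 5) h5
  have e1 : h * w * h⁻¹ * w⁻¹ = c * (h * h) := by
    calc h * w * h⁻¹ * w⁻¹ = h * (w * h⁻¹ * w⁻¹) := by group
      _ = h * (c * h) := by rw [hc3]
      _ = (h * c) * h := by group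
      _ = (c * h) * h := by rw [hc2 h]
      _ = c * (h * h) := by group
  have comm1 : Commute c h := hc2 h
  have comm2 : Commute c (h * h) := hc2 (h * h)
  have e2 : (w * h⁻¹ * w⁻¹) ^ 5 = w * (h ^ 5)⁻¹ * w⁻¹ := by
    rw [conj_pow, inv_pow]
  have e3 : w * (h ^ 5)⁻¹ * w⁻¹ = (h ^ 5)⁻¹ := by
    have : Commute (h ^ 5) w := hk w
    rw [← (this.inv_left).eq, mul_inv_cancel_right]
  rw [e3, hc3, comm1.mul_pow] at e2
  rw [e1, comm2.mul_pow, (Commute.refl h).mul_pow, ← mul_assoc, e2, inv_mul_cancel]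

end Central

/-! ### lifting block diagonal matrices -/

section Lift

variable {R : Type*} [CommRing R]

/-- the set of block matrices in the image of the Steinberg group -/
def InIm {ι : Type*} [Fintype ι] [DecidableEq ι] (e : ι → ℕ) (M : Matrix ι ι R) : Prop :=
  ∃ g : St R, rho g = emb e M

variable {ι : Type*} [Fintype ι] [DecidableEq ι] {e : ι → ℕ}

theorem InIm.one : InIm e (1 : Matrix ι ι R) := ⟨1, by rw [map_one, emb_one]⟩

theorem InIm.mul (he : Function.Injective e) {M N : Matrix ι ι R} (hM : InIm e M)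
    (hN : InIm e N) : InIm e (M * N) := by
  obtain ⟨g, hg⟩ := hM
  obtain ⟨g', hg'⟩ := hN
  exact ⟨g * g', by rw [map_mul, hg, hg', emb_mul e he]⟩

theorem InIm.transvection (he : Function.Injective e) {a b : ι} (hab : a ≠ b) (r : R) :
    InIm e (Matrix.transvection a b r) :=
  ⟨X (e a) (e b) (he.ne hab) r, by rw [rho_X, emb_transvection]⟩

variable {κ : Type*} [Fintype κ] [DecidableEq κ] {e₂ : κ ⊕ κ → ℕ}

open Matrix in
theorem InIm.upper (he : Function.Injective e₂) (M : Matrix κ κ R) :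
    InIm e₂ (fromBlocks 1 M 0 1) := by
  induction M using Matrix.induction_on' with
  | h_zero => rw [fromBlocks_one]; exact InIm.one
  | h_add p q hp hq =>
    have : (fromBlocks 1 (p + q) 0 1 : Matrix (κ ⊕ κ) (κ ⊕ κ) R) =
        fromBlocks 1 q 0 1 * fromBlocks 1 p 0 1 := by
      simp [fromBlocks_multiply]
    rw [this]
    exact hq.mul he hp
  | h_std_basis i j x =>
    have : (fromBlocks 1 (Matrix.single i j x) 0 1 : Matrix (κ ⊕ κ) (κ ⊕ κ) R) =
        Matrix.transvection (Sum.inl i) (Sum.inr j) x := by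
      ext (a | a) (b | b) <;>
      simp [Matrix.transvection, Matrix.single_apply, Matrix.one_apply]
    rw [this]
    exact InIm.transvection he (by simp) x

open Matrix in
theorem InIm.lower (he : Function.Injective e₂) (M : Matrix κ κ R) :
    InIm e₂ (fromBlocks 1 0 M 1) := by
  induction M using Matrix.induction_on' with
  | h_zero => rw [fromBlocks_one]; exact InIm.one
  | h_add p q hp hq =>
    have : (fromBlocks 1 0 (p + q) 1 : Matrix (κ ⊕ κ) (κ ⊕ κ) R) =
        fromBlocks 1 0 p 1 * fromBlocks 1 0 q 1 := by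
      simp [fromBlocks_multiply]
    rw [this]
    exact hp.mul he hq
  | h_std_basis i j x =>
    have : (fromBlocks 1 0 (Matrix.single i j x) 1 : Matrix (κ ⊕ κ) (κ ⊕ κ) R) =
        Matrix.transvection (Sum.inr i) (Sum.inl j) x := by
      ext (a | a) (b | b) <;>
      simp [Matrix.transvection, Matrix.single_apply, Matrix.one_apply]
    rw [this]
    exact InIm.transvection he (by simp) x

open Matrix in
theorem InIm.antidiag (he : Function.Injective e₂) {M M' : Matrix κ κ R} (h : M * M' = 1)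
    (h' : M' * M = 1) : InIm e₂ (fromBlocks 0 M (-M') 0) := by
  have : fromBlocks 0 M (-M') 0 =
      fromBlocks 1 M 0 1 * fromBlocks 1 0 (-M') 1 * fromBlocks 1 M 0 1 := by
    simp [fromBlocks_multiply, h, h']
  rw [this]
  exact ((InIm.upper he M).mul he (InIm.lower he _)).mul he (InIm.upper he M)

open Matrix in
theorem InIm.antidiag' (he : Function.Injective e₂) {M M' : Matrix κ κ R} (h : M * M' = 1)
    (h' : M' * M = 1) : InIm e₂ (fromBlocks 0 (-M) M' 0) := by
  have := InIm.antidiag he (M := -M) (M' := -M') (by simpa using h) (by simpa using h')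
  simpa using this

open Matrix in
/-- Whitehead's lemma: `diag(M, M⁻¹)` lifts to the Steinberg group. -/
theorem InIm.diag (he : Function.Injective e₂) {M M' : Matrix κ κ R} (h : M * M' = 1)
    (h' : M' * M = 1) : InIm e₂ (fromBlocks M 0 0 M') := by
  have : fromBlocks M 0 0 M' = fromBlocks 0 M (-M') 0 * fromBlocks 0 (-1) 1 0 := by
    simp [fromBlocks_multiply]
  rw [this]
  exact (InIm.antidiag he h h').mul he (InIm.antidiag' he (by simp) (by simp))

end Lift

section Elements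

open Matrix

variable {R : Type*} [CommRing R] {κ : Type*} [Fintype κ] [DecidableEq κ]

/-- the embedding along the first of two blocks -/
theorem emb_inl {κ₁ κ₂ : Type*} [Fintype κ₁] [DecidableEq κ₁] [Fintype κ₂] [DecidableEq κ₂]
    (e : κ₁ ⊕ κ₂ → ℕ) (M : Matrix κ₁ κ₁ R) :
    emb (e ∘ Sum.inl) M = emb e (fromBlocks M 0 0 1) := by
  apply LinearMap.ext
  intro v
  simp only [emb, LinearMap.add_apply, Module.End.one_apply]
  congr 1
  rw [embE_apply, embE_apply, Fintype.sum_sum_type]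
  have h2 : ∑ a : κ₂, Finsupp.single (e (Sum.inr a))
      (∑ b, (fromBlocks M 0 0 1 - 1 : Matrix (κ₁ ⊕ κ₂) (κ₁ ⊕ κ₂) R) (Sum.inr a) b * v (e b)) = 0 := by
    refine Finset.sum_eq_zero fun a _ => ?_
    rw [Fintype.sum_sum_type]
    simp [Matrix.one_apply]
  rw [h2, add_zero]
  refine Finset.sum_congr rfl fun a _ => ?_
  rw [Fintype.sum_sum_type]
  simp [Matrix.one_apply]

/-- The two order five elements attached to conjugate matrices. -/
theorem exists_elements {A F : Type*} [CommRing A] [CommRing F] (φ : A →+* F)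
    (hcA : ∀ g : St A, rho g = 1 → ∀ h, g * h = h * g)
    (hcF : ∀ g : St F, rho g = 1 → ∀ h, g * h = h * g)
    (e : (κ ⊕ κ) ⊕ (κ ⊕ κ) → ℕ) (he : Function.Injective e)
    (g0 g0' g1 g1' : Matrix κ κ A) (h0 : g0 * g0' = 1) (h0' : g0' * g0 = 1)
    (h1 : g1 * g1' = 1) (h1' : g1' * g1 = 1) (h05 : g0 ^ 5 = 1) (h15 : g1 ^ 5 = 1)
    (θ θ' : Matrix κ κ F) (hθ : θ * θ' = 1) (hθ' : θ' * θ = 1)
    (hconj : θ * g0.map φ = g1.map φ * θ) :
    ∃ u0 u1 : St A, u0 ^ 5 = 1 ∧ u1 ^ 5 = 1 ∧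
      rho u0 = emb (e ∘ Sum.inl) (fromBlocks (g0 * g0) 0 0 (g0' * g0')) ∧
      rho u1 = emb (e ∘ Sum.inl) (fromBlocks (g1 * g1) 0 0 (g1' * g1')) ∧
      ∃ t : St F, t * stMap φ u0 * t⁻¹ = stMap φ u1 := by
  have he1 : Function.Injective (e ∘ Sum.inl) := he.comp Sum.inl_injective
  obtain ⟨k0, hk0⟩ := InIm.diag he1 h0 h0'
  obtain ⟨k1, hk1⟩ := InIm.diag he1 h1 h1'
  obtain ⟨w, hw⟩ := InIm.antidiag (R := A) he1 (M := (1 : Matrix κ κ A)) (M' := 1)
    (by simp) (by simp)
  -- the Weyl element conjugates `diag(g,g')` to `diag(g',g)`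
  have key : ∀ (k : St A) (g g' : Matrix κ κ A), g * g' = 1 → g' * g = 1 → g ^ 5 = 1 →
      rho k = emb (e ∘ Sum.inl) (fromBlocks g 0 0 g') →
      rho (k ^ 5) = 1 ∧ rho (w * k⁻¹ * w⁻¹) = rho k := by
    intro k g g' hg hg' hg5 hk
    have hg5' : g' ^ 5 = 1 := by
      have e1 : g ^ 5 * g' ^ 5 = 1 := by
        have hcomm : Commute g g' := by
          rw [Commute, SemiconjBy, hg, hg']
        rw [← hcomm.mul_pow, hg, one_pow]
      rwa [hg5, one_mul] at e1
    have hpow : ∀ n : ℕ, (emb (e ∘ Sum.inl) (fromBlocks g 0 0 g')) ^ n =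
        emb (e ∘ Sum.inl) (fromBlocks (g ^ n) 0 0 (g' ^ n)) := by
      intro n
      induction n with
      | zero => simp [emb_one]
      | succ n ih =>
        rw [pow_succ, ih, ← emb_mul _ he1, pow_succ, pow_succ, fromBlocks_multiply]
        simp
    constructor
    · rw [map_pow, hk, hpow, hg5, hg5', fromBlocks_one, emb_one]
    · -- rho (w * k⁻¹) = rho (k * w)
      have hkinv : rho k⁻¹ = emb (e ∘ Sum.inl) (fromBlocks g' 0 0 g) := by
        have e1 : rho k * emb (e ∘ Sum.inl) (fromBlocks g' 0 0 g) = 1 := by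
          rw [hk, ← emb_mul _ he1, fromBlocks_multiply]
          simp [hg, hg', emb_one]
        have e2 : rho k⁻¹ * rho k = 1 := by rw [← map_mul, inv_mul_cancel, map_one]
        exact left_inv_eq_right_inv e2 e1
      have e3 : rho (w * k⁻¹) = rho (k * w) := by
        rw [map_mul, map_mul, hkinv, hk, hw, ← emb_mul _ he1, ← emb_mul _ he1,
          fromBlocks_multiply, fromBlocks_multiply]
        simp
      rw [map_mul, e3, ← map_mul, mul_inv_cancel_right]
  obtain ⟨k05, hk0w⟩ := key k0 g0 g0' h0 h0' h05 hk0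
  obtain ⟨k15, hk1w⟩ := key k1 g1 g1' h1 h1' h15 hk1
  have hrho : ∀ (k : St A) (g g' : Matrix κ κ A),
      rho k = emb (e ∘ Sum.inl) (fromBlocks g 0 0 g') → rho (w * k⁻¹ * w⁻¹) = rho k →
      rho (k * w * k⁻¹ * w⁻¹) = emb (e ∘ Sum.inl) (fromBlocks (g * g) 0 0 (g' * g')) := by
    intro k g g' hk hkw
    have : k * w * k⁻¹ * w⁻¹ = k * (w * k⁻¹ * w⁻¹) := by group
    rw [this, map_mul, hkw, hk, ← emb_mul _ he1, fromBlocks_multiply]
    simp
  refine ⟨k0 * w * k0⁻¹ * w⁻¹, k1 * w * k1⁻¹ * w⁻¹, commutator_pow_five rho hcA k05 hk0w,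
    commutator_pow_five rho hcA k15 hk1w, hrho k0 g0 g0' hk0 hk0w, hrho k1 g1 g1' hk1 hk1w, ?_⟩
  -- the conjugating element over `F`
  obtain ⟨t, ht⟩ := InIm.diag (R := F) he (M := fromBlocks θ 0 0 θ) (M' := fromBlocks θ' 0 0 θ')
    (by rw [fromBlocks_multiply]; simp [hθ]) (by rw [fromBlocks_multiply]; simp [hθ'])
  refine ⟨t, ?_⟩
  have hconj' : θ * g0'.map φ = g1'.map φ * θ := by
    have a1 : g1'.map φ * g1.map φ = 1 := by
      rw [← Matrix.map_mul, h1', Matrix.map_one φ (map_zero φ) (map_one φ)]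
    have a0 : g0.map φ * g0'.map φ = 1 := by
      rw [← Matrix.map_mul, h0, Matrix.map_one φ (map_zero φ) (map_one φ)]
    calc θ * g0'.map φ = (g1'.map φ * g1.map φ) * θ * g0'.map φ := by rw [a1, one_mul]
      _ = g1'.map φ * (g1.map φ * θ) * g0'.map φ := by simp only [Matrix.mul_assoc]
      _ = g1'.map φ * (θ * g0.map φ) * g0'.map φ := by rw [hconj]
      _ = g1'.map φ * θ * (g0.map φ * g0'.map φ) := by simp only [Matrix.mul_assoc]
      _ = g1'.map φ * θ := by rw [a0, mul_one]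
  -- images over `F`, seen in the big block
  have hF : ∀ (k : St A) (M : Matrix (κ ⊕ κ) (κ ⊕ κ) A), rho k = emb (e ∘ Sum.inl) M →
      rho (stMap φ k) = emb e (fromBlocks (M.map φ) 0 0 1) := by
    intro k M hk
    rw [rho_stMap_of_emb φ (e ∘ Sum.inl) hk, emb_inl]
  have hconjrho : ∀ (a b : St A) (M N : Matrix (κ ⊕ κ) (κ ⊕ κ) A),
      rho a = emb (e ∘ Sum.inl) M → rho b = emb (e ∘ Sum.inl) N →
      fromBlocks θ 0 0 θ * M.map φ = N.map φ * fromBlocks θ 0 0 θ →
      rho (t * stMap φ a * t⁻¹) = rho (stMap φ b) := by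
    intro a b M N ha hb hMN
    have e3 : rho (t * stMap φ a) = rho (stMap φ b * t) := by
      rw [map_mul, map_mul, hF a M ha, hF b N hb, ht, ← emb_mul _ he, ← emb_mul _ he,
        fromBlocks_multiply, fromBlocks_multiply]
      simp [hMN]
    rw [map_mul, e3, ← map_mul, mul_inv_cancel_right]
  have c1 : rho (t * stMap φ k0 * t⁻¹) = rho (stMap φ k1) := by
    refine hconjrho k0 k1 _ _ hk0 hk1 ?_
    rw [fromBlocks_map, fromBlocks_map, fromBlocks_multiply, fromBlocks_multiply]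
    simp [hconj, hconj']
  have c2 : rho (t * stMap φ w * t⁻¹) = rho (stMap φ w) := by
    refine hconjrho w w _ _ hw hw ?_
    have hneg : (-1 : Matrix κ κ A).map φ = -1 := by
      ext i j
      simp only [Matrix.map_apply, Matrix.neg_apply, Matrix.one_apply, map_neg]
      split_ifs <;> simp
    rw [fromBlocks_map, fromBlocks_multiply, fromBlocks_multiply, hneg]
    simp [Matrix.map_one φ (map_zero φ) (map_one φ)]
  have := commutator_eq_of_map_eq rho hcF c1 c2
  rw [map_mul, map_mul, map_mul, map_inv, map_inv, map_mul, map_mul, map_mul, map_inv, map_inv,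
    ← this]
  group

end Elements

end Crest.Agent.R171
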