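import Crest.Agent.R171.MatBase

/-!
The value of the Dennis trace cocycle on the order five class (result 171).
-/

set_option autoImplicit false
set_option linter.unusedSectionVars false
set_option linter.unusedSimpArgs false

open Matrix

namespace Crest.Agent.R171.TS

/-- 4×4 matrices over `ZMod 5` -/
abbrev M4 := Matrix (Fin 4) (Fin 4) (ZMod 5)

section Cg

variable {Q : Type*} [CommRing Q] (c : ZMod 5 →+* Q) (X4 : Q)

/-- congruence of a `Q`-matrix with a `ZMod 5`-matrix modulo the annihilator of `X4` -/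
def Cg (M : Matrix (Fin 4) (Fin 4) Q) (m : M4) : Prop := X4 • M = X4 • m.map c

variable {c X4} {M N : Matrix (Fin 4) (Fin 4) Q} {m n : M4}

theorem Cg.mul (hM : Cg c X4 M m) (hN : Cg c X4 N n) : Cg c X4 (M * N) (m * n) := by
  unfold Cg at *
  calc X4 • (M * N) = (X4 • M) * N := (smul_mul_assoc _ _ _).symm
    _ = (X4 • m.map c) * N := by rw [hM]
    _ = m.map c * (X4 • N) := by rw [smul_mul_assoc, mul_smul_comm]
    _ = m.map c * (X4 • n.map c) := by rw [hN]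
    _ = X4 • (m * n).map c := by rw [mul_smul_comm, Matrix.map_mul]

theorem Cg.add (hM : Cg c X4 M m) (hN : Cg c X4 N n) : Cg c X4 (M + N) (m + n) := by
  unfold Cg at *
  rw [smul_add, hM, hN, ← smul_add]
  congr 1
  ext i j
  simp

theorem Cg.zero : Cg c X4 0 0 := by
  unfold Cg
  congr 1
  ext i j
  simp

theorem Cg.one : Cg c X4 1 1 := by
  unfold Cg
  rw [Matrix.map_one c (map_zero c) (map_one c)]

theorem Cg.pow (hM : Cg c X4 M m) (k : ℕ) : Cg c X4 (M ^ k) (m ^ k) := by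
  induction k with
  | zero => rw [pow_zero, pow_zero]; exact Cg.one
  | succ k ih => rw [pow_succ, pow_succ]; exact ih.mul hM

theorem Cg.trace_mul (hM : Cg c X4 M m) (K : M4) :
    trace (M * (X4 • K.map c)) = X4 * c (trace (m * K)) := by
  have h1 : M * (X4 • K.map c) = X4 • (m * K).map c := by
    calc M * (X4 • K.map c) = (X4 • M) * K.map c := by rw [mul_smul_comm, smul_mul_assoc]
      _ = (X4 • m.map c) * K.map c := by rw [hM]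
      _ = X4 • (m * K).map c := by rw [smul_mul_assoc, Matrix.map_mul]
  rw [h1, trace_smul, smul_eq_mul]
  congr 1
  exact (AddMonoidHom.map_trace (c : ZMod 5 →+ Q) (m * K)).symm

end Cg

section Good

variable {A Q : Type*} [CommRing A] [CommRing Q] (𝒟 : DerData A Q)
  (c : ZMod 5 →+* Q) (X4 : Q)

/-- a matrix over `A` with its reductions -/
structure Good (V : Matrix (Fin 4) (Fin 4) A) (v a b n : M4) : Prop where
  q : Cg c X4 (V.map 𝒟.q) v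
  d0 : Cg c X4 (V.map (𝒟.D 0)) a
  d1 : Cg c X4 (V.map (𝒟.D 1)) b
  d2 : V.map (𝒟.D 2) = X4 • n.map c

variable {𝒟 c X4} {V V' : Matrix (Fin 4) (Fin 4) A} {v a b n v' a' b' n' : M4}

theorem Good.mul (h : Good 𝒟 c X4 V v a b n) (h' : Good 𝒟 c X4 V' v' a' b' n') :
    Good 𝒟 c X4 (V * V') (v * v') (v * a' + a * v') (v * b' + b * v') (v * n' + n * v') where
  q := by rw [MatBase.mapq_mul]; exact h.q.mul h'.q
  d0 := by
    rw [MatBase.mapD_mul]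
    exact (h.q.mul h'.d0).add (h.d0.mul h'.q)
  d1 := by
    rw [MatBase.mapD_mul]
    exact (h.q.mul h'.d1).add (h.d1.mul h'.q)
  d2 := by
    rw [MatBase.mapD_mul, h.d2, h'.d2]
    have e1 : V.map 𝒟.q * X4 • n'.map c = X4 • (v * n').map c := by
      rw [mul_smul_comm, ← smul_mul_assoc, h.q, smul_mul_assoc, Matrix.map_mul]
    have e2 : X4 • n.map c * V'.map 𝒟.q = X4 • (n * v').map c := by
      rw [smul_mul_assoc, ← mul_smul_comm, h'.q, mul_smul_comm, Matrix.map_mul]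
    rw [e1, e2, ← smul_add, Matrix.map_add c (map_add c)]

/-- the reduction of the `D 1`-derivative of powers -/
def beta (v b : M4) : ℕ → M4
  | 0 => 0
  | k + 1 => v ^ k * b + beta v b k * v

theorem Good.d1_pow (h : Good 𝒟 c X4 V v a b n) (k : ℕ) :
    Cg c X4 ((V ^ k).map (𝒟.D 1)) (beta v b k) := by
  induction k with
  | zero =>
    rw [pow_zero, MatBase.mapD_one]
    exact Cg.zero
  | succ k ih =>
    rw [pow_succ, MatBase.mapD_mul]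
    refine Cg.add (Cg.mul ?_ h.d1) (ih.mul h.q)
    have : (V ^ k).map 𝒟.q = (V.map 𝒟.q) ^ k := by
      have := map_pow (RingHom.mapMatrix (m := Fin 4) 𝒟.q) V k
      simpa only [RingHom.mapMatrix_apply] using this
    rw [this]
    exact h.q.pow k

theorem Good.sum (h : Good 𝒟 c X4 V v a b n) :
    ∑ i ∈ Finset.range 5, trace ((V ^ (8 - i)).map 𝒟.q * V.map (𝒟.D 0) *
      (V ^ i).map (𝒟.D 1) * V.map (𝒟.D 2)) =
    X4 * c (∑ i ∈ Finset.range 5, trace (v ^ (8 - i) * a * beta v b i * n)) := by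
  rw [map_sum, Finset.mul_sum]
  refine Finset.sum_congr rfl fun i _ => ?_
  rw [h.d2]
  apply Cg.trace_mul
  refine Cg.mul (Cg.mul ?_ h.d0) (h.d1_pow i)
  have : (V ^ (8 - i)).map 𝒟.q = (V.map 𝒟.q) ^ (8 - i) := by
    have := map_pow (RingHom.mapMatrix (m := Fin 4) 𝒟.q) V (8 - i)
    simpa only [RingHom.mapMatrix_apply] using this
  rw [this]
  exact h.q.pow _

end Good

/-! ### numerical evaluation over `ZMod 5` -/

section Num

def v2 : M4 := !![4, 3, 0, 0; 2, 3, 0, 0; 0, 0, 4, 3; 0, 0, 2, 3]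
def a2 : M4 := !![0, 0, 0, 0; 0, 0, 0, 0; 1, 2, 0, 0; 0, 1, 0, 0]
def b2 : M4 := !![0, 4, 0, 0; 1, 4, 0, 0; 0, 0, 0, 1; 0, 0, 4, 1]
def n2 : M4 := !![0, 0, 1, 4; 0, 0, 3, 3; 0, 0, 0, 0; 0, 0, 0, 0]

theorem v2_pow2 : v2 ^ 2 = !![2, 1, 0, 0; 4, 0, 0, 0; 0, 0, 2, 1; 0, 0, 4, 0] := by
  rw [pow_two]; decide
theorem v2_pow3 : v2 ^ 3 = !![0, 4, 0, 0; 1, 2, 0, 0; 0, 0, 0, 4; 0, 0, 1, 2] := by
  rw [pow_succ, v2_pow2]; decide
theorem v2_pow4 : v2 ^ 4 = !![3, 2, 0, 0; 3, 4, 0, 0; 0, 0, 3, 2; 0, 0, 3, 4] := by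
  rw [pow_succ, v2_pow3]; decide
theorem v2_pow5 : v2 ^ 5 = 1 := by
  rw [pow_succ, v2_pow4]; decide

theorem beta2_1 : beta v2 b2 1 = b2 := by
  simp [beta]
theorem beta2_2 : beta v2 b2 2 = !![1, 0, 0, 0; 0, 0, 0, 0; 0, 0, 4, 0; 0, 0, 0, 0] := by
  rw [beta, beta2_1, pow_one]; decide
theorem beta2_3 : beta v2 b2 3 = !![0, 0, 0, 0; 0, 1, 0, 0; 0, 0, 0, 0; 0, 0, 0, 4] := by
  rw [beta, beta2_2, v2_pow2]; decide
theorem beta2_4 : beta v2 b2 4 = !![4, 1, 0, 0; 4, 0, 0, 0; 0, 0, 1, 4; 0, 0, 1, 0] := by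
  rw [beta, beta2_3, v2_pow3]; decide

theorem num2 : ∑ i ∈ Finset.range 5, trace (v2 ^ (8 - i) * a2 * beta v2 b2 i * n2) = 1 := by
  have h8 : v2 ^ 8 = v2 ^ 3 := by rw [show 8 = 5 + 3 from rfl, pow_add, v2_pow5, one_mul]
  have h7 : v2 ^ 7 = v2 ^ 2 := by rw [show 7 = 5 + 2 from rfl, pow_add, v2_pow5, one_mul]
  have h6 : v2 ^ 6 = v2 := by rw [show 6 = 5 + 1 from rfl, pow_add, v2_pow5, one_mul, pow_one]
  simp only [Finset.sum_range_succ, Finset.sum_range_zero, Nat.sub_zero, zero_add]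
  have e0 : beta v2 b2 0 = 0 := rfl
  rw [h8, e0, show 8 - 1 = 7 from rfl, show 8 - 2 = 6 from rfl, show 8 - 3 = 5 from rfl, show 8 - 4 = 4 from rfl, h7, h6, v2_pow5, v2_pow2, v2_pow3, v2_pow4, beta2_1, beta2_2, beta2_3, beta2_4]
  have t1 : trace (!![2, 1, 0, 0; 4, 0, 0, 0; 0, 0, 2, 1; 0, 0, 4, 0] * a2 * b2 * n2) = 0 := by decide
  have t2 : trace (v2 * a2 * !![1, 0, 0, 0; 0, 0, 0, 0; 0, 0, 4, 0; 0, 0, 0, 0] * n2) = 2 := by decide
  have t3 : trace (1 * a2 * !![0, 0, 0, 0; 0, 1, 0, 0; 0, 0, 0, 0; 0, 0, 0, 4] * n2) = 4 := by decide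
  have t4 : trace (!![3, 2, 0, 0; 3, 4, 0, 0; 0, 0, 3, 2; 0, 0, 3, 4] * a2 * !![4, 1, 0, 0; 4, 0, 0, 0; 0, 0, 1, 4; 0, 0, 1, 0] * n2) = 0 := by decide
  rw [t1, t2, t3, t4, Matrix.mul_zero, Matrix.zero_mul, Matrix.trace_zero]
  decide

def v3 : M4 := !![3, 2, 0, 0; 3, 4, 0, 0; 0, 0, 3, 2; 0, 0, 3, 4]
def a3 : M4 := !![0, 0, 0, 0; 0, 0, 0, 0; 2, 2, 0, 0; 1, 4, 0, 0]
def b3 : M4 := !![4, 1, 0, 0; 4, 0, 0, 0; 0, 0, 1, 4; 0, 0, 1, 0]
def n3 : M4 := !![0, 0, 4, 0; 0, 0, 3, 4; 0, 0, 0, 0; 0, 0, 0, 0]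

theorem v3_pow2 : v3 ^ 2 = !![0, 4, 0, 0; 1, 2, 0, 0; 0, 0, 0, 4; 0, 0, 1, 2] := by
  rw [pow_two]; decide
theorem v3_pow3 : v3 ^ 3 = !![2, 1, 0, 0; 4, 0, 0, 0; 0, 0, 2, 1; 0, 0, 4, 0] := by
  rw [pow_succ, v3_pow2]; decide
theorem v3_pow4 : v3 ^ 4 = !![4, 3, 0, 0; 2, 3, 0, 0; 0, 0, 4, 3; 0, 0, 2, 3] := by
  rw [pow_succ, v3_pow3]; decide
theorem v3_pow5 : v3 ^ 5 = 1 := by
  rw [pow_succ, v3_pow4]; decide

theorem beta3_1 : beta v3 b3 1 = b3 := by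
  simp [beta]
theorem beta3_2 : beta v3 b3 2 = !![0, 0, 0, 0; 0, 1, 0, 0; 0, 0, 0, 0; 0, 0, 0, 4] := by
  rw [beta, beta3_1, pow_one]; decide
theorem beta3_3 : beta v3 b3 3 = !![1, 0, 0, 0; 0, 0, 0, 0; 0, 0, 4, 0; 0, 0, 0, 0] := by
  rw [beta, beta3_2, v3_pow2]; decide
theorem beta3_4 : beta v3 b3 4 = !![0, 4, 0, 0; 1, 4, 0, 0; 0, 0, 0, 1; 0, 0, 4, 1] := by
  rw [beta, beta3_3, v3_pow3]; decide

theorem num3 : ∑ i ∈ Finset.range 5, trace (v3 ^ (8 - i) * a3 * beta v3 b3 i * n3) = 1 := by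
  have h8 : v3 ^ 8 = v3 ^ 3 := by rw [show 8 = 5 + 3 from rfl, pow_add, v3_pow5, one_mul]
  have h7 : v3 ^ 7 = v3 ^ 2 := by rw [show 7 = 5 + 2 from rfl, pow_add, v3_pow5, one_mul]
  have h6 : v3 ^ 6 = v3 := by rw [show 6 = 5 + 1 from rfl, pow_add, v3_pow5, one_mul, pow_one]
  simp only [Finset.sum_range_succ, Finset.sum_range_zero, Nat.sub_zero, zero_add]
  have e0 : beta v3 b3 0 = 0 := rfl
  rw [h8, e0, show 8 - 1 = 7 from rfl, show 8 - 2 = 6 from rfl, show 8 - 3 = 5 from rfl, show 8 - 4 = 4 from rfl, h7, h6, v3_pow5, v3_pow2, v3_pow3, v3_pow4, beta3_1, beta3_2, beta3_3, beta3_4]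
  have t1 : trace (!![0, 4, 0, 0; 1, 2, 0, 0; 0, 0, 0, 4; 0, 0, 1, 2] * a3 * b3 * n3) = 3 := by decide
  have t2 : trace (v3 * a3 * !![0, 0, 0, 0; 0, 1, 0, 0; 0, 0, 0, 0; 0, 0, 0, 4] * n3) = 0 := by decide
  have t3 : trace (1 * a3 * !![1, 0, 0, 0; 0, 0, 0, 0; 0, 0, 4, 0; 0, 0, 0, 0] * n3) = 3 := by decide
  have t4 : trace (!![4, 3, 0, 0; 2, 3, 0, 0; 0, 0, 4, 3; 0, 0, 2, 3] * a3 * !![0, 4, 0, 0; 1, 4, 0, 0; 0, 0, 0, 1; 0, 0, 4, 1] * n3) = 0 := by decide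
  rw [t1, t2, t3, t4, Matrix.mul_zero, Matrix.zero_mul, Matrix.trace_zero]
  decide


end Num

section Final

variable {A Q : Type*} [CommRing A] [CommRing Q] (𝒟 : DerData A Q)
    (x z t : A) (h5 : (5 : Q) = 0) (hz : 𝒟.q z = 3) (hx : 𝒟.q x ^ 5 = 0)
    (d0x : 𝒟.D 0 x = 1) (d0z : 𝒟.D 0 z = 0) (d0t : 𝒟.D 0 t = 0)
    (d1x : 𝒟.D 1 x = 0) (d1z : 𝒟.D 1 z = 1) (d1t : 𝒟.D 1 t = 0)
    (d2x : 𝒟.D 2 x = 0) (d2z : 𝒟.D 2 z = 0) (d2t : 𝒟.D 2 t = 1)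
    (c : ZMod 5 →+* Q)

include h5 hz hx d0x d0z d0t d1x d1z d1t d2x d2z d2t in
theorem good_g1 : Good 𝒟 c (𝒟.q x ^ 4) (MatBase.g1 x z t)
    !![0, -1, 0, 0; 1, 2, 0, 0; 0, 0, 0, -1; 0, 0, 1, -3]
    !![0, 0, 0, 0; 0, 0, 0, 0; 0, 1, 0, 0; 0, 0, 0, 0]
    !![0, 0, 0, 0; 0, 1, 0, 0; 0, 0, 0, 0; 0, 0, 0, -1]
    !![0, 0, 0, 1; 0, 0, 0, -2; 0, 0, 0, 0; 0, 0, 0, 0] where
  q := by
    have hc2 : c 2 = 2 := map_ofNat c 2
    have hc3 : c 3 = 3 := map_ofNat c 3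
    unfold Cg
    ext i j
    fin_cases i <;> fin_cases j <;> simp [MatBase.g1, hz, hc2, hc3]
    · linear_combination (𝒟.q t * 𝒟.q x ^ 3) * hx
    · ring
    · linear_combination ((1 - 3) * 𝒟.q t * 𝒟.q x ^ 3) * hx
    · linear_combination hx
    · linear_combination (-(𝒟.q t * 𝒟.q x ^ 4)) * hx
  d0 := by
    unfold Cg
    ext i j
    fin_cases i <;> fin_cases j <;>
      simp [MatBase.g1, hz, MatBase.D_neg, MatBase.D_sub, MatBase.D_zero, MatBase.D_one,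
        MatBase.D_pow, 𝒟.add, 𝒟.leib, d0x, d0z, d0t]
    · linear_combination (4 * 𝒟.q t * 𝒟.q x ^ 2) * hx
    · linear_combination ((1 - 3) * 𝒟.q t * 4 * 𝒟.q x ^ 2) * hx
    · linear_combination (5 * 𝒟.q t * 𝒟.q x ^ 3) * hx
  d1 := by
    unfold Cg
    ext i j
    fin_cases i <;> fin_cases j <;>
      simp [MatBase.g1, hz, MatBase.D_neg, MatBase.D_sub, MatBase.D_zero, MatBase.D_one,
        MatBase.D_pow, 𝒟.add, 𝒟.leib, d1x, d1z, d1t]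
    · linear_combination (𝒟.q t * 𝒟.q x ^ 3) * hx
  d2 := by
    have hc2 : c 2 = 2 := map_ofNat c 2
    ext i j
    fin_cases i <;> fin_cases j <;>
      simp [MatBase.g1, hz, MatBase.D_neg, MatBase.D_sub, MatBase.D_zero, MatBase.D_one,
        MatBase.D_pow, 𝒟.add, 𝒟.leib, d2x, d2z, d2t, hc2]
    · ring
    · exact hx

include h5 hz hx d0x d0z d0t d1x d1z d1t d2x d2z d2t in
theorem good_g1_sq : Good 𝒟 c (𝒟.q x ^ 4) (MatBase.g1 x z t * MatBase.g1 x z t) v2 a2 b2 n2 := by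
  have h := good_g1 𝒟 x z t h5 hz hx d0x d0z d0t d1x d1z d1t d2x d2z d2t c
  have h2 := h.mul h
  convert h2 using 1 <;> decide

include h5 hz hx d0x d0z d0t d1x d1z d1t d2x d2z d2t in
theorem good_g1_cube : Good 𝒟 c (𝒟.q x ^ 4)
    (MatBase.g1 x z t * MatBase.g1 x z t * MatBase.g1 x z t) v3 a3 b3 n3 := by
  have h := good_g1 𝒟 x z t h5 hz hx d0x d0z d0t d1x d1z d1t d2x d2z d2t c
  have h2 := (good_g1_sq 𝒟 x z t h5 hz hx d0x d0z d0t d1x d1z d1t d2x d2z d2t c).mul h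
  convert h2 using 1 <;> decide

end Final

theorem fromBlocks_pow {A : Type*} [CommRing A] {n m : Type*} [Fintype n] [Fintype m]
    [DecidableEq n] [DecidableEq m] (M : Matrix n n A) (N : Matrix m m A) (k : ℕ) :
    (fromBlocks M 0 0 N) ^ k = fromBlocks (M ^ k) 0 0 (N ^ k) := by
  induction k with
  | zero => simp
  | succ k ih =>
    rw [pow_succ, ih, pow_succ, pow_succ, fromBlocks_multiply]
    simp

end Crest.Agent.R171.TS

namespace Crest.Agent.R171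

open TS in
/-- The value of the Dennis trace cocycle on the order five class. -/
theorem trace_sum {A Q : Type*} [CommRing A] [IsDomain A] [CommRing Q] (𝒟 : DerData A Q)
    (x z t : A) (hx0 : x ≠ 0)
    (hE : z ^ 2 - z - 1 = t * x ^ 5) (h5 : (5 : Q) = 0) (hz : 𝒟.q z = 3) (hx : 𝒟.q x ^ 5 = 0)
    (hx4 : 𝒟.q x ^ 4 ≠ 0)
    (d0x : 𝒟.D 0 x = 1) (d0z : 𝒟.D 0 z = 0) (d0t : 𝒟.D 0 t = 0)
    (d1x : 𝒟.D 1 x = 0) (d1z : 𝒟.D 1 z = 1) (d1t : 𝒟.D 1 t = 0)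
    (d2x : 𝒟.D 2 x = 0) (d2z : 𝒟.D 2 z = 0) (d2t : 𝒟.D 2 t = 1)
    (U : Matrix (Fin 4 ⊕ Fin 4) (Fin 4 ⊕ Fin 4) A)
    (hU : U = fromBlocks (MatBase.g1 x z t * MatBase.g1 x z t) 0 0
      (MatBase.g1 x z t ^ 4 * MatBase.g1 x z t ^ 4)) :
    ∑ i ∈ Finset.range 5, trace ((U ^ (8 - i)).map 𝒟.q * U.map (𝒟.D 0) * (U ^ i).map (𝒟.D 1) *
      U.map (𝒟.D 2)) = 2 * 𝒟.q x ^ 4 := by
  have hnt : Nontrivial Q := ⟨_, _, hx4⟩
  have hchar : CharP Q 5 := by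
    rw [CharP.charP_iff_prime_eq_zero (by norm_num : Nat.Prime 5)]
    exact_mod_cast h5
  let c : ZMod 5 →+* Q := ZMod.castHom (dvd_refl 5) Q
  set g := MatBase.g1 x z t with hg
  have hg5 : g ^ 5 = 1 := MatBase.g1_pow_five x z t hx0 hE
  have hg3 : g ^ 4 * g ^ 4 = g * g * g := by
    have : g ^ 4 * g ^ 4 = g ^ 5 * (g * g * g) := by
      simp only [pow_succ, pow_zero, one_mul, mul_assoc]
    rw [this, hg5, one_mul]
  rw [hg3] at hU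
  have G2 := good_g1_sq 𝒟 x z t h5 hz hx d0x d0z d0t d1x d1z d1t d2x d2z d2t c
  have G3 := good_g1_cube 𝒟 x z t h5 hz hx d0x d0z d0t d1x d1z d1t d2x d2z d2t c
  have s2 := G2.sum
  have s3 := G3.sum
  rw [num2, map_one, mul_one] at s2
  rw [num3, map_one, mul_one] at s3
  rw [← hg] at s2 s3
  have hz' : ∀ k, (0 : Matrix (Fin 4) (Fin 4) A).map (𝒟.D k) = 0 := by
    intro k
    ext i j
    simp [MatBase.D_zero]
  have hzq : (0 : Matrix (Fin 4) (Fin 4) A).map 𝒟.q = 0 := by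
    ext i j
    simp
  have key : ∀ i ∈ Finset.range 5, trace ((U ^ (8 - i)).map 𝒟.q * U.map (𝒟.D 0) *
      (U ^ i).map (𝒟.D 1) * U.map (𝒟.D 2)) =
      trace (((g * g) ^ (8 - i)).map 𝒟.q * (g * g).map (𝒟.D 0) *
        ((g * g) ^ i).map (𝒟.D 1) * (g * g).map (𝒟.D 2)) +
      trace (((g * g * g) ^ (8 - i)).map 𝒟.q * (g * g * g).map (𝒟.D 0) *
        ((g * g * g) ^ i).map (𝒟.D 1) * (g * g * g).map (𝒟.D 2)) := by
    intro i _
    rw [hU, fromBlocks_pow, fromBlocks_pow, fromBlocks_map, fromBlocks_map, fromBlocks_map,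
      fromBlocks_map, hz', hz', hz', hzq, fromBlocks_multiply, fromBlocks_multiply,
      fromBlocks_multiply]
    simp only [Matrix.mul_zero, Matrix.zero_mul, add_zero, zero_add, Matrix.trace, Matrix.diag_apply,
      Fintype.sum_sum_type, fromBlocks_apply₁₁, fromBlocks_apply₂₂]
  rw [Finset.sum_congr rfl key, Finset.sum_add_distrib, s2, s3]
  ring

end Crest.Agent.R171
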