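import Crest.Agent.R171.Ring5
import Crest.Agent.R171.Homology5
import Crest.Agent.R171.Central
import Crest.Agent.R171.Dennis5
import Crest.Agent.R171.StElem
import Crest.Agent.R171.MatBase
import Crest.Agent.R171.TraceSum

set_option autoImplicit false

open Crest.AlgebraR.Steinberg Matrix

namespace Crest.Agent.R171

/-- derivations kill integer matrices -/
theorem map_D_intCast {A Q : Type*} [CommRing A] [CommRing Q] (𝒟 : DerData A Q) (k : Fin 3)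
    {ι : Type*} [Fintype ι] [DecidableEq ι] (U : Matrix ι ι ℤ) :
    (U.map (Int.castRingHom A)).map (𝒟.D k) = 0 := by
  have hint : ∀ n : ℤ, 𝒟.D k (n : A) = 0 := by
    intro n
    have h := (AddMonoidHom.mk' (𝒟.D k) (𝒟.add k)).map_zsmul n (1 : A)
    have h1 : 𝒟.D k (1 : A) = 0 := MatBase.D_one 𝒟 k
    simp only [AddMonoidHom.mk'_apply, h1, smul_zero, zsmul_eq_mul, mul_one] at h
    exact h
  ext i j
  simp [hint]

/-- The integer version of `g0 A`. -/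
theorem g0_map_int (A : Type*) [CommRing A] :
    (MatBase.g0 ℤ).map (Int.castRingHom A) = MatBase.g0 A := by
  ext i j
  fin_cases i <;> fin_cases j <;> simp [MatBase.g0]

theorem main {A : Type} [CommRing A] [IsDomain A] {Q : Type} [CommRing Q] (𝒟 : DerData A Q)
    (x z t : A) (hx0 : x ≠ 0)
    (hE : z ^ 2 - z - 1 = t * x ^ 5) (h5 : (5 : Q) = 0) (hz : 𝒟.q z = 3) (hx : 𝒟.q x ^ 5 = 0)
    (hx4 : 𝒟.q x ^ 4 ≠ 0)
    (d0x : 𝒟.D 0 x = 1) (d0z : 𝒟.D 0 z = 0) (d0t : 𝒟.D 0 t = 0)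
    (d1x : 𝒟.D 1 x = 0) (d1z : 𝒟.D 1 z = 1) (d1t : 𝒟.D 1 t = 0)
    (d2x : 𝒟.D 2 x = 0) (d2z : 𝒟.D 2 z = 0) (d2t : 𝒟.D 2 t = 1) :
    ¬ Function.Injective (H3map (algebraMap A (FractionRing A))).hom := by
  set F := FractionRing A
  set φ : A →+* F := algebraMap A F
  set g0 := MatBase.g0 A with hg0
  set g1 := MatBase.g1 x z t with hg1
  have h05 : g0 ^ 5 = 1 := MatBase.g0_pow_five
  have h15 : g1 ^ 5 = 1 := MatBase.g1_pow_five x z t hx0 hE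
  let e : (Fin 4 ⊕ Fin 4) ⊕ (Fin 4 ⊕ Fin 4) → ℕ :=
    fun a => ((Fintype.equivFin ((Fin 4 ⊕ Fin 4) ⊕ (Fin 4 ⊕ Fin 4)) a : Fin _) : ℕ)
  have he : Function.Injective e := Fin.val_injective.comp (Equiv.injective _)
  -- the change of basis over `F`
  set B : Matrix (Fin 4) (Fin 4) F := (MatBase.bm x z).map φ with hB
  have hdet : IsUnit B.det := by
    have h1 : B.det = φ (x ^ 2) := by
      rw [← MatBase.det_bm x z, hB, RingHom.map_det, RingHom.mapMatrix_apply]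
    rw [h1, isUnit_iff_ne_zero, Ne, map_eq_zero_iff φ (IsFractionRing.injective A F)]
    exact pow_ne_zero 2 hx0
  have hconj : B⁻¹ * g0.map φ = g1.map φ * B⁻¹ := by
    have h1 : g0.map φ * B = B * g1.map φ := by
      rw [hB, ← Matrix.map_mul, ← Matrix.map_mul, MatBase.g0_mul_bm x z t hE]
    calc B⁻¹ * g0.map φ = B⁻¹ * g0.map φ * (B * B⁻¹) := by rw [mul_nonsing_inv _ hdet, mul_one]
      _ = B⁻¹ * (g0.map φ * B) * B⁻¹ := by simp only [Matrix.mul_assoc]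
      _ = B⁻¹ * (B * g1.map φ) * B⁻¹ := by rw [h1]
      _ = (B⁻¹ * B) * g1.map φ * B⁻¹ := by simp only [Matrix.mul_assoc]
      _ = g1.map φ * B⁻¹ := by rw [nonsing_inv_mul _ hdet, one_mul]
  obtain ⟨u0, u1, hu0, hu1, hr0, hr1, s, hs⟩ := exists_elements φ rho_ker_central
    rho_ker_central e he g0 (g0 ^ 4) g1 (g1 ^ 4)
    (by rw [← pow_succ', h05]) (by rw [← pow_succ, h05])
    (by rw [← pow_succ', h15]) (by rw [← pow_succ, h15]) h05 h15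
    B⁻¹ B (nonsing_inv_mul _ hdet) (mul_nonsing_inv _ hdet) hconj
  obtain ⟨f, hf⟩ := D5.exists_dennis_rho 𝒟 ![0, 1, 2]
  have he1 : Function.Injective (e ∘ Sum.inl) := he.comp Sum.inl_injective
  -- powers
  have hpow : ∀ (u : St A) (U : Matrix (Fin 4 ⊕ Fin 4) (Fin 4 ⊕ Fin 4) A),
      rho u = emb (e ∘ Sum.inl) U → ∀ n : ℕ, rho (u ^ n) = emb (e ∘ Sum.inl) (U ^ n) := by
    intro u U hu n
    induction n with
    | zero => rw [pow_zero, pow_zero, map_one, emb_one]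
    | succ n ih => rw [pow_succ, pow_succ, map_mul, ih, hu, emb_mul _ he1]
  have hval : ∀ (u : St A) (U : Matrix (Fin 4 ⊕ Fin 4) (Fin 4 ⊕ Fin 4) A),
      u ^ 5 = 1 → rho u = emb (e ∘ Sum.inl) U →
      (∀ i < 5, U ^ (8 - i) * (U * U ^ i * U) = 1) ∧
      ∑ i ∈ Finset.range 5, f.f u (u ^ i) u =
        ∑ i ∈ Finset.range 5, trace ((U ^ (8 - i)).map 𝒟.q * U.map (𝒟.D 0) *
          (U ^ i).map (𝒟.D 1) * U.map (𝒟.D 2)) := by
    intro u U hu5 hu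
    have hU5 : U ^ 5 = 1 := by
      apply emb_injective (e ∘ Sum.inl) he1
      rw [← hpow u U hu, hu5, map_one, emb_one]
    have hinv : ∀ i < 5, U ^ (8 - i) * (U * U ^ i * U) = 1 := by
      intro i hi
      have h1 : U ^ (8 - i) * (U * U ^ i * U) = U ^ ((8 - i) + (1 + i + 1)) := by
        simp only [pow_add, pow_one]
      have h2 : (8 - i) + (1 + i + 1) = 5 * 2 := by omega
      rw [h1, h2, pow_mul, hU5, one_pow]
    refine ⟨hinv, Finset.sum_congr rfl fun i hi => ?_⟩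
    have := hf (Fin 4 ⊕ Fin 4) (e ∘ Sum.inl) he1 u (u ^ i) u U (U ^ i) U (U ^ (8 - i)) hu
      (hpow u U hu i) hu (hinv i (Finset.mem_range.mp hi))
    rw [this]
    rfl
  refine not_injective_of_conj φ u0 u1 hu0 hu1 s hs f ?_
  obtain ⟨hi0, hv0⟩ := hval u0 _ hu0 hr0
  obtain ⟨hi1, hv1⟩ := hval u1 _ hu1 hr1
  rw [hv0, hv1, trace_sum 𝒟 x z t hx0 hE h5 hz hx hx4 d0x d0z d0t d1x d1z d1t d2x d2z d2t _ rfl]
  have hzero : (fromBlocks (g0 * g0) 0 0 (g0 ^ 4 * g0 ^ 4) :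
      Matrix (Fin 4 ⊕ Fin 4) (Fin 4 ⊕ Fin 4) A).map (𝒟.D 0) = 0 := by
    have h1 : (fromBlocks (g0 * g0) 0 0 (g0 ^ 4 * g0 ^ 4) :
      Matrix (Fin 4 ⊕ Fin 4) (Fin 4 ⊕ Fin 4) A) =
      (fromBlocks (MatBase.g0 ℤ * MatBase.g0 ℤ) 0 0 (MatBase.g0 ℤ ^ 4 * MatBase.g0 ℤ ^ 4) :
      Matrix (Fin 4 ⊕ Fin 4) (Fin 4 ⊕ Fin 4) ℤ).map (Int.castRingHom A) := by
      rw [fromBlocks_map, hg0, ← g0_map_int A]
      simp only [← RingHom.mapMatrix_apply, map_mul, map_pow, map_zero]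
    rw [h1, map_D_intCast]
  have hz0 : ∑ i ∈ Finset.range 5, trace
      (((fromBlocks (g0 * g0) 0 0 (g0 ^ 4 * g0 ^ 4) :
        Matrix (Fin 4 ⊕ Fin 4) (Fin 4 ⊕ Fin 4) A) ^ (8 - i)).map 𝒟.q *
        (fromBlocks (g0 * g0) 0 0 (g0 ^ 4 * g0 ^ 4) :
          Matrix (Fin 4 ⊕ Fin 4) (Fin 4 ⊕ Fin 4) A).map (𝒟.D 0) *
        ((fromBlocks (g0 * g0) 0 0 (g0 ^ 4 * g0 ^ 4) :
          Matrix (Fin 4 ⊕ Fin 4) (Fin 4 ⊕ Fin 4) A) ^ i).map (𝒟.D 1) *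
        (fromBlocks (g0 * g0) 0 0 (g0 ^ 4 * g0 ^ 4) :
          Matrix (Fin 4 ⊕ Fin 4) (Fin 4 ⊕ Fin 4) A).map (𝒟.D 2)) = 0 := by
    refine Finset.sum_eq_zero fun i _ => ?_
    rw [hzero, Matrix.mul_zero, Matrix.zero_mul, Matrix.zero_mul, Matrix.trace_zero]
  rw [hz0]
  -- `2 x⁴ ≠ 0` in `Q`
  intro h
  apply hx4
  have h6 : 𝒟.q x ^ 4 = 3 * (2 * 𝒟.q x ^ 4) - 5 * 𝒟.q x ^ 4 := by ring
  rw [h6, h, h5]
  ring

end Crest.Agent.R171
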