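import Crest.Agent.R171.Defs

/-!
T2: Steinberg families lift along central extensions (Milnor, Theorem 5.10), at least five indices.
-/

set_option autoImplicit false

namespace Crest.Agent.R171

/-- Let `π : Y → Γ` be surjective with central kernel. Every Steinberg family in `Γ` on an index
type such that any four indices are missed by a fifth one lifts to a Steinberg family in `Y`.
Proof: for `i ≠ j` and `h ≠ i,j` put `s_ij(a) = ⁅y, y'⁆` with `π y = x_ih(1)`, `π y' = x_hj(a)`. -/
theorem StFam.exists_lift {I : Type*} {R : Type*} [CommRing R] {Γ : Type*} [Group Γ]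
    {Y : Type*} [Group Y] (hI : ∀ i j k l : I, ∃ h, h ≠ i ∧ h ≠ j ∧ h ≠ k ∧ h ≠ l)
    (π : Y →* Γ) (hπ : Function.Surjective π)
    (hc : ∀ z y : Y, π z = 1 → z * y = y * z) (X : StFam I R Γ) :
    ∃ X' : StFam I R Y, ∀ i j a, i ≠ j → π (X'.x i j a) = X.x i j a := by
  sorry

/-- In a central extension, families lifting two commuting families commute. -/
theorem StFam.commute_lift {I J : Type*} {R : Type*} [CommRing R] {Γ : Type*} [Group Γ]
    {Y : Type*} [Group Y] (hI : ∀ i j k l : I, ∃ h, h ≠ i ∧ h ≠ j ∧ h ≠ k ∧ h ≠ l)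
    (π : Y →* Γ) (hc : ∀ z y : Y, π z = 1 → z * y = y * z)
    (X₁ : StFam I R Y) (X₂ : StFam J R Y)
    (h : ∀ i j a k l b, i ≠ j → k ≠ l →
      π (X₁.x i j a) * π (X₂.x k l b) = π (X₂.x k l b) * π (X₁.x i j a)) :
    ∀ i j a k l b, i ≠ j → k ≠ l → X₁.x i j a * X₂.x k l b = X₂.x k l b * X₁.x i j a := by
  sorry

end Crest.Agent.R171
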