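import Mathlib
import Crest.Agent.R171.Defs
import Crest.Agent.R171.MatBase

/-!
Matrix computations for result 171 (S0259), variant of helper871.

`g1 x z t` is multiplication by `T` on the ideal `(x, T² - (z-1)T + 1)` of `A[T]/Φ₅(T)`,
where `z² - z - 1 = t x⁵`; `g0` is the companion matrix of `Φ₅`.
-/

set_option autoImplicit false
set_option linter.unusedSimpArgs false
set_option linter.unusedTactic false
set_option linter.unreachableTactic false
set_option linter.unusedVariables false

namespace Crest.Agent.R171.MatComp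

open Matrix

section General

variable {A : Type*} [CommRing A]

/-- companion matrix of the fifth cyclotomic polynomial -/
def g0 (A : Type*) [CommRing A] : Matrix (Fin 4) (Fin 4) A :=
  !![0, 0, 0, -1; 1, 0, 0, -1; 0, 1, 0, -1; 0, 0, 1, -1]

/-- the second lattice -/
def g1 (x z t : A) : Matrix (Fin 4) (Fin 4) A :=
  !![0, -1, 0, x ^ 4 * t; 1, z - 1, 0, -((z - 1) * (x ^ 4 * t)); 0, x, 0, -(1 + x ^ 5 * t); 0, 0, 1, -z]

/-- the change of lattice -/
def theta (x z : A) : Matrix (Fin 4) (Fin 4) A :=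
  !![x, 0, 1, 0; 0, x, 1 - z, 1; 0, 0, 1, 1 - z; 0, 0, 0, 1]

def P2 (x z t : A) : Matrix (Fin 4) (Fin 4) A :=
  !![-1, -z+1, x^4*t, -x^4*t; z-1, x^5*t-z+1, -x^4*t*z+x^4*t, x^4*t*z; x, x*z-x, -x^5*t-1, x^5*t+z; 0, x, -z, z]

def P3 (x z t : A) : Matrix (Fin 4) (Fin 4) A :=
  !![-z+1, z-1, -x^4*t, 0; x^5*t-z+1, -x^5*t-1, x^4*t*z, -x^4*t; x*z-x, -x*z, x^5*t+z, -z; x, -x, z, -1]

def P4 (x z t : A) : Matrix (Fin 4) (Fin 4) A :=
  !![z-1, 1, 0, 0; -x^5*t-1, 0, -x^4*t, 0; -x*z, 0, -z, 1; -x, 0, -1, 0]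

theorem P2_eq (x z t : A) (h : z ^ 2 - z - 1 = x ^ 5 * t) :
    g1 x z t * g1 x z t = P2 x z t := by
  ext i j
  fin_cases i <;> fin_cases j
  · simp only [P2, g1, Matrix.mul_apply, Matrix.map_apply, Fin.sum_univ_four, Matrix.of_apply, Matrix.cons_val', Matrix.cons_val, Matrix.cons_val_fin_one, Fin.mk_zero, Fin.mk_one, Fin.zero_eta, Fin.reduceFinMk, Fin.isValue]
    try linear_combination (0) * h
  · simp only [P2, g1, Matrix.mul_apply, Matrix.map_apply, Fin.sum_univ_four, Matrix.of_apply, Matrix.cons_val', Matrix.cons_val, Matrix.cons_val_fin_one, Fin.mk_zero, Fin.mk_one, Fin.zero_eta, Fin.reduceFinMk, Fin.isValue]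
    try linear_combination (0) * h
  · simp only [P2, g1, Matrix.mul_apply, Matrix.map_apply, Fin.sum_univ_four, Matrix.of_apply, Matrix.cons_val', Matrix.cons_val, Matrix.cons_val_fin_one, Fin.mk_zero, Fin.mk_one, Fin.zero_eta, Fin.reduceFinMk, Fin.isValue]
    try linear_combination (0) * h
  · simp only [P2, g1, Matrix.mul_apply, Matrix.map_apply, Fin.sum_univ_four, Matrix.of_apply, Matrix.cons_val', Matrix.cons_val, Matrix.cons_val_fin_one, Fin.mk_zero, Fin.mk_one, Fin.zero_eta, Fin.reduceFinMk, Fin.isValue]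
    try linear_combination (0) * h
  · simp only [P2, g1, Matrix.mul_apply, Matrix.map_apply, Fin.sum_univ_four, Matrix.of_apply, Matrix.cons_val', Matrix.cons_val, Matrix.cons_val_fin_one, Fin.mk_zero, Fin.mk_one, Fin.zero_eta, Fin.reduceFinMk, Fin.isValue]
    try linear_combination (0) * h
  · simp only [P2, g1, Matrix.mul_apply, Matrix.map_apply, Fin.sum_univ_four, Matrix.of_apply, Matrix.cons_val', Matrix.cons_val, Matrix.cons_val_fin_one, Fin.mk_zero, Fin.mk_one, Fin.zero_eta, Fin.reduceFinMk, Fin.isValue]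
    try linear_combination (1) * h
  · simp only [P2, g1, Matrix.mul_apply, Matrix.map_apply, Fin.sum_univ_four, Matrix.of_apply, Matrix.cons_val', Matrix.cons_val, Matrix.cons_val_fin_one, Fin.mk_zero, Fin.mk_one, Fin.zero_eta, Fin.reduceFinMk, Fin.isValue]
    try linear_combination (0) * h
  · simp only [P2, g1, Matrix.mul_apply, Matrix.map_apply, Fin.sum_univ_four, Matrix.of_apply, Matrix.cons_val', Matrix.cons_val, Matrix.cons_val_fin_one, Fin.mk_zero, Fin.mk_one, Fin.zero_eta, Fin.reduceFinMk, Fin.isValue]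
    try linear_combination (0) * h
  · simp only [P2, g1, Matrix.mul_apply, Matrix.map_apply, Fin.sum_univ_four, Matrix.of_apply, Matrix.cons_val', Matrix.cons_val, Matrix.cons_val_fin_one, Fin.mk_zero, Fin.mk_one, Fin.zero_eta, Fin.reduceFinMk, Fin.isValue]
    try linear_combination (0) * h
  · simp only [P2, g1, Matrix.mul_apply, Matrix.map_apply, Fin.sum_univ_four, Matrix.of_apply, Matrix.cons_val', Matrix.cons_val, Matrix.cons_val_fin_one, Fin.mk_zero, Fin.mk_one, Fin.zero_eta, Fin.reduceFinMk, Fin.isValue]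
    try linear_combination (0) * h
  · simp only [P2, g1, Matrix.mul_apply, Matrix.map_apply, Fin.sum_univ_four, Matrix.of_apply, Matrix.cons_val', Matrix.cons_val, Matrix.cons_val_fin_one, Fin.mk_zero, Fin.mk_one, Fin.zero_eta, Fin.reduceFinMk, Fin.isValue]
    try linear_combination (0) * h
  · simp only [P2, g1, Matrix.mul_apply, Matrix.map_apply, Fin.sum_univ_four, Matrix.of_apply, Matrix.cons_val', Matrix.cons_val, Matrix.cons_val_fin_one, Fin.mk_zero, Fin.mk_one, Fin.zero_eta, Fin.reduceFinMk, Fin.isValue]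
    try linear_combination (0) * h
  · simp only [P2, g1, Matrix.mul_apply, Matrix.map_apply, Fin.sum_univ_four, Matrix.of_apply, Matrix.cons_val', Matrix.cons_val, Matrix.cons_val_fin_one, Fin.mk_zero, Fin.mk_one, Fin.zero_eta, Fin.reduceFinMk, Fin.isValue]
    try linear_combination (0) * h
  · simp only [P2, g1, Matrix.mul_apply, Matrix.map_apply, Fin.sum_univ_four, Matrix.of_apply, Matrix.cons_val', Matrix.cons_val, Matrix.cons_val_fin_one, Fin.mk_zero, Fin.mk_one, Fin.zero_eta, Fin.reduceFinMk, Fin.isValue]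
    try linear_combination (0) * h
  · simp only [P2, g1, Matrix.mul_apply, Matrix.map_apply, Fin.sum_univ_four, Matrix.of_apply, Matrix.cons_val', Matrix.cons_val, Matrix.cons_val_fin_one, Fin.mk_zero, Fin.mk_one, Fin.zero_eta, Fin.reduceFinMk, Fin.isValue]
    try linear_combination (0) * h
  · simp only [P2, g1, Matrix.mul_apply, Matrix.map_apply, Fin.sum_univ_four, Matrix.of_apply, Matrix.cons_val', Matrix.cons_val, Matrix.cons_val_fin_one, Fin.mk_zero, Fin.mk_one, Fin.zero_eta, Fin.reduceFinMk, Fin.isValue]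
    try linear_combination (1) * h

theorem P3_eq (x z t : A) (h : z ^ 2 - z - 1 = x ^ 5 * t) :
    P2 x z t * g1 x z t = P3 x z t := by
  ext i j
  fin_cases i <;> fin_cases j
  · simp only [P2, P3, g1, Matrix.mul_apply, Matrix.map_apply, Fin.sum_univ_four, Matrix.of_apply, Matrix.cons_val', Matrix.cons_val, Matrix.cons_val_fin_one, Fin.mk_zero, Fin.mk_one, Fin.zero_eta, Fin.reduceFinMk, Fin.isValue]
    try linear_combination (0) * h
  · simp only [P2, P3, g1, Matrix.mul_apply, Matrix.map_apply, Fin.sum_univ_four, Matrix.of_apply, Matrix.cons_val', Matrix.cons_val, Matrix.cons_val_fin_one, Fin.mk_zero, Fin.mk_one, Fin.zero_eta, Fin.reduceFinMk, Fin.isValue]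
    try linear_combination (-1) * h
  · simp only [P2, P3, g1, Matrix.mul_apply, Matrix.map_apply, Fin.sum_univ_four, Matrix.of_apply, Matrix.cons_val', Matrix.cons_val, Matrix.cons_val_fin_one, Fin.mk_zero, Fin.mk_one, Fin.zero_eta, Fin.reduceFinMk, Fin.isValue]
    try linear_combination (0) * h
  · simp only [P2, P3, g1, Matrix.mul_apply, Matrix.map_apply, Fin.sum_univ_four, Matrix.of_apply, Matrix.cons_val', Matrix.cons_val, Matrix.cons_val_fin_one, Fin.mk_zero, Fin.mk_one, Fin.zero_eta, Fin.reduceFinMk, Fin.isValue]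
    try linear_combination (x^4*t) * h
  · simp only [P2, P3, g1, Matrix.mul_apply, Matrix.map_apply, Fin.sum_univ_four, Matrix.of_apply, Matrix.cons_val', Matrix.cons_val, Matrix.cons_val_fin_one, Fin.mk_zero, Fin.mk_one, Fin.zero_eta, Fin.reduceFinMk, Fin.isValue]
    try linear_combination (0) * h
  · simp only [P2, P3, g1, Matrix.mul_apply, Matrix.map_apply, Fin.sum_univ_four, Matrix.of_apply, Matrix.cons_val', Matrix.cons_val, Matrix.cons_val_fin_one, Fin.mk_zero, Fin.mk_one, Fin.zero_eta, Fin.reduceFinMk, Fin.isValue]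
    try linear_combination (-1) * h
  · simp only [P2, P3, g1, Matrix.mul_apply, Matrix.map_apply, Fin.sum_univ_four, Matrix.of_apply, Matrix.cons_val', Matrix.cons_val, Matrix.cons_val_fin_one, Fin.mk_zero, Fin.mk_one, Fin.zero_eta, Fin.reduceFinMk, Fin.isValue]
    try linear_combination (0) * h
  · simp only [P2, P3, g1, Matrix.mul_apply, Matrix.map_apply, Fin.sum_univ_four, Matrix.of_apply, Matrix.cons_val', Matrix.cons_val, Matrix.cons_val_fin_one, Fin.mk_zero, Fin.mk_one, Fin.zero_eta, Fin.reduceFinMk, Fin.isValue]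
    try linear_combination (0) * h
  · simp only [P2, P3, g1, Matrix.mul_apply, Matrix.map_apply, Fin.sum_univ_four, Matrix.of_apply, Matrix.cons_val', Matrix.cons_val, Matrix.cons_val_fin_one, Fin.mk_zero, Fin.mk_one, Fin.zero_eta, Fin.reduceFinMk, Fin.isValue]
    try linear_combination (0) * h
  · simp only [P2, P3, g1, Matrix.mul_apply, Matrix.map_apply, Fin.sum_univ_four, Matrix.of_apply, Matrix.cons_val', Matrix.cons_val, Matrix.cons_val_fin_one, Fin.mk_zero, Fin.mk_one, Fin.zero_eta, Fin.reduceFinMk, Fin.isValue]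
    try linear_combination (x) * h
  · simp only [P2, P3, g1, Matrix.mul_apply, Matrix.map_apply, Fin.sum_univ_four, Matrix.of_apply, Matrix.cons_val', Matrix.cons_val, Matrix.cons_val_fin_one, Fin.mk_zero, Fin.mk_one, Fin.zero_eta, Fin.reduceFinMk, Fin.isValue]
    try linear_combination (0) * h
  · simp only [P2, P3, g1, Matrix.mul_apply, Matrix.map_apply, Fin.sum_univ_four, Matrix.of_apply, Matrix.cons_val', Matrix.cons_val, Matrix.cons_val_fin_one, Fin.mk_zero, Fin.mk_one, Fin.zero_eta, Fin.reduceFinMk, Fin.isValue]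
    try linear_combination (-x^5*t-1) * h
  · simp only [P2, P3, g1, Matrix.mul_apply, Matrix.map_apply, Fin.sum_univ_four, Matrix.of_apply, Matrix.cons_val', Matrix.cons_val, Matrix.cons_val_fin_one, Fin.mk_zero, Fin.mk_one, Fin.zero_eta, Fin.reduceFinMk, Fin.isValue]
    try linear_combination (0) * h
  · simp only [P2, P3, g1, Matrix.mul_apply, Matrix.map_apply, Fin.sum_univ_four, Matrix.of_apply, Matrix.cons_val', Matrix.cons_val, Matrix.cons_val_fin_one, Fin.mk_zero, Fin.mk_one, Fin.zero_eta, Fin.reduceFinMk, Fin.isValue]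
    try linear_combination (0) * h
  · simp only [P2, P3, g1, Matrix.mul_apply, Matrix.map_apply, Fin.sum_univ_four, Matrix.of_apply, Matrix.cons_val', Matrix.cons_val, Matrix.cons_val_fin_one, Fin.mk_zero, Fin.mk_one, Fin.zero_eta, Fin.reduceFinMk, Fin.isValue]
    try linear_combination (0) * h
  · simp only [P2, P3, g1, Matrix.mul_apply, Matrix.map_apply, Fin.sum_univ_four, Matrix.of_apply, Matrix.cons_val', Matrix.cons_val, Matrix.cons_val_fin_one, Fin.mk_zero, Fin.mk_one, Fin.zero_eta, Fin.reduceFinMk, Fin.isValue]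
    try linear_combination (-1) * h

theorem P4_eq (x z t : A) (h : z ^ 2 - z - 1 = x ^ 5 * t) :
    P3 x z t * g1 x z t = P4 x z t := by
  ext i j
  fin_cases i <;> fin_cases j
  · simp only [P3, P4, g1, Matrix.mul_apply, Matrix.map_apply, Fin.sum_univ_four, Matrix.of_apply, Matrix.cons_val', Matrix.cons_val, Matrix.cons_val_fin_one, Fin.mk_zero, Fin.mk_one, Fin.zero_eta, Fin.reduceFinMk, Fin.isValue]
    try linear_combination (0) * h
  · simp only [P3, P4, g1, Matrix.mul_apply, Matrix.map_apply, Fin.sum_univ_four, Matrix.of_apply, Matrix.cons_val', Matrix.cons_val, Matrix.cons_val_fin_one, Fin.mk_zero, Fin.mk_one, Fin.zero_eta, Fin.reduceFinMk, Fin.isValue]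
    try linear_combination (1) * h
  · simp only [P3, P4, g1, Matrix.mul_apply, Matrix.map_apply, Fin.sum_univ_four, Matrix.of_apply, Matrix.cons_val', Matrix.cons_val, Matrix.cons_val_fin_one, Fin.mk_zero, Fin.mk_one, Fin.zero_eta, Fin.reduceFinMk, Fin.isValue]
    try linear_combination (0) * h
  · simp only [P3, P4, g1, Matrix.mul_apply, Matrix.map_apply, Fin.sum_univ_four, Matrix.of_apply, Matrix.cons_val', Matrix.cons_val, Matrix.cons_val_fin_one, Fin.mk_zero, Fin.mk_one, Fin.zero_eta, Fin.reduceFinMk, Fin.isValue]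
    try linear_combination (-x^4*t) * h
  · simp only [P3, P4, g1, Matrix.mul_apply, Matrix.map_apply, Fin.sum_univ_four, Matrix.of_apply, Matrix.cons_val', Matrix.cons_val, Matrix.cons_val_fin_one, Fin.mk_zero, Fin.mk_one, Fin.zero_eta, Fin.reduceFinMk, Fin.isValue]
    try linear_combination (0) * h
  · simp only [P3, P4, g1, Matrix.mul_apply, Matrix.map_apply, Fin.sum_univ_four, Matrix.of_apply, Matrix.cons_val', Matrix.cons_val, Matrix.cons_val_fin_one, Fin.mk_zero, Fin.mk_one, Fin.zero_eta, Fin.reduceFinMk, Fin.isValue]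
    try linear_combination (0) * h
  · simp only [P3, P4, g1, Matrix.mul_apply, Matrix.map_apply, Fin.sum_univ_four, Matrix.of_apply, Matrix.cons_val', Matrix.cons_val, Matrix.cons_val_fin_one, Fin.mk_zero, Fin.mk_one, Fin.zero_eta, Fin.reduceFinMk, Fin.isValue]
    try linear_combination (0) * h
  · simp only [P3, P4, g1, Matrix.mul_apply, Matrix.map_apply, Fin.sum_univ_four, Matrix.of_apply, Matrix.cons_val', Matrix.cons_val, Matrix.cons_val_fin_one, Fin.mk_zero, Fin.mk_one, Fin.zero_eta, Fin.reduceFinMk, Fin.isValue]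
    try linear_combination (0) * h
  · simp only [P3, P4, g1, Matrix.mul_apply, Matrix.map_apply, Fin.sum_univ_four, Matrix.of_apply, Matrix.cons_val', Matrix.cons_val, Matrix.cons_val_fin_one, Fin.mk_zero, Fin.mk_one, Fin.zero_eta, Fin.reduceFinMk, Fin.isValue]
    try linear_combination (0) * h
  · simp only [P3, P4, g1, Matrix.mul_apply, Matrix.map_apply, Fin.sum_univ_four, Matrix.of_apply, Matrix.cons_val', Matrix.cons_val, Matrix.cons_val_fin_one, Fin.mk_zero, Fin.mk_one, Fin.zero_eta, Fin.reduceFinMk, Fin.isValue]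
    try linear_combination (-x) * h
  · simp only [P3, P4, g1, Matrix.mul_apply, Matrix.map_apply, Fin.sum_univ_four, Matrix.of_apply, Matrix.cons_val', Matrix.cons_val, Matrix.cons_val_fin_one, Fin.mk_zero, Fin.mk_one, Fin.zero_eta, Fin.reduceFinMk, Fin.isValue]
    try linear_combination (0) * h
  · simp only [P3, P4, g1, Matrix.mul_apply, Matrix.map_apply, Fin.sum_univ_four, Matrix.of_apply, Matrix.cons_val', Matrix.cons_val, Matrix.cons_val_fin_one, Fin.mk_zero, Fin.mk_one, Fin.zero_eta, Fin.reduceFinMk, Fin.isValue]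
    try linear_combination (x^5*t+1) * h
  · simp only [P3, P4, g1, Matrix.mul_apply, Matrix.map_apply, Fin.sum_univ_four, Matrix.of_apply, Matrix.cons_val', Matrix.cons_val, Matrix.cons_val_fin_one, Fin.mk_zero, Fin.mk_one, Fin.zero_eta, Fin.reduceFinMk, Fin.isValue]
    try linear_combination (0) * h
  · simp only [P3, P4, g1, Matrix.mul_apply, Matrix.map_apply, Fin.sum_univ_four, Matrix.of_apply, Matrix.cons_val', Matrix.cons_val, Matrix.cons_val_fin_one, Fin.mk_zero, Fin.mk_one, Fin.zero_eta, Fin.reduceFinMk, Fin.isValue]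
    try linear_combination (0) * h
  · simp only [P3, P4, g1, Matrix.mul_apply, Matrix.map_apply, Fin.sum_univ_four, Matrix.of_apply, Matrix.cons_val', Matrix.cons_val, Matrix.cons_val_fin_one, Fin.mk_zero, Fin.mk_one, Fin.zero_eta, Fin.reduceFinMk, Fin.isValue]
    try linear_combination (0) * h
  · simp only [P3, P4, g1, Matrix.mul_apply, Matrix.map_apply, Fin.sum_univ_four, Matrix.of_apply, Matrix.cons_val', Matrix.cons_val, Matrix.cons_val_fin_one, Fin.mk_zero, Fin.mk_one, Fin.zero_eta, Fin.reduceFinMk, Fin.isValue]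
    try linear_combination (0) * h

theorem P4_mul (x z t : A) (h : z ^ 2 - z - 1 = x ^ 5 * t) :
    P4 x z t * g1 x z t = 1 := by
  ext i j
  fin_cases i <;> fin_cases j
  · simp only [P4, g1, Matrix.mul_apply, Matrix.map_apply, Fin.sum_univ_four, Matrix.of_apply, Matrix.cons_val', Matrix.cons_val, Matrix.cons_val_fin_one, Fin.mk_zero, Fin.mk_one, Fin.zero_eta, Fin.reduceFinMk, Fin.isValue, Matrix.one_apply, Fin.reduceEq, if_true, if_false, reduceIte]
    try linear_combination (0) * h
  · simp only [P4, g1, Matrix.mul_apply, Matrix.map_apply, Fin.sum_univ_four, Matrix.of_apply, Matrix.cons_val', Matrix.cons_val, Matrix.cons_val_fin_one, Fin.mk_zero, Fin.mk_one, Fin.zero_eta, Fin.reduceFinMk, Fin.isValue, Matrix.one_apply, Fin.reduceEq, if_true, if_false, reduceIte]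
    try linear_combination (0) * h
  · simp only [P4, g1, Matrix.mul_apply, Matrix.map_apply, Fin.sum_univ_four, Matrix.of_apply, Matrix.cons_val', Matrix.cons_val, Matrix.cons_val_fin_one, Fin.mk_zero, Fin.mk_one, Fin.zero_eta, Fin.reduceFinMk, Fin.isValue, Matrix.one_apply, Fin.reduceEq, if_true, if_false, reduceIte]
    try linear_combination (0) * h
  · simp only [P4, g1, Matrix.mul_apply, Matrix.map_apply, Fin.sum_univ_four, Matrix.of_apply, Matrix.cons_val', Matrix.cons_val, Matrix.cons_val_fin_one, Fin.mk_zero, Fin.mk_one, Fin.zero_eta, Fin.reduceFinMk, Fin.isValue, Matrix.one_apply, Fin.reduceEq, if_true, if_false, reduceIte]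
    try linear_combination (0) * h
  · simp only [P4, g1, Matrix.mul_apply, Matrix.map_apply, Fin.sum_univ_four, Matrix.of_apply, Matrix.cons_val', Matrix.cons_val, Matrix.cons_val_fin_one, Fin.mk_zero, Fin.mk_one, Fin.zero_eta, Fin.reduceFinMk, Fin.isValue, Matrix.one_apply, Fin.reduceEq, if_true, if_false, reduceIte]
    try linear_combination (0) * h
  · simp only [P4, g1, Matrix.mul_apply, Matrix.map_apply, Fin.sum_univ_four, Matrix.of_apply, Matrix.cons_val', Matrix.cons_val, Matrix.cons_val_fin_one, Fin.mk_zero, Fin.mk_one, Fin.zero_eta, Fin.reduceFinMk, Fin.isValue, Matrix.one_apply, Fin.reduceEq, if_true, if_false, reduceIte]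
    try linear_combination (0) * h
  · simp only [P4, g1, Matrix.mul_apply, Matrix.map_apply, Fin.sum_univ_four, Matrix.of_apply, Matrix.cons_val', Matrix.cons_val, Matrix.cons_val_fin_one, Fin.mk_zero, Fin.mk_one, Fin.zero_eta, Fin.reduceFinMk, Fin.isValue, Matrix.one_apply, Fin.reduceEq, if_true, if_false, reduceIte]
    try linear_combination (0) * h
  · simp only [P4, g1, Matrix.mul_apply, Matrix.map_apply, Fin.sum_univ_four, Matrix.of_apply, Matrix.cons_val', Matrix.cons_val, Matrix.cons_val_fin_one, Fin.mk_zero, Fin.mk_one, Fin.zero_eta, Fin.reduceFinMk, Fin.isValue, Matrix.one_apply, Fin.reduceEq, if_true, if_false, reduceIte]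
    try linear_combination (0) * h
  · simp only [P4, g1, Matrix.mul_apply, Matrix.map_apply, Fin.sum_univ_four, Matrix.of_apply, Matrix.cons_val', Matrix.cons_val, Matrix.cons_val_fin_one, Fin.mk_zero, Fin.mk_one, Fin.zero_eta, Fin.reduceFinMk, Fin.isValue, Matrix.one_apply, Fin.reduceEq, if_true, if_false, reduceIte]
    try linear_combination (0) * h
  · simp only [P4, g1, Matrix.mul_apply, Matrix.map_apply, Fin.sum_univ_four, Matrix.of_apply, Matrix.cons_val', Matrix.cons_val, Matrix.cons_val_fin_one, Fin.mk_zero, Fin.mk_one, Fin.zero_eta, Fin.reduceFinMk, Fin.isValue, Matrix.one_apply, Fin.reduceEq, if_true, if_false, reduceIte]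
    try linear_combination (0) * h
  · simp only [P4, g1, Matrix.mul_apply, Matrix.map_apply, Fin.sum_univ_four, Matrix.of_apply, Matrix.cons_val', Matrix.cons_val, Matrix.cons_val_fin_one, Fin.mk_zero, Fin.mk_one, Fin.zero_eta, Fin.reduceFinMk, Fin.isValue, Matrix.one_apply, Fin.reduceEq, if_true, if_false, reduceIte]
    try linear_combination (0) * h
  · simp only [P4, g1, Matrix.mul_apply, Matrix.map_apply, Fin.sum_univ_four, Matrix.of_apply, Matrix.cons_val', Matrix.cons_val, Matrix.cons_val_fin_one, Fin.mk_zero, Fin.mk_one, Fin.zero_eta, Fin.reduceFinMk, Fin.isValue, Matrix.one_apply, Fin.reduceEq, if_true, if_false, reduceIte]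
    try linear_combination (0) * h
  · simp only [P4, g1, Matrix.mul_apply, Matrix.map_apply, Fin.sum_univ_four, Matrix.of_apply, Matrix.cons_val', Matrix.cons_val, Matrix.cons_val_fin_one, Fin.mk_zero, Fin.mk_one, Fin.zero_eta, Fin.reduceFinMk, Fin.isValue, Matrix.one_apply, Fin.reduceEq, if_true, if_false, reduceIte]
    try linear_combination (0) * h
  · simp only [P4, g1, Matrix.mul_apply, Matrix.map_apply, Fin.sum_univ_four, Matrix.of_apply, Matrix.cons_val', Matrix.cons_val, Matrix.cons_val_fin_one, Fin.mk_zero, Fin.mk_one, Fin.zero_eta, Fin.reduceFinMk, Fin.isValue, Matrix.one_apply, Fin.reduceEq, if_true, if_false, reduceIte]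
    try linear_combination (0) * h
  · simp only [P4, g1, Matrix.mul_apply, Matrix.map_apply, Fin.sum_univ_four, Matrix.of_apply, Matrix.cons_val', Matrix.cons_val, Matrix.cons_val_fin_one, Fin.mk_zero, Fin.mk_one, Fin.zero_eta, Fin.reduceFinMk, Fin.isValue, Matrix.one_apply, Fin.reduceEq, if_true, if_false, reduceIte]
    try linear_combination (0) * h
  · simp only [P4, g1, Matrix.mul_apply, Matrix.map_apply, Fin.sum_univ_four, Matrix.of_apply, Matrix.cons_val', Matrix.cons_val, Matrix.cons_val_fin_one, Fin.mk_zero, Fin.mk_one, Fin.zero_eta, Fin.reduceFinMk, Fin.isValue, Matrix.one_apply, Fin.reduceEq, if_true, if_false, reduceIte]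
    try linear_combination (0) * h

theorem g1_pow_two (x z t : A) (h : z ^ 2 - z - 1 = x ^ 5 * t) : g1 x z t ^ 2 = P2 x z t := by
  rw [pow_two, P2_eq x z t h]

theorem g1_pow_three (x z t : A) (h : z ^ 2 - z - 1 = x ^ 5 * t) : g1 x z t ^ 3 = P3 x z t := by
  rw [pow_succ, g1_pow_two x z t h, P3_eq x z t h]

theorem g1_pow_four (x z t : A) (h : z ^ 2 - z - 1 = x ^ 5 * t) : g1 x z t ^ 4 = P4 x z t := by
  rw [pow_succ, g1_pow_three x z t h, P4_eq x z t h]

/-- `g1` has order dividing five. -/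
theorem g1_pow_five (x z t : A) (h : z ^ 2 - z - 1 = x ^ 5 * t) : g1 x z t ^ 5 = 1 := by
  rw [pow_succ, g1_pow_four x z t h, P4_mul x z t h]

theorem theta_mul_g1 (x z t : A) (h : z ^ 2 - z - 1 = x ^ 5 * t) :
    theta x z * g1 x z t = g0 A * theta x z := by
  ext i j
  fin_cases i <;> fin_cases j
  · simp only [theta, g1, g0, Matrix.mul_apply, Matrix.map_apply, Fin.sum_univ_four, Matrix.of_apply, Matrix.cons_val', Matrix.cons_val, Matrix.cons_val_fin_one, Fin.mk_zero, Fin.mk_one, Fin.zero_eta, Fin.reduceFinMk, Fin.isValue]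
    try linear_combination (0) * h
  · simp only [theta, g1, g0, Matrix.mul_apply, Matrix.map_apply, Fin.sum_univ_four, Matrix.of_apply, Matrix.cons_val', Matrix.cons_val, Matrix.cons_val_fin_one, Fin.mk_zero, Fin.mk_one, Fin.zero_eta, Fin.reduceFinMk, Fin.isValue]
    try linear_combination (0) * h
  · simp only [theta, g1, g0, Matrix.mul_apply, Matrix.map_apply, Fin.sum_univ_four, Matrix.of_apply, Matrix.cons_val', Matrix.cons_val, Matrix.cons_val_fin_one, Fin.mk_zero, Fin.mk_one, Fin.zero_eta, Fin.reduceFinMk, Fin.isValue]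
    try linear_combination (0) * h
  · simp only [theta, g1, g0, Matrix.mul_apply, Matrix.map_apply, Fin.sum_univ_four, Matrix.of_apply, Matrix.cons_val', Matrix.cons_val, Matrix.cons_val_fin_one, Fin.mk_zero, Fin.mk_one, Fin.zero_eta, Fin.reduceFinMk, Fin.isValue]
    try linear_combination (0) * h
  · simp only [theta, g1, g0, Matrix.mul_apply, Matrix.map_apply, Fin.sum_univ_four, Matrix.of_apply, Matrix.cons_val', Matrix.cons_val, Matrix.cons_val_fin_one, Fin.mk_zero, Fin.mk_one, Fin.zero_eta, Fin.reduceFinMk, Fin.isValue]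
    try linear_combination (0) * h
  · simp only [theta, g1, g0, Matrix.mul_apply, Matrix.map_apply, Fin.sum_univ_four, Matrix.of_apply, Matrix.cons_val', Matrix.cons_val, Matrix.cons_val_fin_one, Fin.mk_zero, Fin.mk_one, Fin.zero_eta, Fin.reduceFinMk, Fin.isValue]
    try linear_combination (0) * h
  · simp only [theta, g1, g0, Matrix.mul_apply, Matrix.map_apply, Fin.sum_univ_four, Matrix.of_apply, Matrix.cons_val', Matrix.cons_val, Matrix.cons_val_fin_one, Fin.mk_zero, Fin.mk_one, Fin.zero_eta, Fin.reduceFinMk, Fin.isValue]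
    try linear_combination (0) * h
  · simp only [theta, g1, g0, Matrix.mul_apply, Matrix.map_apply, Fin.sum_univ_four, Matrix.of_apply, Matrix.cons_val', Matrix.cons_val, Matrix.cons_val_fin_one, Fin.mk_zero, Fin.mk_one, Fin.zero_eta, Fin.reduceFinMk, Fin.isValue]
    try linear_combination (0) * h
  · simp only [theta, g1, g0, Matrix.mul_apply, Matrix.map_apply, Fin.sum_univ_four, Matrix.of_apply, Matrix.cons_val', Matrix.cons_val, Matrix.cons_val_fin_one, Fin.mk_zero, Fin.mk_one, Fin.zero_eta, Fin.reduceFinMk, Fin.isValue]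
    try linear_combination (0) * h
  · simp only [theta, g1, g0, Matrix.mul_apply, Matrix.map_apply, Fin.sum_univ_four, Matrix.of_apply, Matrix.cons_val', Matrix.cons_val, Matrix.cons_val_fin_one, Fin.mk_zero, Fin.mk_one, Fin.zero_eta, Fin.reduceFinMk, Fin.isValue]
    try linear_combination (0) * h
  · simp only [theta, g1, g0, Matrix.mul_apply, Matrix.map_apply, Fin.sum_univ_four, Matrix.of_apply, Matrix.cons_val', Matrix.cons_val, Matrix.cons_val_fin_one, Fin.mk_zero, Fin.mk_one, Fin.zero_eta, Fin.reduceFinMk, Fin.isValue]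
    try linear_combination (0) * h
  · simp only [theta, g1, g0, Matrix.mul_apply, Matrix.map_apply, Fin.sum_univ_four, Matrix.of_apply, Matrix.cons_val', Matrix.cons_val, Matrix.cons_val_fin_one, Fin.mk_zero, Fin.mk_one, Fin.zero_eta, Fin.reduceFinMk, Fin.isValue]
    try linear_combination (1) * h
  · simp only [theta, g1, g0, Matrix.mul_apply, Matrix.map_apply, Fin.sum_univ_four, Matrix.of_apply, Matrix.cons_val', Matrix.cons_val, Matrix.cons_val_fin_one, Fin.mk_zero, Fin.mk_one, Fin.zero_eta, Fin.reduceFinMk, Fin.isValue]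
    try linear_combination (0) * h
  · simp only [theta, g1, g0, Matrix.mul_apply, Matrix.map_apply, Fin.sum_univ_four, Matrix.of_apply, Matrix.cons_val', Matrix.cons_val, Matrix.cons_val_fin_one, Fin.mk_zero, Fin.mk_one, Fin.zero_eta, Fin.reduceFinMk, Fin.isValue]
    try linear_combination (0) * h
  · simp only [theta, g1, g0, Matrix.mul_apply, Matrix.map_apply, Fin.sum_univ_four, Matrix.of_apply, Matrix.cons_val', Matrix.cons_val, Matrix.cons_val_fin_one, Fin.mk_zero, Fin.mk_one, Fin.zero_eta, Fin.reduceFinMk, Fin.isValue]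
    try linear_combination (0) * h
  · simp only [theta, g1, g0, Matrix.mul_apply, Matrix.map_apply, Fin.sum_univ_four, Matrix.of_apply, Matrix.cons_val', Matrix.cons_val, Matrix.cons_val_fin_one, Fin.mk_zero, Fin.mk_one, Fin.zero_eta, Fin.reduceFinMk, Fin.isValue]
    try linear_combination (0) * h

theorem det_theta (x z : A) : (theta x z).det = x ^ 2 := by
  simp [theta, Matrix.det_succ_row_zero, Fin.sum_univ_succ, Fin.succAbove]
  ring

def Z2 (A : Type*) [CommRing A] : Matrix (Fin 4) (Fin 4) A :=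
  !![0, 0, -1, 1; 0, 0, -1, 0; 1, 0, -1, 0; 0, 1, -1, 0]

def Z3 (A : Type*) [CommRing A] : Matrix (Fin 4) (Fin 4) A :=
  !![0, -1, 1, 0; 0, -1, 0, 1; 0, -1, 0, 0; 1, -1, 0, 0]

def Z4 (A : Type*) [CommRing A] : Matrix (Fin 4) (Fin 4) A :=
  !![-1, 1, 0, 0; -1, 0, 1, 0; -1, 0, 0, 1; -1, 0, 0, 0]

theorem Z2_eq : g0 A * g0 A = Z2 A := by
  ext i j
  fin_cases i <;> fin_cases j
  · simp only [Z2, g0, Matrix.mul_apply, Matrix.map_apply, Fin.sum_univ_four, Matrix.of_apply, Matrix.cons_val', Matrix.cons_val, Matrix.cons_val_fin_one, Fin.mk_zero, Fin.mk_one, Fin.zero_eta, Fin.reduceFinMk, Fin.isValue]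
    try ring
  · simp only [Z2, g0, Matrix.mul_apply, Matrix.map_apply, Fin.sum_univ_four, Matrix.of_apply, Matrix.cons_val', Matrix.cons_val, Matrix.cons_val_fin_one, Fin.mk_zero, Fin.mk_one, Fin.zero_eta, Fin.reduceFinMk, Fin.isValue]
    try ring
  · simp only [Z2, g0, Matrix.mul_apply, Matrix.map_apply, Fin.sum_univ_four, Matrix.of_apply, Matrix.cons_val', Matrix.cons_val, Matrix.cons_val_fin_one, Fin.mk_zero, Fin.mk_one, Fin.zero_eta, Fin.reduceFinMk, Fin.isValue]
    try ring
  · simp only [Z2, g0, Matrix.mul_apply, Matrix.map_apply, Fin.sum_univ_four, Matrix.of_apply, Matrix.cons_val', Matrix.cons_val, Matrix.cons_val_fin_one, Fin.mk_zero, Fin.mk_one, Fin.zero_eta, Fin.reduceFinMk, Fin.isValue]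
    try ring
  · simp only [Z2, g0, Matrix.mul_apply, Matrix.map_apply, Fin.sum_univ_four, Matrix.of_apply, Matrix.cons_val', Matrix.cons_val, Matrix.cons_val_fin_one, Fin.mk_zero, Fin.mk_one, Fin.zero_eta, Fin.reduceFinMk, Fin.isValue]
    try ring
  · simp only [Z2, g0, Matrix.mul_apply, Matrix.map_apply, Fin.sum_univ_four, Matrix.of_apply, Matrix.cons_val', Matrix.cons_val, Matrix.cons_val_fin_one, Fin.mk_zero, Fin.mk_one, Fin.zero_eta, Fin.reduceFinMk, Fin.isValue]
    try ring
  · simp only [Z2, g0, Matrix.mul_apply, Matrix.map_apply, Fin.sum_univ_four, Matrix.of_apply, Matrix.cons_val', Matrix.cons_val, Matrix.cons_val_fin_one, Fin.mk_zero, Fin.mk_one, Fin.zero_eta, Fin.reduceFinMk, Fin.isValue]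
    try ring
  · simp only [Z2, g0, Matrix.mul_apply, Matrix.map_apply, Fin.sum_univ_four, Matrix.of_apply, Matrix.cons_val', Matrix.cons_val, Matrix.cons_val_fin_one, Fin.mk_zero, Fin.mk_one, Fin.zero_eta, Fin.reduceFinMk, Fin.isValue]
    try ring
  · simp only [Z2, g0, Matrix.mul_apply, Matrix.map_apply, Fin.sum_univ_four, Matrix.of_apply, Matrix.cons_val', Matrix.cons_val, Matrix.cons_val_fin_one, Fin.mk_zero, Fin.mk_one, Fin.zero_eta, Fin.reduceFinMk, Fin.isValue]
    try ring
  · simp only [Z2, g0, Matrix.mul_apply, Matrix.map_apply, Fin.sum_univ_four, Matrix.of_apply, Matrix.cons_val', Matrix.cons_val, Matrix.cons_val_fin_one, Fin.mk_zero, Fin.mk_one, Fin.zero_eta, Fin.reduceFinMk, Fin.isValue]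
    try ring
  · simp only [Z2, g0, Matrix.mul_apply, Matrix.map_apply, Fin.sum_univ_four, Matrix.of_apply, Matrix.cons_val', Matrix.cons_val, Matrix.cons_val_fin_one, Fin.mk_zero, Fin.mk_one, Fin.zero_eta, Fin.reduceFinMk, Fin.isValue]
    try ring
  · simp only [Z2, g0, Matrix.mul_apply, Matrix.map_apply, Fin.sum_univ_four, Matrix.of_apply, Matrix.cons_val', Matrix.cons_val, Matrix.cons_val_fin_one, Fin.mk_zero, Fin.mk_one, Fin.zero_eta, Fin.reduceFinMk, Fin.isValue]
    try ring
  · simp only [Z2, g0, Matrix.mul_apply, Matrix.map_apply, Fin.sum_univ_four, Matrix.of_apply, Matrix.cons_val', Matrix.cons_val, Matrix.cons_val_fin_one, Fin.mk_zero, Fin.mk_one, Fin.zero_eta, Fin.reduceFinMk, Fin.isValue]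
    try ring
  · simp only [Z2, g0, Matrix.mul_apply, Matrix.map_apply, Fin.sum_univ_four, Matrix.of_apply, Matrix.cons_val', Matrix.cons_val, Matrix.cons_val_fin_one, Fin.mk_zero, Fin.mk_one, Fin.zero_eta, Fin.reduceFinMk, Fin.isValue]
    try ring
  · simp only [Z2, g0, Matrix.mul_apply, Matrix.map_apply, Fin.sum_univ_four, Matrix.of_apply, Matrix.cons_val', Matrix.cons_val, Matrix.cons_val_fin_one, Fin.mk_zero, Fin.mk_one, Fin.zero_eta, Fin.reduceFinMk, Fin.isValue]
    try ring
  · simp only [Z2, g0, Matrix.mul_apply, Matrix.map_apply, Fin.sum_univ_four, Matrix.of_apply, Matrix.cons_val', Matrix.cons_val, Matrix.cons_val_fin_one, Fin.mk_zero, Fin.mk_one, Fin.zero_eta, Fin.reduceFinMk, Fin.isValue]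
    try ring

theorem Z3_eq : Z2 A * g0 A = Z3 A := by
  ext i j
  fin_cases i <;> fin_cases j
  · simp only [Z2, Z3, g0, Matrix.mul_apply, Matrix.map_apply, Fin.sum_univ_four, Matrix.of_apply, Matrix.cons_val', Matrix.cons_val, Matrix.cons_val_fin_one, Fin.mk_zero, Fin.mk_one, Fin.zero_eta, Fin.reduceFinMk, Fin.isValue]
    try ring
  · simp only [Z2, Z3, g0, Matrix.mul_apply, Matrix.map_apply, Fin.sum_univ_four, Matrix.of_apply, Matrix.cons_val', Matrix.cons_val, Matrix.cons_val_fin_one, Fin.mk_zero, Fin.mk_one, Fin.zero_eta, Fin.reduceFinMk, Fin.isValue]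
    try ring
  · simp only [Z2, Z3, g0, Matrix.mul_apply, Matrix.map_apply, Fin.sum_univ_four, Matrix.of_apply, Matrix.cons_val', Matrix.cons_val, Matrix.cons_val_fin_one, Fin.mk_zero, Fin.mk_one, Fin.zero_eta, Fin.reduceFinMk, Fin.isValue]
    try ring
  · simp only [Z2, Z3, g0, Matrix.mul_apply, Matrix.map_apply, Fin.sum_univ_four, Matrix.of_apply, Matrix.cons_val', Matrix.cons_val, Matrix.cons_val_fin_one, Fin.mk_zero, Fin.mk_one, Fin.zero_eta, Fin.reduceFinMk, Fin.isValue]
    try ring
  · simp only [Z2, Z3, g0, Matrix.mul_apply, Matrix.map_apply, Fin.sum_univ_four, Matrix.of_apply, Matrix.cons_val', Matrix.cons_val, Matrix.cons_val_fin_one, Fin.mk_zero, Fin.mk_one, Fin.zero_eta, Fin.reduceFinMk, Fin.isValue]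
    try ring
  · simp only [Z2, Z3, g0, Matrix.mul_apply, Matrix.map_apply, Fin.sum_univ_four, Matrix.of_apply, Matrix.cons_val', Matrix.cons_val, Matrix.cons_val_fin_one, Fin.mk_zero, Fin.mk_one, Fin.zero_eta, Fin.reduceFinMk, Fin.isValue]
    try ring
  · simp only [Z2, Z3, g0, Matrix.mul_apply, Matrix.map_apply, Fin.sum_univ_four, Matrix.of_apply, Matrix.cons_val', Matrix.cons_val, Matrix.cons_val_fin_one, Fin.mk_zero, Fin.mk_one, Fin.zero_eta, Fin.reduceFinMk, Fin.isValue]
    try ring
  · simp only [Z2, Z3, g0, Matrix.mul_apply, Matrix.map_apply, Fin.sum_univ_four, Matrix.of_apply, Matrix.cons_val', Matrix.cons_val, Matrix.cons_val_fin_one, Fin.mk_zero, Fin.mk_one, Fin.zero_eta, Fin.reduceFinMk, Fin.isValue]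
    try ring
  · simp only [Z2, Z3, g0, Matrix.mul_apply, Matrix.map_apply, Fin.sum_univ_four, Matrix.of_apply, Matrix.cons_val', Matrix.cons_val, Matrix.cons_val_fin_one, Fin.mk_zero, Fin.mk_one, Fin.zero_eta, Fin.reduceFinMk, Fin.isValue]
    try ring
  · simp only [Z2, Z3, g0, Matrix.mul_apply, Matrix.map_apply, Fin.sum_univ_four, Matrix.of_apply, Matrix.cons_val', Matrix.cons_val, Matrix.cons_val_fin_one, Fin.mk_zero, Fin.mk_one, Fin.zero_eta, Fin.reduceFinMk, Fin.isValue]
    try ring
  · simp only [Z2, Z3, g0, Matrix.mul_apply, Matrix.map_apply, Fin.sum_univ_four, Matrix.of_apply, Matrix.cons_val', Matrix.cons_val, Matrix.cons_val_fin_one, Fin.mk_zero, Fin.mk_one, Fin.zero_eta, Fin.reduceFinMk, Fin.isValue]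
    try ring
  · simp only [Z2, Z3, g0, Matrix.mul_apply, Matrix.map_apply, Fin.sum_univ_four, Matrix.of_apply, Matrix.cons_val', Matrix.cons_val, Matrix.cons_val_fin_one, Fin.mk_zero, Fin.mk_one, Fin.zero_eta, Fin.reduceFinMk, Fin.isValue]
    try ring
  · simp only [Z2, Z3, g0, Matrix.mul_apply, Matrix.map_apply, Fin.sum_univ_four, Matrix.of_apply, Matrix.cons_val', Matrix.cons_val, Matrix.cons_val_fin_one, Fin.mk_zero, Fin.mk_one, Fin.zero_eta, Fin.reduceFinMk, Fin.isValue]
    try ring
  · simp only [Z2, Z3, g0, Matrix.mul_apply, Matrix.map_apply, Fin.sum_univ_four, Matrix.of_apply, Matrix.cons_val', Matrix.cons_val, Matrix.cons_val_fin_one, Fin.mk_zero, Fin.mk_one, Fin.zero_eta, Fin.reduceFinMk, Fin.isValue]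
    try ring
  · simp only [Z2, Z3, g0, Matrix.mul_apply, Matrix.map_apply, Fin.sum_univ_four, Matrix.of_apply, Matrix.cons_val', Matrix.cons_val, Matrix.cons_val_fin_one, Fin.mk_zero, Fin.mk_one, Fin.zero_eta, Fin.reduceFinMk, Fin.isValue]
    try ring
  · simp only [Z2, Z3, g0, Matrix.mul_apply, Matrix.map_apply, Fin.sum_univ_four, Matrix.of_apply, Matrix.cons_val', Matrix.cons_val, Matrix.cons_val_fin_one, Fin.mk_zero, Fin.mk_one, Fin.zero_eta, Fin.reduceFinMk, Fin.isValue]
    try ring

theorem Z4_eq : Z3 A * g0 A = Z4 A := by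
  ext i j
  fin_cases i <;> fin_cases j
  · simp only [Z3, Z4, g0, Matrix.mul_apply, Matrix.map_apply, Fin.sum_univ_four, Matrix.of_apply, Matrix.cons_val', Matrix.cons_val, Matrix.cons_val_fin_one, Fin.mk_zero, Fin.mk_one, Fin.zero_eta, Fin.reduceFinMk, Fin.isValue]
    try ring
  · simp only [Z3, Z4, g0, Matrix.mul_apply, Matrix.map_apply, Fin.sum_univ_four, Matrix.of_apply, Matrix.cons_val', Matrix.cons_val, Matrix.cons_val_fin_one, Fin.mk_zero, Fin.mk_one, Fin.zero_eta, Fin.reduceFinMk, Fin.isValue]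
    try ring
  · simp only [Z3, Z4, g0, Matrix.mul_apply, Matrix.map_apply, Fin.sum_univ_four, Matrix.of_apply, Matrix.cons_val', Matrix.cons_val, Matrix.cons_val_fin_one, Fin.mk_zero, Fin.mk_one, Fin.zero_eta, Fin.reduceFinMk, Fin.isValue]
    try ring
  · simp only [Z3, Z4, g0, Matrix.mul_apply, Matrix.map_apply, Fin.sum_univ_four, Matrix.of_apply, Matrix.cons_val', Matrix.cons_val, Matrix.cons_val_fin_one, Fin.mk_zero, Fin.mk_one, Fin.zero_eta, Fin.reduceFinMk, Fin.isValue]
    try ring
  · simp only [Z3, Z4, g0, Matrix.mul_apply, Matrix.map_apply, Fin.sum_univ_four, Matrix.of_apply, Matrix.cons_val', Matrix.cons_val, Matrix.cons_val_fin_one, Fin.mk_zero, Fin.mk_one, Fin.zero_eta, Fin.reduceFinMk, Fin.isValue]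
    try ring
  · simp only [Z3, Z4, g0, Matrix.mul_apply, Matrix.map_apply, Fin.sum_univ_four, Matrix.of_apply, Matrix.cons_val', Matrix.cons_val, Matrix.cons_val_fin_one, Fin.mk_zero, Fin.mk_one, Fin.zero_eta, Fin.reduceFinMk, Fin.isValue]
    try ring
  · simp only [Z3, Z4, g0, Matrix.mul_apply, Matrix.map_apply, Fin.sum_univ_four, Matrix.of_apply, Matrix.cons_val', Matrix.cons_val, Matrix.cons_val_fin_one, Fin.mk_zero, Fin.mk_one, Fin.zero_eta, Fin.reduceFinMk, Fin.isValue]
    try ring
  · simp only [Z3, Z4, g0, Matrix.mul_apply, Matrix.map_apply, Fin.sum_univ_four, Matrix.of_apply, Matrix.cons_val', Matrix.cons_val, Matrix.cons_val_fin_one, Fin.mk_zero, Fin.mk_one, Fin.zero_eta, Fin.reduceFinMk, Fin.isValue]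
    try ring
  · simp only [Z3, Z4, g0, Matrix.mul_apply, Matrix.map_apply, Fin.sum_univ_four, Matrix.of_apply, Matrix.cons_val', Matrix.cons_val, Matrix.cons_val_fin_one, Fin.mk_zero, Fin.mk_one, Fin.zero_eta, Fin.reduceFinMk, Fin.isValue]
    try ring
  · simp only [Z3, Z4, g0, Matrix.mul_apply, Matrix.map_apply, Fin.sum_univ_four, Matrix.of_apply, Matrix.cons_val', Matrix.cons_val, Matrix.cons_val_fin_one, Fin.mk_zero, Fin.mk_one, Fin.zero_eta, Fin.reduceFinMk, Fin.isValue]
    try ring
  · simp only [Z3, Z4, g0, Matrix.mul_apply, Matrix.map_apply, Fin.sum_univ_four, Matrix.of_apply, Matrix.cons_val', Matrix.cons_val, Matrix.cons_val_fin_one, Fin.mk_zero, Fin.mk_one, Fin.zero_eta, Fin.reduceFinMk, Fin.isValue]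
    try ring
  · simp only [Z3, Z4, g0, Matrix.mul_apply, Matrix.map_apply, Fin.sum_univ_four, Matrix.of_apply, Matrix.cons_val', Matrix.cons_val, Matrix.cons_val_fin_one, Fin.mk_zero, Fin.mk_one, Fin.zero_eta, Fin.reduceFinMk, Fin.isValue]
    try ring
  · simp only [Z3, Z4, g0, Matrix.mul_apply, Matrix.map_apply, Fin.sum_univ_four, Matrix.of_apply, Matrix.cons_val', Matrix.cons_val, Matrix.cons_val_fin_one, Fin.mk_zero, Fin.mk_one, Fin.zero_eta, Fin.reduceFinMk, Fin.isValue]
    try ring
  · simp only [Z3, Z4, g0, Matrix.mul_apply, Matrix.map_apply, Fin.sum_univ_four, Matrix.of_apply, Matrix.cons_val', Matrix.cons_val, Matrix.cons_val_fin_one, Fin.mk_zero, Fin.mk_one, Fin.zero_eta, Fin.reduceFinMk, Fin.isValue]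
    try ring
  · simp only [Z3, Z4, g0, Matrix.mul_apply, Matrix.map_apply, Fin.sum_univ_four, Matrix.of_apply, Matrix.cons_val', Matrix.cons_val, Matrix.cons_val_fin_one, Fin.mk_zero, Fin.mk_one, Fin.zero_eta, Fin.reduceFinMk, Fin.isValue]
    try ring
  · simp only [Z3, Z4, g0, Matrix.mul_apply, Matrix.map_apply, Fin.sum_univ_four, Matrix.of_apply, Matrix.cons_val', Matrix.cons_val, Matrix.cons_val_fin_one, Fin.mk_zero, Fin.mk_one, Fin.zero_eta, Fin.reduceFinMk, Fin.isValue]
    try ring

theorem Z4_mul : Z4 A * g0 A = 1 := by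
  ext i j
  fin_cases i <;> fin_cases j
  · simp only [Z4, g0, Matrix.mul_apply, Matrix.map_apply, Fin.sum_univ_four, Matrix.of_apply, Matrix.cons_val', Matrix.cons_val, Matrix.cons_val_fin_one, Fin.mk_zero, Fin.mk_one, Fin.zero_eta, Fin.reduceFinMk, Fin.isValue, Matrix.one_apply, Fin.reduceEq, if_true, if_false, reduceIte]
    try ring
  · simp only [Z4, g0, Matrix.mul_apply, Matrix.map_apply, Fin.sum_univ_four, Matrix.of_apply, Matrix.cons_val', Matrix.cons_val, Matrix.cons_val_fin_one, Fin.mk_zero, Fin.mk_one, Fin.zero_eta, Fin.reduceFinMk, Fin.isValue, Matrix.one_apply, Fin.reduceEq, if_true, if_false, reduceIte]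
    try ring
  · simp only [Z4, g0, Matrix.mul_apply, Matrix.map_apply, Fin.sum_univ_four, Matrix.of_apply, Matrix.cons_val', Matrix.cons_val, Matrix.cons_val_fin_one, Fin.mk_zero, Fin.mk_one, Fin.zero_eta, Fin.reduceFinMk, Fin.isValue, Matrix.one_apply, Fin.reduceEq, if_true, if_false, reduceIte]
    try ring
  · simp only [Z4, g0, Matrix.mul_apply, Matrix.map_apply, Fin.sum_univ_four, Matrix.of_apply, Matrix.cons_val', Matrix.cons_val, Matrix.cons_val_fin_one, Fin.mk_zero, Fin.mk_one, Fin.zero_eta, Fin.reduceFinMk, Fin.isValue, Matrix.one_apply, Fin.reduceEq, if_true, if_false, reduceIte]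
    try ring
  · simp only [Z4, g0, Matrix.mul_apply, Matrix.map_apply, Fin.sum_univ_four, Matrix.of_apply, Matrix.cons_val', Matrix.cons_val, Matrix.cons_val_fin_one, Fin.mk_zero, Fin.mk_one, Fin.zero_eta, Fin.reduceFinMk, Fin.isValue, Matrix.one_apply, Fin.reduceEq, if_true, if_false, reduceIte]
    try ring
  · simp only [Z4, g0, Matrix.mul_apply, Matrix.map_apply, Fin.sum_univ_four, Matrix.of_apply, Matrix.cons_val', Matrix.cons_val, Matrix.cons_val_fin_one, Fin.mk_zero, Fin.mk_one, Fin.zero_eta, Fin.reduceFinMk, Fin.isValue, Matrix.one_apply, Fin.reduceEq, if_true, if_false, reduceIte]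
    try ring
  · simp only [Z4, g0, Matrix.mul_apply, Matrix.map_apply, Fin.sum_univ_four, Matrix.of_apply, Matrix.cons_val', Matrix.cons_val, Matrix.cons_val_fin_one, Fin.mk_zero, Fin.mk_one, Fin.zero_eta, Fin.reduceFinMk, Fin.isValue, Matrix.one_apply, Fin.reduceEq, if_true, if_false, reduceIte]
    try ring
  · simp only [Z4, g0, Matrix.mul_apply, Matrix.map_apply, Fin.sum_univ_four, Matrix.of_apply, Matrix.cons_val', Matrix.cons_val, Matrix.cons_val_fin_one, Fin.mk_zero, Fin.mk_one, Fin.zero_eta, Fin.reduceFinMk, Fin.isValue, Matrix.one_apply, Fin.reduceEq, if_true, if_false, reduceIte]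
    try ring
  · simp only [Z4, g0, Matrix.mul_apply, Matrix.map_apply, Fin.sum_univ_four, Matrix.of_apply, Matrix.cons_val', Matrix.cons_val, Matrix.cons_val_fin_one, Fin.mk_zero, Fin.mk_one, Fin.zero_eta, Fin.reduceFinMk, Fin.isValue, Matrix.one_apply, Fin.reduceEq, if_true, if_false, reduceIte]
    try ring
  · simp only [Z4, g0, Matrix.mul_apply, Matrix.map_apply, Fin.sum_univ_four, Matrix.of_apply, Matrix.cons_val', Matrix.cons_val, Matrix.cons_val_fin_one, Fin.mk_zero, Fin.mk_one, Fin.zero_eta, Fin.reduceFinMk, Fin.isValue, Matrix.one_apply, Fin.reduceEq, if_true, if_false, reduceIte]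
    try ring
  · simp only [Z4, g0, Matrix.mul_apply, Matrix.map_apply, Fin.sum_univ_four, Matrix.of_apply, Matrix.cons_val', Matrix.cons_val, Matrix.cons_val_fin_one, Fin.mk_zero, Fin.mk_one, Fin.zero_eta, Fin.reduceFinMk, Fin.isValue, Matrix.one_apply, Fin.reduceEq, if_true, if_false, reduceIte]
    try ring
  · simp only [Z4, g0, Matrix.mul_apply, Matrix.map_apply, Fin.sum_univ_four, Matrix.of_apply, Matrix.cons_val', Matrix.cons_val, Matrix.cons_val_fin_one, Fin.mk_zero, Fin.mk_one, Fin.zero_eta, Fin.reduceFinMk, Fin.isValue, Matrix.one_apply, Fin.reduceEq, if_true, if_false, reduceIte]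
    try ring
  · simp only [Z4, g0, Matrix.mul_apply, Matrix.map_apply, Fin.sum_univ_four, Matrix.of_apply, Matrix.cons_val', Matrix.cons_val, Matrix.cons_val_fin_one, Fin.mk_zero, Fin.mk_one, Fin.zero_eta, Fin.reduceFinMk, Fin.isValue, Matrix.one_apply, Fin.reduceEq, if_true, if_false, reduceIte]
    try ring
  · simp only [Z4, g0, Matrix.mul_apply, Matrix.map_apply, Fin.sum_univ_four, Matrix.of_apply, Matrix.cons_val', Matrix.cons_val, Matrix.cons_val_fin_one, Fin.mk_zero, Fin.mk_one, Fin.zero_eta, Fin.reduceFinMk, Fin.isValue, Matrix.one_apply, Fin.reduceEq, if_true, if_false, reduceIte]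
    try ring
  · simp only [Z4, g0, Matrix.mul_apply, Matrix.map_apply, Fin.sum_univ_four, Matrix.of_apply, Matrix.cons_val', Matrix.cons_val, Matrix.cons_val_fin_one, Fin.mk_zero, Fin.mk_one, Fin.zero_eta, Fin.reduceFinMk, Fin.isValue, Matrix.one_apply, Fin.reduceEq, if_true, if_false, reduceIte]
    try ring
  · simp only [Z4, g0, Matrix.mul_apply, Matrix.map_apply, Fin.sum_univ_four, Matrix.of_apply, Matrix.cons_val', Matrix.cons_val, Matrix.cons_val_fin_one, Fin.mk_zero, Fin.mk_one, Fin.zero_eta, Fin.reduceFinMk, Fin.isValue, Matrix.one_apply, Fin.reduceEq, if_true, if_false, reduceIte]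
    try ring

theorem g0_pow_two : g0 A ^ 2 = Z2 A := by rw [pow_two, Z2_eq]

theorem g0_pow_three : g0 A ^ 3 = Z3 A := by rw [pow_succ, g0_pow_two, Z3_eq]

theorem g0_pow_four : g0 A ^ 4 = Z4 A := by rw [pow_succ, g0_pow_three, Z4_eq]

/-- `g0` has order dividing five. -/
theorem g0_pow_five : g0 A ^ 5 = 1 := by rw [pow_succ, g0_pow_four, Z4_mul]

end General

section Der

variable {A Q : Type*} [CommRing A] [CommRing Q] (d : DerData A Q)

theorem D_zero (k : Fin 3) : d.D k 0 = 0 := by
  have h := d.add k 0 0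
  rw [add_zero] at h
  exact left_eq_add.mp h

theorem D_one (k : Fin 3) : d.D k 1 = 0 := by
  have h := d.leib k 1 1
  rw [mul_one, map_one, one_mul, mul_one] at h
  exact left_eq_add.mp h

theorem D_neg (k : Fin 3) (a : A) : d.D k (-a) = - d.D k a := by
  have h := d.add k a (-a)
  rw [add_neg_cancel, D_zero] at h
  linear_combination -h

theorem D_sub (k : Fin 3) (a b : A) : d.D k (a - b) = d.D k a - d.D k b := by
  rw [sub_eq_add_neg, d.add, D_neg, sub_eq_add_neg]

theorem D_pow4 (k : Fin 3) (a : A) : d.D k (a ^ 4) = 4 * d.q a ^ 3 * d.D k a := by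
  have e : a ^ 4 = a * (a * (a * a)) := by ring
  rw [e]
  simp only [d.leib, map_mul]
  ring

theorem D_pow5 (k : Fin 3) (a : A) : d.D k (a ^ 5) = 5 * d.q a ^ 4 * d.D k a := by
  have e : a ^ 5 = a * (a * (a * (a * a))) := by ring
  rw [e]
  simp only [d.leib, map_mul]
  ring

/-- image of `g1 ^ 1` in `Q` -/
def G1 (X T : Q) : Matrix (Fin 4) (Fin 4) Q :=
  !![0, -1, 0, X^4*T; 1, 2, 0, -2*X^4*T; 0, X, 0, -1; 0, 0, 1, 2]

/-- image of `g1 ^ 2` in `Q` -/
def G2 (X T : Q) : Matrix (Fin 4) (Fin 4) Q :=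
  !![-1, -2, X^4*T, -X^4*T; 2, -2, -2*X^4*T, -2*X^4*T; X, 2*X, -1, -2; 0, X, 2, -2]

/-- image of `g1 ^ 3` in `Q` -/
def G3 (X T : Q) : Matrix (Fin 4) (Fin 4) Q :=
  !![-2, 2, -X^4*T, 0; -2, -1, -2*X^4*T, -X^4*T; 2*X, 2*X, -2, 2; X, -X, -2, -1]

/-- image of `g1 ^ 4` in `Q` -/
def G4 (X T : Q) : Matrix (Fin 4) (Fin 4) Q :=
  !![2, 1, 0, 0; -1, 0, -X^4*T, 0; 2*X, 0, 2, 1; -X, 0, -1, 0]

/-- image of `g1 ^ 1` under `D 0` -/
def E10 (X T : Q) : Matrix (Fin 4) (Fin 4) Q :=
  !![0, 0, 0, -X^3*T; 0, 0, 0, 2*X^3*T; 0, 1, 0, 0; 0, 0, 0, 0]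

/-- image of `g1 ^ 1` under `D 1` -/
def E11 (X T : Q) : Matrix (Fin 4) (Fin 4) Q :=
  !![0, 0, 0, 0; 0, 1, 0, -X^4*T; 0, 0, 0, 0; 0, 0, 0, -1]

/-- image of `g1 ^ 1` under `D 2` -/
def E12 (X T : Q) : Matrix (Fin 4) (Fin 4) Q :=
  !![0, 0, 0, X^4; 0, 0, 0, -2*X^4; 0, 0, 0, 0; 0, 0, 0, 0]

/-- image of `g1 ^ 2` under `D 0` -/
def E20 (X T : Q) : Matrix (Fin 4) (Fin 4) Q :=
  !![0, 0, -X^3*T, X^3*T; 0, 0, 2*X^3*T, 2*X^3*T; 1, 2, 0, 0; 0, 1, 0, 0]

/-- image of `g1 ^ 2` under `D 1` -/
def E21 (X T : Q) : Matrix (Fin 4) (Fin 4) Q :=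
  !![0, -1, 0, 0; 1, -1, -X^4*T, X^4*T; 0, X, 0, 1; 0, 0, -1, 1]

/-- image of `g1 ^ 2` under `D 2` -/
def E22 (X T : Q) : Matrix (Fin 4) (Fin 4) Q :=
  !![0, 0, X^4, -X^4; 0, 0, -2*X^4, -2*X^4; 0, 0, 0, 0; 0, 0, 0, 0]

/-- image of `g1 ^ 3` under `D 0` -/
def E30 (X T : Q) : Matrix (Fin 4) (Fin 4) Q :=
  !![0, 0, X^3*T, 0; 0, 0, 2*X^3*T, X^3*T; 2, 2, 0, 0; 1, -1, 0, 0]

/-- image of `g1 ^ 3` under `D 1` -/
def E31 (X T : Q) : Matrix (Fin 4) (Fin 4) Q :=
  !![-1, 1, 0, 0; -1, 0, X^4*T, 0; X, -X, 1, -1; 0, 0, 1, 0]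

/-- image of `g1 ^ 3` under `D 2` -/
def E32 (X T : Q) : Matrix (Fin 4) (Fin 4) Q :=
  !![0, 0, -X^4, 0; 0, 0, -2*X^4, -X^4; 0, 0, 0, 0; 0, 0, 0, 0]

/-- image of `g1 ^ 4` under `D 0` -/
def E40 (X T : Q) : Matrix (Fin 4) (Fin 4) Q :=
  !![0, 0, 0, 0; 0, 0, X^3*T, 0; 2, 0, 0, 0; -1, 0, 0, 0]

/-- image of `g1 ^ 4` under `D 1` -/
def E41 (X T : Q) : Matrix (Fin 4) (Fin 4) Q :=
  !![1, 0, 0, 0; 0, 0, 0, 0; -X, 0, -1, 0; 0, 0, 0, 0]

/-- image of `g1 ^ 4` under `D 2` -/
def E42 (X T : Q) : Matrix (Fin 4) (Fin 4) Q :=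
  !![0, 0, 0, 0; 0, 0, -X^4, 0; 0, 0, 0, 0; 0, 0, 0, 0]

/-- the elements and relations used in the computation -/
structure Hyp (x z t : A) : Prop where
  rel : z ^ 2 - z - 1 = x ^ 5 * t
  qz : d.q z = 3
  five : (5 : Q) = 0
  qx : d.q x ^ 5 = 0
  h0x : d.D 0 x = 1
  h0z : d.D 0 z = 0
  h0t : d.D 0 t = 0
  h1x : d.D 1 x = 0
  h1z : d.D 1 z = 1
  h1t : d.D 1 t = 0
  h2x : d.D 2 x = 0
  h2z : d.D 2 z = 0
  h2t : d.D 2 t = 1

variable {d} {x z t : A} (H : Hyp d x z t)

include H

theorem map_q_1 : (g1 x z t).map d.q = G1 (d.q x) (d.q t) := by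
  ext i j
  fin_cases i <;> fin_cases j
  · simp only [g1, G1, Matrix.mul_apply, Matrix.map_apply, Fin.sum_univ_four, Matrix.of_apply, Matrix.cons_val', Matrix.cons_val, Matrix.cons_val_fin_one, Fin.mk_zero, Fin.mk_one, Fin.zero_eta, Fin.reduceFinMk, Fin.isValue, map_add, map_sub, map_mul, map_neg, map_pow, map_one, map_zero, H.qz]
    try linear_combination (0) * H.five + (0) * H.qx
  · simp only [g1, G1, Matrix.mul_apply, Matrix.map_apply, Fin.sum_univ_four, Matrix.of_apply, Matrix.cons_val', Matrix.cons_val, Matrix.cons_val_fin_one, Fin.mk_zero, Fin.mk_one, Fin.zero_eta, Fin.reduceFinMk, Fin.isValue, map_add, map_sub, map_mul, map_neg, map_pow, map_one, map_zero, H.qz]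
    try linear_combination (0) * H.five + (0) * H.qx
  · simp only [g1, G1, Matrix.mul_apply, Matrix.map_apply, Fin.sum_univ_four, Matrix.of_apply, Matrix.cons_val', Matrix.cons_val, Matrix.cons_val_fin_one, Fin.mk_zero, Fin.mk_one, Fin.zero_eta, Fin.reduceFinMk, Fin.isValue, map_add, map_sub, map_mul, map_neg, map_pow, map_one, map_zero, H.qz]
    try linear_combination (0) * H.five + (0) * H.qx
  · simp only [g1, G1, Matrix.mul_apply, Matrix.map_apply, Fin.sum_univ_four, Matrix.of_apply, Matrix.cons_val', Matrix.cons_val, Matrix.cons_val_fin_one, Fin.mk_zero, Fin.mk_one, Fin.zero_eta, Fin.reduceFinMk, Fin.isValue, map_add, map_sub, map_mul, map_neg, map_pow, map_one, map_zero, H.qz]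
    try linear_combination (0) * H.five + (0) * H.qx
  · simp only [g1, G1, Matrix.mul_apply, Matrix.map_apply, Fin.sum_univ_four, Matrix.of_apply, Matrix.cons_val', Matrix.cons_val, Matrix.cons_val_fin_one, Fin.mk_zero, Fin.mk_one, Fin.zero_eta, Fin.reduceFinMk, Fin.isValue, map_add, map_sub, map_mul, map_neg, map_pow, map_one, map_zero, H.qz]
    try linear_combination (0) * H.five + (0) * H.qx
  · simp only [g1, G1, Matrix.mul_apply, Matrix.map_apply, Fin.sum_univ_four, Matrix.of_apply, Matrix.cons_val', Matrix.cons_val, Matrix.cons_val_fin_one, Fin.mk_zero, Fin.mk_one, Fin.zero_eta, Fin.reduceFinMk, Fin.isValue, map_add, map_sub, map_mul, map_neg, map_pow, map_one, map_zero, H.qz]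
    try linear_combination (0) * H.five + (0) * H.qx
  · simp only [g1, G1, Matrix.mul_apply, Matrix.map_apply, Fin.sum_univ_four, Matrix.of_apply, Matrix.cons_val', Matrix.cons_val, Matrix.cons_val_fin_one, Fin.mk_zero, Fin.mk_one, Fin.zero_eta, Fin.reduceFinMk, Fin.isValue, map_add, map_sub, map_mul, map_neg, map_pow, map_one, map_zero, H.qz]
    try linear_combination (0) * H.five + (0) * H.qx
  · simp only [g1, G1, Matrix.mul_apply, Matrix.map_apply, Fin.sum_univ_four, Matrix.of_apply, Matrix.cons_val', Matrix.cons_val, Matrix.cons_val_fin_one, Fin.mk_zero, Fin.mk_one, Fin.zero_eta, Fin.reduceFinMk, Fin.isValue, map_add, map_sub, map_mul, map_neg, map_pow, map_one, map_zero, H.qz]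
    try linear_combination (0) * H.five + (0) * H.qx
  · simp only [g1, G1, Matrix.mul_apply, Matrix.map_apply, Fin.sum_univ_four, Matrix.of_apply, Matrix.cons_val', Matrix.cons_val, Matrix.cons_val_fin_one, Fin.mk_zero, Fin.mk_one, Fin.zero_eta, Fin.reduceFinMk, Fin.isValue, map_add, map_sub, map_mul, map_neg, map_pow, map_one, map_zero, H.qz]
    try linear_combination (0) * H.five + (0) * H.qx
  · simp only [g1, G1, Matrix.mul_apply, Matrix.map_apply, Fin.sum_univ_four, Matrix.of_apply, Matrix.cons_val', Matrix.cons_val, Matrix.cons_val_fin_one, Fin.mk_zero, Fin.mk_one, Fin.zero_eta, Fin.reduceFinMk, Fin.isValue, map_add, map_sub, map_mul, map_neg, map_pow, map_one, map_zero, H.qz]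
    try linear_combination (0) * H.five + (0) * H.qx
  · simp only [g1, G1, Matrix.mul_apply, Matrix.map_apply, Fin.sum_univ_four, Matrix.of_apply, Matrix.cons_val', Matrix.cons_val, Matrix.cons_val_fin_one, Fin.mk_zero, Fin.mk_one, Fin.zero_eta, Fin.reduceFinMk, Fin.isValue, map_add, map_sub, map_mul, map_neg, map_pow, map_one, map_zero, H.qz]
    try linear_combination (0) * H.five + (0) * H.qx
  · simp only [g1, G1, Matrix.mul_apply, Matrix.map_apply, Fin.sum_univ_four, Matrix.of_apply, Matrix.cons_val', Matrix.cons_val, Matrix.cons_val_fin_one, Fin.mk_zero, Fin.mk_one, Fin.zero_eta, Fin.reduceFinMk, Fin.isValue, map_add, map_sub, map_mul, map_neg, map_pow, map_one, map_zero, H.qz]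
    try linear_combination (0) * H.five + (-d.q t) * H.qx
  · simp only [g1, G1, Matrix.mul_apply, Matrix.map_apply, Fin.sum_univ_four, Matrix.of_apply, Matrix.cons_val', Matrix.cons_val, Matrix.cons_val_fin_one, Fin.mk_zero, Fin.mk_one, Fin.zero_eta, Fin.reduceFinMk, Fin.isValue, map_add, map_sub, map_mul, map_neg, map_pow, map_one, map_zero, H.qz]
    try linear_combination (0) * H.five + (0) * H.qx
  · simp only [g1, G1, Matrix.mul_apply, Matrix.map_apply, Fin.sum_univ_four, Matrix.of_apply, Matrix.cons_val', Matrix.cons_val, Matrix.cons_val_fin_one, Fin.mk_zero, Fin.mk_one, Fin.zero_eta, Fin.reduceFinMk, Fin.isValue, map_add, map_sub, map_mul, map_neg, map_pow, map_one, map_zero, H.qz]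
    try linear_combination (0) * H.five + (0) * H.qx
  · simp only [g1, G1, Matrix.mul_apply, Matrix.map_apply, Fin.sum_univ_four, Matrix.of_apply, Matrix.cons_val', Matrix.cons_val, Matrix.cons_val_fin_one, Fin.mk_zero, Fin.mk_one, Fin.zero_eta, Fin.reduceFinMk, Fin.isValue, map_add, map_sub, map_mul, map_neg, map_pow, map_one, map_zero, H.qz]
    try linear_combination (0) * H.five + (0) * H.qx
  · simp only [g1, G1, Matrix.mul_apply, Matrix.map_apply, Fin.sum_univ_four, Matrix.of_apply, Matrix.cons_val', Matrix.cons_val, Matrix.cons_val_fin_one, Fin.mk_zero, Fin.mk_one, Fin.zero_eta, Fin.reduceFinMk, Fin.isValue, map_add, map_sub, map_mul, map_neg, map_pow, map_one, map_zero, H.qz]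
    try linear_combination (-1) * H.five + (0) * H.qx

theorem map_D_1_0 : (g1 x z t).map (d.D 0) = E10 (d.q x) (d.q t) := by
  ext i j
  fin_cases i <;> fin_cases j
  · simp only [g1, E10, Matrix.mul_apply, Matrix.map_apply, Fin.sum_univ_four, Matrix.of_apply, Matrix.cons_val', Matrix.cons_val, Matrix.cons_val_fin_one, Fin.mk_zero, Fin.mk_one, Fin.zero_eta, Fin.reduceFinMk, Fin.isValue, map_add, map_sub, map_mul, map_neg, map_pow, map_one, map_zero, H.qz, d.add, D_sub, D_neg, d.leib, D_pow4, D_pow5, D_one, D_zero, H.h0x, H.h0z, H.h0t]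
    try linear_combination (0) * H.five + (0) * H.qx
  · simp only [g1, E10, Matrix.mul_apply, Matrix.map_apply, Fin.sum_univ_four, Matrix.of_apply, Matrix.cons_val', Matrix.cons_val, Matrix.cons_val_fin_one, Fin.mk_zero, Fin.mk_one, Fin.zero_eta, Fin.reduceFinMk, Fin.isValue, map_add, map_sub, map_mul, map_neg, map_pow, map_one, map_zero, H.qz, d.add, D_sub, D_neg, d.leib, D_pow4, D_pow5, D_one, D_zero, H.h0x, H.h0z, H.h0t]
    try linear_combination (0) * H.five + (0) * H.qx
  · simp only [g1, E10, Matrix.mul_apply, Matrix.map_apply, Fin.sum_univ_four, Matrix.of_apply, Matrix.cons_val', Matrix.cons_val, Matrix.cons_val_fin_one, Fin.mk_zero, Fin.mk_one, Fin.zero_eta, Fin.reduceFinMk, Fin.isValue, map_add, map_sub, map_mul, map_neg, map_pow, map_one, map_zero, H.qz, d.add, D_sub, D_neg, d.leib, D_pow4, D_pow5, D_one, D_zero, H.h0x, H.h0z, H.h0t]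
    try linear_combination (0) * H.five + (0) * H.qx
  · simp only [g1, E10, Matrix.mul_apply, Matrix.map_apply, Fin.sum_univ_four, Matrix.of_apply, Matrix.cons_val', Matrix.cons_val, Matrix.cons_val_fin_one, Fin.mk_zero, Fin.mk_one, Fin.zero_eta, Fin.reduceFinMk, Fin.isValue, map_add, map_sub, map_mul, map_neg, map_pow, map_one, map_zero, H.qz, d.add, D_sub, D_neg, d.leib, D_pow4, D_pow5, D_one, D_zero, H.h0x, H.h0z, H.h0t]
    try linear_combination (d.q x^3*d.q t) * H.five + (0) * H.qx
  · simp only [g1, E10, Matrix.mul_apply, Matrix.map_apply, Fin.sum_univ_four, Matrix.of_apply, Matrix.cons_val', Matrix.cons_val, Matrix.cons_val_fin_one, Fin.mk_zero, Fin.mk_one, Fin.zero_eta, Fin.reduceFinMk, Fin.isValue, map_add, map_sub, map_mul, map_neg, map_pow, map_one, map_zero, H.qz, d.add, D_sub, D_neg, d.leib, D_pow4, D_pow5, D_one, D_zero, H.h0x, H.h0z, H.h0t]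
    try linear_combination (0) * H.five + (0) * H.qx
  · simp only [g1, E10, Matrix.mul_apply, Matrix.map_apply, Fin.sum_univ_four, Matrix.of_apply, Matrix.cons_val', Matrix.cons_val, Matrix.cons_val_fin_one, Fin.mk_zero, Fin.mk_one, Fin.zero_eta, Fin.reduceFinMk, Fin.isValue, map_add, map_sub, map_mul, map_neg, map_pow, map_one, map_zero, H.qz, d.add, D_sub, D_neg, d.leib, D_pow4, D_pow5, D_one, D_zero, H.h0x, H.h0z, H.h0t]
    try linear_combination (0) * H.five + (0) * H.qx
  · simp only [g1, E10, Matrix.mul_apply, Matrix.map_apply, Fin.sum_univ_four, Matrix.of_apply, Matrix.cons_val', Matrix.cons_val, Matrix.cons_val_fin_one, Fin.mk_zero, Fin.mk_one, Fin.zero_eta, Fin.reduceFinMk, Fin.isValue, map_add, map_sub, map_mul, map_neg, map_pow, map_one, map_zero, H.qz, d.add, D_sub, D_neg, d.leib, D_pow4, D_pow5, D_one, D_zero, H.h0x, H.h0z, H.h0t]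
    try linear_combination (0) * H.five + (0) * H.qx
  · simp only [g1, E10, Matrix.mul_apply, Matrix.map_apply, Fin.sum_univ_four, Matrix.of_apply, Matrix.cons_val', Matrix.cons_val, Matrix.cons_val_fin_one, Fin.mk_zero, Fin.mk_one, Fin.zero_eta, Fin.reduceFinMk, Fin.isValue, map_add, map_sub, map_mul, map_neg, map_pow, map_one, map_zero, H.qz, d.add, D_sub, D_neg, d.leib, D_pow4, D_pow5, D_one, D_zero, H.h0x, H.h0z, H.h0t]
    try linear_combination (-2*d.q x^3*d.q t) * H.five + (0) * H.qx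
  · simp only [g1, E10, Matrix.mul_apply, Matrix.map_apply, Fin.sum_univ_four, Matrix.of_apply, Matrix.cons_val', Matrix.cons_val, Matrix.cons_val_fin_one, Fin.mk_zero, Fin.mk_one, Fin.zero_eta, Fin.reduceFinMk, Fin.isValue, map_add, map_sub, map_mul, map_neg, map_pow, map_one, map_zero, H.qz, d.add, D_sub, D_neg, d.leib, D_pow4, D_pow5, D_one, D_zero, H.h0x, H.h0z, H.h0t]
    try linear_combination (0) * H.five + (0) * H.qx
  · simp only [g1, E10, Matrix.mul_apply, Matrix.map_apply, Fin.sum_univ_four, Matrix.of_apply, Matrix.cons_val', Matrix.cons_val, Matrix.cons_val_fin_one, Fin.mk_zero, Fin.mk_one, Fin.zero_eta, Fin.reduceFinMk, Fin.isValue, map_add, map_sub, map_mul, map_neg, map_pow, map_one, map_zero, H.qz, d.add, D_sub, D_neg, d.leib, D_pow4, D_pow5, D_one, D_zero, H.h0x, H.h0z, H.h0t]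
    try linear_combination (0) * H.five + (0) * H.qx
  · simp only [g1, E10, Matrix.mul_apply, Matrix.map_apply, Fin.sum_univ_four, Matrix.of_apply, Matrix.cons_val', Matrix.cons_val, Matrix.cons_val_fin_one, Fin.mk_zero, Fin.mk_one, Fin.zero_eta, Fin.reduceFinMk, Fin.isValue, map_add, map_sub, map_mul, map_neg, map_pow, map_one, map_zero, H.qz, d.add, D_sub, D_neg, d.leib, D_pow4, D_pow5, D_one, D_zero, H.h0x, H.h0z, H.h0t]
    try linear_combination (0) * H.five + (0) * H.qx
  · simp only [g1, E10, Matrix.mul_apply, Matrix.map_apply, Fin.sum_univ_four, Matrix.of_apply, Matrix.cons_val', Matrix.cons_val, Matrix.cons_val_fin_one, Fin.mk_zero, Fin.mk_one, Fin.zero_eta, Fin.reduceFinMk, Fin.isValue, map_add, map_sub, map_mul, map_neg, map_pow, map_one, map_zero, H.qz, d.add, D_sub, D_neg, d.leib, D_pow4, D_pow5, D_one, D_zero, H.h0x, H.h0z, H.h0t]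
    try linear_combination (-d.q x^4*d.q t) * H.five + (0) * H.qx
  · simp only [g1, E10, Matrix.mul_apply, Matrix.map_apply, Fin.sum_univ_four, Matrix.of_apply, Matrix.cons_val', Matrix.cons_val, Matrix.cons_val_fin_one, Fin.mk_zero, Fin.mk_one, Fin.zero_eta, Fin.reduceFinMk, Fin.isValue, map_add, map_sub, map_mul, map_neg, map_pow, map_one, map_zero, H.qz, d.add, D_sub, D_neg, d.leib, D_pow4, D_pow5, D_one, D_zero, H.h0x, H.h0z, H.h0t]
    try linear_combination (0) * H.five + (0) * H.qx
  · simp only [g1, E10, Matrix.mul_apply, Matrix.map_apply, Fin.sum_univ_four, Matrix.of_apply, Matrix.cons_val', Matrix.cons_val, Matrix.cons_val_fin_one, Fin.mk_zero, Fin.mk_one, Fin.zero_eta, Fin.reduceFinMk, Fin.isValue, map_add, map_sub, map_mul, map_neg, map_pow, map_one, map_zero, H.qz, d.add, D_sub, D_neg, d.leib, D_pow4, D_pow5, D_one, D_zero, H.h0x, H.h0z, H.h0t]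
    try linear_combination (0) * H.five + (0) * H.qx
  · simp only [g1, E10, Matrix.mul_apply, Matrix.map_apply, Fin.sum_univ_four, Matrix.of_apply, Matrix.cons_val', Matrix.cons_val, Matrix.cons_val_fin_one, Fin.mk_zero, Fin.mk_one, Fin.zero_eta, Fin.reduceFinMk, Fin.isValue, map_add, map_sub, map_mul, map_neg, map_pow, map_one, map_zero, H.qz, d.add, D_sub, D_neg, d.leib, D_pow4, D_pow5, D_one, D_zero, H.h0x, H.h0z, H.h0t]
    try linear_combination (0) * H.five + (0) * H.qx
  · simp only [g1, E10, Matrix.mul_apply, Matrix.map_apply, Fin.sum_univ_four, Matrix.of_apply, Matrix.cons_val', Matrix.cons_val, Matrix.cons_val_fin_one, Fin.mk_zero, Fin.mk_one, Fin.zero_eta, Fin.reduceFinMk, Fin.isValue, map_add, map_sub, map_mul, map_neg, map_pow, map_one, map_zero, H.qz, d.add, D_sub, D_neg, d.leib, D_pow4, D_pow5, D_one, D_zero, H.h0x, H.h0z, H.h0t]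
    try linear_combination (0) * H.five + (0) * H.qx

theorem map_D_1_1 : (g1 x z t).map (d.D 1) = E11 (d.q x) (d.q t) := by
  ext i j
  fin_cases i <;> fin_cases j
  · simp only [g1, E11, Matrix.mul_apply, Matrix.map_apply, Fin.sum_univ_four, Matrix.of_apply, Matrix.cons_val', Matrix.cons_val, Matrix.cons_val_fin_one, Fin.mk_zero, Fin.mk_one, Fin.zero_eta, Fin.reduceFinMk, Fin.isValue, map_add, map_sub, map_mul, map_neg, map_pow, map_one, map_zero, H.qz, d.add, D_sub, D_neg, d.leib, D_pow4, D_pow5, D_one, D_zero, H.h1x, H.h1z, H.h1t]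
    try linear_combination (0) * H.five + (0) * H.qx
  · simp only [g1, E11, Matrix.mul_apply, Matrix.map_apply, Fin.sum_univ_four, Matrix.of_apply, Matrix.cons_val', Matrix.cons_val, Matrix.cons_val_fin_one, Fin.mk_zero, Fin.mk_one, Fin.zero_eta, Fin.reduceFinMk, Fin.isValue, map_add, map_sub, map_mul, map_neg, map_pow, map_one, map_zero, H.qz, d.add, D_sub, D_neg, d.leib, D_pow4, D_pow5, D_one, D_zero, H.h1x, H.h1z, H.h1t]
    try linear_combination (0) * H.five + (0) * H.qx
  · simp only [g1, E11, Matrix.mul_apply, Matrix.map_apply, Fin.sum_univ_four, Matrix.of_apply, Matrix.cons_val', Matrix.cons_val, Matrix.cons_val_fin_one, Fin.mk_zero, Fin.mk_one, Fin.zero_eta, Fin.reduceFinMk, Fin.isValue, map_add, map_sub, map_mul, map_neg, map_pow, map_one, map_zero, H.qz, d.add, D_sub, D_neg, d.leib, D_pow4, D_pow5, D_one, D_zero, H.h1x, H.h1z, H.h1t]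
    try linear_combination (0) * H.five + (0) * H.qx
  · simp only [g1, E11, Matrix.mul_apply, Matrix.map_apply, Fin.sum_univ_four, Matrix.of_apply, Matrix.cons_val', Matrix.cons_val, Matrix.cons_val_fin_one, Fin.mk_zero, Fin.mk_one, Fin.zero_eta, Fin.reduceFinMk, Fin.isValue, map_add, map_sub, map_mul, map_neg, map_pow, map_one, map_zero, H.qz, d.add, D_sub, D_neg, d.leib, D_pow4, D_pow5, D_one, D_zero, H.h1x, H.h1z, H.h1t]
    try linear_combination (0) * H.five + (0) * H.qx
  · simp only [g1, E11, Matrix.mul_apply, Matrix.map_apply, Fin.sum_univ_four, Matrix.of_apply, Matrix.cons_val', Matrix.cons_val, Matrix.cons_val_fin_one, Fin.mk_zero, Fin.mk_one, Fin.zero_eta, Fin.reduceFinMk, Fin.isValue, map_add, map_sub, map_mul, map_neg, map_pow, map_one, map_zero, H.qz, d.add, D_sub, D_neg, d.leib, D_pow4, D_pow5, D_one, D_zero, H.h1x, H.h1z, H.h1t]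
    try linear_combination (0) * H.five + (0) * H.qx
  · simp only [g1, E11, Matrix.mul_apply, Matrix.map_apply, Fin.sum_univ_four, Matrix.of_apply, Matrix.cons_val', Matrix.cons_val, Matrix.cons_val_fin_one, Fin.mk_zero, Fin.mk_one, Fin.zero_eta, Fin.reduceFinMk, Fin.isValue, map_add, map_sub, map_mul, map_neg, map_pow, map_one, map_zero, H.qz, d.add, D_sub, D_neg, d.leib, D_pow4, D_pow5, D_one, D_zero, H.h1x, H.h1z, H.h1t]
    try linear_combination (0) * H.five + (0) * H.qx
  · simp only [g1, E11, Matrix.mul_apply, Matrix.map_apply, Fin.sum_univ_four, Matrix.of_apply, Matrix.cons_val', Matrix.cons_val, Matrix.cons_val_fin_one, Fin.mk_zero, Fin.mk_one, Fin.zero_eta, Fin.reduceFinMk, Fin.isValue, map_add, map_sub, map_mul, map_neg, map_pow, map_one, map_zero, H.qz, d.add, D_sub, D_neg, d.leib, D_pow4, D_pow5, D_one, D_zero, H.h1x, H.h1z, H.h1t]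
    try linear_combination (0) * H.five + (0) * H.qx
  · simp only [g1, E11, Matrix.mul_apply, Matrix.map_apply, Fin.sum_univ_four, Matrix.of_apply, Matrix.cons_val', Matrix.cons_val, Matrix.cons_val_fin_one, Fin.mk_zero, Fin.mk_one, Fin.zero_eta, Fin.reduceFinMk, Fin.isValue, map_add, map_sub, map_mul, map_neg, map_pow, map_one, map_zero, H.qz, d.add, D_sub, D_neg, d.leib, D_pow4, D_pow5, D_one, D_zero, H.h1x, H.h1z, H.h1t]
    try linear_combination (0) * H.five + (0) * H.qx
  · simp only [g1, E11, Matrix.mul_apply, Matrix.map_apply, Fin.sum_univ_four, Matrix.of_apply, Matrix.cons_val', Matrix.cons_val, Matrix.cons_val_fin_one, Fin.mk_zero, Fin.mk_one, Fin.zero_eta, Fin.reduceFinMk, Fin.isValue, map_add, map_sub, map_mul, map_neg, map_pow, map_one, map_zero, H.qz, d.add, D_sub, D_neg, d.leib, D_pow4, D_pow5, D_one, D_zero, H.h1x, H.h1z, H.h1t]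
    try linear_combination (0) * H.five + (0) * H.qx
  · simp only [g1, E11, Matrix.mul_apply, Matrix.map_apply, Fin.sum_univ_four, Matrix.of_apply, Matrix.cons_val', Matrix.cons_val, Matrix.cons_val_fin_one, Fin.mk_zero, Fin.mk_one, Fin.zero_eta, Fin.reduceFinMk, Fin.isValue, map_add, map_sub, map_mul, map_neg, map_pow, map_one, map_zero, H.qz, d.add, D_sub, D_neg, d.leib, D_pow4, D_pow5, D_one, D_zero, H.h1x, H.h1z, H.h1t]
    try linear_combination (0) * H.five + (0) * H.qx
  · simp only [g1, E11, Matrix.mul_apply, Matrix.map_apply, Fin.sum_univ_four, Matrix.of_apply, Matrix.cons_val', Matrix.cons_val, Matrix.cons_val_fin_one, Fin.mk_zero, Fin.mk_one, Fin.zero_eta, Fin.reduceFinMk, Fin.isValue, map_add, map_sub, map_mul, map_neg, map_pow, map_one, map_zero, H.qz, d.add, D_sub, D_neg, d.leib, D_pow4, D_pow5, D_one, D_zero, H.h1x, H.h1z, H.h1t]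
    try linear_combination (0) * H.five + (0) * H.qx
  · simp only [g1, E11, Matrix.mul_apply, Matrix.map_apply, Fin.sum_univ_four, Matrix.of_apply, Matrix.cons_val', Matrix.cons_val, Matrix.cons_val_fin_one, Fin.mk_zero, Fin.mk_one, Fin.zero_eta, Fin.reduceFinMk, Fin.isValue, map_add, map_sub, map_mul, map_neg, map_pow, map_one, map_zero, H.qz, d.add, D_sub, D_neg, d.leib, D_pow4, D_pow5, D_one, D_zero, H.h1x, H.h1z, H.h1t]
    try linear_combination (0) * H.five + (0) * H.qx
  · simp only [g1, E11, Matrix.mul_apply, Matrix.map_apply, Fin.sum_univ_four, Matrix.of_apply, Matrix.cons_val', Matrix.cons_val, Matrix.cons_val_fin_one, Fin.mk_zero, Fin.mk_one, Fin.zero_eta, Fin.reduceFinMk, Fin.isValue, map_add, map_sub, map_mul, map_neg, map_pow, map_one, map_zero, H.qz, d.add, D_sub, D_neg, d.leib, D_pow4, D_pow5, D_one, D_zero, H.h1x, H.h1z, H.h1t]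
    try linear_combination (0) * H.five + (0) * H.qx
  · simp only [g1, E11, Matrix.mul_apply, Matrix.map_apply, Fin.sum_univ_four, Matrix.of_apply, Matrix.cons_val', Matrix.cons_val, Matrix.cons_val_fin_one, Fin.mk_zero, Fin.mk_one, Fin.zero_eta, Fin.reduceFinMk, Fin.isValue, map_add, map_sub, map_mul, map_neg, map_pow, map_one, map_zero, H.qz, d.add, D_sub, D_neg, d.leib, D_pow4, D_pow5, D_one, D_zero, H.h1x, H.h1z, H.h1t]
    try linear_combination (0) * H.five + (0) * H.qx
  · simp only [g1, E11, Matrix.mul_apply, Matrix.map_apply, Fin.sum_univ_four, Matrix.of_apply, Matrix.cons_val', Matrix.cons_val, Matrix.cons_val_fin_one, Fin.mk_zero, Fin.mk_one, Fin.zero_eta, Fin.reduceFinMk, Fin.isValue, map_add, map_sub, map_mul, map_neg, map_pow, map_one, map_zero, H.qz, d.add, D_sub, D_neg, d.leib, D_pow4, D_pow5, D_one, D_zero, H.h1x, H.h1z, H.h1t]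
    try linear_combination (0) * H.five + (0) * H.qx
  · simp only [g1, E11, Matrix.mul_apply, Matrix.map_apply, Fin.sum_univ_four, Matrix.of_apply, Matrix.cons_val', Matrix.cons_val, Matrix.cons_val_fin_one, Fin.mk_zero, Fin.mk_one, Fin.zero_eta, Fin.reduceFinMk, Fin.isValue, map_add, map_sub, map_mul, map_neg, map_pow, map_one, map_zero, H.qz, d.add, D_sub, D_neg, d.leib, D_pow4, D_pow5, D_one, D_zero, H.h1x, H.h1z, H.h1t]
    try linear_combination (0) * H.five + (0) * H.qx

theorem map_D_1_2 : (g1 x z t).map (d.D 2) = E12 (d.q x) (d.q t) := by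
  ext i j
  fin_cases i <;> fin_cases j
  · simp only [g1, E12, Matrix.mul_apply, Matrix.map_apply, Fin.sum_univ_four, Matrix.of_apply, Matrix.cons_val', Matrix.cons_val, Matrix.cons_val_fin_one, Fin.mk_zero, Fin.mk_one, Fin.zero_eta, Fin.reduceFinMk, Fin.isValue, map_add, map_sub, map_mul, map_neg, map_pow, map_one, map_zero, H.qz, d.add, D_sub, D_neg, d.leib, D_pow4, D_pow5, D_one, D_zero, H.h2x, H.h2z, H.h2t]
    try linear_combination (0) * H.five + (0) * H.qx
  · simp only [g1, E12, Matrix.mul_apply, Matrix.map_apply, Fin.sum_univ_four, Matrix.of_apply, Matrix.cons_val', Matrix.cons_val, Matrix.cons_val_fin_one, Fin.mk_zero, Fin.mk_one, Fin.zero_eta, Fin.reduceFinMk, Fin.isValue, map_add, map_sub, map_mul, map_neg, map_pow, map_one, map_zero, H.qz, d.add, D_sub, D_neg, d.leib, D_pow4, D_pow5, D_one, D_zero, H.h2x, H.h2z, H.h2t]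
    try linear_combination (0) * H.five + (0) * H.qx
  · simp only [g1, E12, Matrix.mul_apply, Matrix.map_apply, Fin.sum_univ_four, Matrix.of_apply, Matrix.cons_val', Matrix.cons_val, Matrix.cons_val_fin_one, Fin.mk_zero, Fin.mk_one, Fin.zero_eta, Fin.reduceFinMk, Fin.isValue, map_add, map_sub, map_mul, map_neg, map_pow, map_one, map_zero, H.qz, d.add, D_sub, D_neg, d.leib, D_pow4, D_pow5, D_one, D_zero, H.h2x, H.h2z, H.h2t]
    try linear_combination (0) * H.five + (0) * H.qx
  · simp only [g1, E12, Matrix.mul_apply, Matrix.map_apply, Fin.sum_univ_four, Matrix.of_apply, Matrix.cons_val', Matrix.cons_val, Matrix.cons_val_fin_one, Fin.mk_zero, Fin.mk_one, Fin.zero_eta, Fin.reduceFinMk, Fin.isValue, map_add, map_sub, map_mul, map_neg, map_pow, map_one, map_zero, H.qz, d.add, D_sub, D_neg, d.leib, D_pow4, D_pow5, D_one, D_zero, H.h2x, H.h2z, H.h2t]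
    try linear_combination (0) * H.five + (0) * H.qx
  · simp only [g1, E12, Matrix.mul_apply, Matrix.map_apply, Fin.sum_univ_four, Matrix.of_apply, Matrix.cons_val', Matrix.cons_val, Matrix.cons_val_fin_one, Fin.mk_zero, Fin.mk_one, Fin.zero_eta, Fin.reduceFinMk, Fin.isValue, map_add, map_sub, map_mul, map_neg, map_pow, map_one, map_zero, H.qz, d.add, D_sub, D_neg, d.leib, D_pow4, D_pow5, D_one, D_zero, H.h2x, H.h2z, H.h2t]
    try linear_combination (0) * H.five + (0) * H.qx
  · simp only [g1, E12, Matrix.mul_apply, Matrix.map_apply, Fin.sum_univ_four, Matrix.of_apply, Matrix.cons_val', Matrix.cons_val, Matrix.cons_val_fin_one, Fin.mk_zero, Fin.mk_one, Fin.zero_eta, Fin.reduceFinMk, Fin.isValue, map_add, map_sub, map_mul, map_neg, map_pow, map_one, map_zero, H.qz, d.add, D_sub, D_neg, d.leib, D_pow4, D_pow5, D_one, D_zero, H.h2x, H.h2z, H.h2t]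
    try linear_combination (0) * H.five + (0) * H.qx
  · simp only [g1, E12, Matrix.mul_apply, Matrix.map_apply, Fin.sum_univ_four, Matrix.of_apply, Matrix.cons_val', Matrix.cons_val, Matrix.cons_val_fin_one, Fin.mk_zero, Fin.mk_one, Fin.zero_eta, Fin.reduceFinMk, Fin.isValue, map_add, map_sub, map_mul, map_neg, map_pow, map_one, map_zero, H.qz, d.add, D_sub, D_neg, d.leib, D_pow4, D_pow5, D_one, D_zero, H.h2x, H.h2z, H.h2t]
    try linear_combination (0) * H.five + (0) * H.qx
  · simp only [g1, E12, Matrix.mul_apply, Matrix.map_apply, Fin.sum_univ_four, Matrix.of_apply, Matrix.cons_val', Matrix.cons_val, Matrix.cons_val_fin_one, Fin.mk_zero, Fin.mk_one, Fin.zero_eta, Fin.reduceFinMk, Fin.isValue, map_add, map_sub, map_mul, map_neg, map_pow, map_one, map_zero, H.qz, d.add, D_sub, D_neg, d.leib, D_pow4, D_pow5, D_one, D_zero, H.h2x, H.h2z, H.h2t]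
    try linear_combination (0) * H.five + (0) * H.qx
  · simp only [g1, E12, Matrix.mul_apply, Matrix.map_apply, Fin.sum_univ_four, Matrix.of_apply, Matrix.cons_val', Matrix.cons_val, Matrix.cons_val_fin_one, Fin.mk_zero, Fin.mk_one, Fin.zero_eta, Fin.reduceFinMk, Fin.isValue, map_add, map_sub, map_mul, map_neg, map_pow, map_one, map_zero, H.qz, d.add, D_sub, D_neg, d.leib, D_pow4, D_pow5, D_one, D_zero, H.h2x, H.h2z, H.h2t]
    try linear_combination (0) * H.five + (0) * H.qx
  · simp only [g1, E12, Matrix.mul_apply, Matrix.map_apply, Fin.sum_univ_four, Matrix.of_apply, Matrix.cons_val', Matrix.cons_val, Matrix.cons_val_fin_one, Fin.mk_zero, Fin.mk_one, Fin.zero_eta, Fin.reduceFinMk, Fin.isValue, map_add, map_sub, map_mul, map_neg, map_pow, map_one, map_zero, H.qz, d.add, D_sub, D_neg, d.leib, D_pow4, D_pow5, D_one, D_zero, H.h2x, H.h2z, H.h2t]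
    try linear_combination (0) * H.five + (0) * H.qx
  · simp only [g1, E12, Matrix.mul_apply, Matrix.map_apply, Fin.sum_univ_four, Matrix.of_apply, Matrix.cons_val', Matrix.cons_val, Matrix.cons_val_fin_one, Fin.mk_zero, Fin.mk_one, Fin.zero_eta, Fin.reduceFinMk, Fin.isValue, map_add, map_sub, map_mul, map_neg, map_pow, map_one, map_zero, H.qz, d.add, D_sub, D_neg, d.leib, D_pow4, D_pow5, D_one, D_zero, H.h2x, H.h2z, H.h2t]
    try linear_combination (0) * H.five + (0) * H.qx
  · simp only [g1, E12, Matrix.mul_apply, Matrix.map_apply, Fin.sum_univ_four, Matrix.of_apply, Matrix.cons_val', Matrix.cons_val, Matrix.cons_val_fin_one, Fin.mk_zero, Fin.mk_one, Fin.zero_eta, Fin.reduceFinMk, Fin.isValue, map_add, map_sub, map_mul, map_neg, map_pow, map_one, map_zero, H.qz, d.add, D_sub, D_neg, d.leib, D_pow4, D_pow5, D_one, D_zero, H.h2x, H.h2z, H.h2t]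
    try linear_combination (0) * H.five + (-1) * H.qx
  · simp only [g1, E12, Matrix.mul_apply, Matrix.map_apply, Fin.sum_univ_four, Matrix.of_apply, Matrix.cons_val', Matrix.cons_val, Matrix.cons_val_fin_one, Fin.mk_zero, Fin.mk_one, Fin.zero_eta, Fin.reduceFinMk, Fin.isValue, map_add, map_sub, map_mul, map_neg, map_pow, map_one, map_zero, H.qz, d.add, D_sub, D_neg, d.leib, D_pow4, D_pow5, D_one, D_zero, H.h2x, H.h2z, H.h2t]
    try linear_combination (0) * H.five + (0) * H.qx
  · simp only [g1, E12, Matrix.mul_apply, Matrix.map_apply, Fin.sum_univ_four, Matrix.of_apply, Matrix.cons_val', Matrix.cons_val, Matrix.cons_val_fin_one, Fin.mk_zero, Fin.mk_one, Fin.zero_eta, Fin.reduceFinMk, Fin.isValue, map_add, map_sub, map_mul, map_neg, map_pow, map_one, map_zero, H.qz, d.add, D_sub, D_neg, d.leib, D_pow4, D_pow5, D_one, D_zero, H.h2x, H.h2z, H.h2t]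
    try linear_combination (0) * H.five + (0) * H.qx
  · simp only [g1, E12, Matrix.mul_apply, Matrix.map_apply, Fin.sum_univ_four, Matrix.of_apply, Matrix.cons_val', Matrix.cons_val, Matrix.cons_val_fin_one, Fin.mk_zero, Fin.mk_one, Fin.zero_eta, Fin.reduceFinMk, Fin.isValue, map_add, map_sub, map_mul, map_neg, map_pow, map_one, map_zero, H.qz, d.add, D_sub, D_neg, d.leib, D_pow4, D_pow5, D_one, D_zero, H.h2x, H.h2z, H.h2t]
    try linear_combination (0) * H.five + (0) * H.qx
  · simp only [g1, E12, Matrix.mul_apply, Matrix.map_apply, Fin.sum_univ_four, Matrix.of_apply, Matrix.cons_val', Matrix.cons_val, Matrix.cons_val_fin_one, Fin.mk_zero, Fin.mk_one, Fin.zero_eta, Fin.reduceFinMk, Fin.isValue, map_add, map_sub, map_mul, map_neg, map_pow, map_one, map_zero, H.qz, d.add, D_sub, D_neg, d.leib, D_pow4, D_pow5, D_one, D_zero, H.h2x, H.h2z, H.h2t]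
    try linear_combination (0) * H.five + (0) * H.qx

theorem map_q_2 : (P2 x z t).map d.q = G2 (d.q x) (d.q t) := by
  ext i j
  fin_cases i <;> fin_cases j
  · simp only [P2, G2, Matrix.mul_apply, Matrix.map_apply, Fin.sum_univ_four, Matrix.of_apply, Matrix.cons_val', Matrix.cons_val, Matrix.cons_val_fin_one, Fin.mk_zero, Fin.mk_one, Fin.zero_eta, Fin.reduceFinMk, Fin.isValue, map_add, map_sub, map_mul, map_neg, map_pow, map_one, map_zero, H.qz]
    try linear_combination (0) * H.five + (0) * H.qx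
  · simp only [P2, G2, Matrix.mul_apply, Matrix.map_apply, Fin.sum_univ_four, Matrix.of_apply, Matrix.cons_val', Matrix.cons_val, Matrix.cons_val_fin_one, Fin.mk_zero, Fin.mk_one, Fin.zero_eta, Fin.reduceFinMk, Fin.isValue, map_add, map_sub, map_mul, map_neg, map_pow, map_one, map_zero, H.qz]
    try linear_combination (0) * H.five + (0) * H.qx
  · simp only [P2, G2, Matrix.mul_apply, Matrix.map_apply, Fin.sum_univ_four, Matrix.of_apply, Matrix.cons_val', Matrix.cons_val, Matrix.cons_val_fin_one, Fin.mk_zero, Fin.mk_one, Fin.zero_eta, Fin.reduceFinMk, Fin.isValue, map_add, map_sub, map_mul, map_neg, map_pow, map_one, map_zero, H.qz]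
    try linear_combination (0) * H.five + (0) * H.qx
  · simp only [P2, G2, Matrix.mul_apply, Matrix.map_apply, Fin.sum_univ_four, Matrix.of_apply, Matrix.cons_val', Matrix.cons_val, Matrix.cons_val_fin_one, Fin.mk_zero, Fin.mk_one, Fin.zero_eta, Fin.reduceFinMk, Fin.isValue, map_add, map_sub, map_mul, map_neg, map_pow, map_one, map_zero, H.qz]
    try linear_combination (0) * H.five + (0) * H.qx
  · simp only [P2, G2, Matrix.mul_apply, Matrix.map_apply, Fin.sum_univ_four, Matrix.of_apply, Matrix.cons_val', Matrix.cons_val, Matrix.cons_val_fin_one, Fin.mk_zero, Fin.mk_one, Fin.zero_eta, Fin.reduceFinMk, Fin.isValue, map_add, map_sub, map_mul, map_neg, map_pow, map_one, map_zero, H.qz]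
    try linear_combination (0) * H.five + (0) * H.qx
  · simp only [P2, G2, Matrix.mul_apply, Matrix.map_apply, Fin.sum_univ_four, Matrix.of_apply, Matrix.cons_val', Matrix.cons_val, Matrix.cons_val_fin_one, Fin.mk_zero, Fin.mk_one, Fin.zero_eta, Fin.reduceFinMk, Fin.isValue, map_add, map_sub, map_mul, map_neg, map_pow, map_one, map_zero, H.qz]
    try linear_combination (0) * H.five + (d.q t) * H.qx
  · simp only [P2, G2, Matrix.mul_apply, Matrix.map_apply, Fin.sum_univ_four, Matrix.of_apply, Matrix.cons_val', Matrix.cons_val, Matrix.cons_val_fin_one, Fin.mk_zero, Fin.mk_one, Fin.zero_eta, Fin.reduceFinMk, Fin.isValue, map_add, map_sub, map_mul, map_neg, map_pow, map_one, map_zero, H.qz]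
    try linear_combination (0) * H.five + (0) * H.qx
  · simp only [P2, G2, Matrix.mul_apply, Matrix.map_apply, Fin.sum_univ_four, Matrix.of_apply, Matrix.cons_val', Matrix.cons_val, Matrix.cons_val_fin_one, Fin.mk_zero, Fin.mk_one, Fin.zero_eta, Fin.reduceFinMk, Fin.isValue, map_add, map_sub, map_mul, map_neg, map_pow, map_one, map_zero, H.qz]
    try linear_combination (d.q x^4*d.q t) * H.five + (0) * H.qx
  · simp only [P2, G2, Matrix.mul_apply, Matrix.map_apply, Fin.sum_univ_four, Matrix.of_apply, Matrix.cons_val', Matrix.cons_val, Matrix.cons_val_fin_one, Fin.mk_zero, Fin.mk_one, Fin.zero_eta, Fin.reduceFinMk, Fin.isValue, map_add, map_sub, map_mul, map_neg, map_pow, map_one, map_zero, H.qz]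
    try linear_combination (0) * H.five + (0) * H.qx
  · simp only [P2, G2, Matrix.mul_apply, Matrix.map_apply, Fin.sum_univ_four, Matrix.of_apply, Matrix.cons_val', Matrix.cons_val, Matrix.cons_val_fin_one, Fin.mk_zero, Fin.mk_one, Fin.zero_eta, Fin.reduceFinMk, Fin.isValue, map_add, map_sub, map_mul, map_neg, map_pow, map_one, map_zero, H.qz]
    try linear_combination (0) * H.five + (0) * H.qx
  · simp only [P2, G2, Matrix.mul_apply, Matrix.map_apply, Fin.sum_univ_four, Matrix.of_apply, Matrix.cons_val', Matrix.cons_val, Matrix.cons_val_fin_one, Fin.mk_zero, Fin.mk_one, Fin.zero_eta, Fin.reduceFinMk, Fin.isValue, map_add, map_sub, map_mul, map_neg, map_pow, map_one, map_zero, H.qz]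
    try linear_combination (0) * H.five + (-d.q t) * H.qx
  · simp only [P2, G2, Matrix.mul_apply, Matrix.map_apply, Fin.sum_univ_four, Matrix.of_apply, Matrix.cons_val', Matrix.cons_val, Matrix.cons_val_fin_one, Fin.mk_zero, Fin.mk_one, Fin.zero_eta, Fin.reduceFinMk, Fin.isValue, map_add, map_sub, map_mul, map_neg, map_pow, map_one, map_zero, H.qz]
    try linear_combination (1) * H.five + (d.q t) * H.qx
  · simp only [P2, G2, Matrix.mul_apply, Matrix.map_apply, Fin.sum_univ_four, Matrix.of_apply, Matrix.cons_val', Matrix.cons_val, Matrix.cons_val_fin_one, Fin.mk_zero, Fin.mk_one, Fin.zero_eta, Fin.reduceFinMk, Fin.isValue, map_add, map_sub, map_mul, map_neg, map_pow, map_one, map_zero, H.qz]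
    try linear_combination (0) * H.five + (0) * H.qx
  · simp only [P2, G2, Matrix.mul_apply, Matrix.map_apply, Fin.sum_univ_four, Matrix.of_apply, Matrix.cons_val', Matrix.cons_val, Matrix.cons_val_fin_one, Fin.mk_zero, Fin.mk_one, Fin.zero_eta, Fin.reduceFinMk, Fin.isValue, map_add, map_sub, map_mul, map_neg, map_pow, map_one, map_zero, H.qz]
    try linear_combination (0) * H.five + (0) * H.qx
  · simp only [P2, G2, Matrix.mul_apply, Matrix.map_apply, Fin.sum_univ_four, Matrix.of_apply, Matrix.cons_val', Matrix.cons_val, Matrix.cons_val_fin_one, Fin.mk_zero, Fin.mk_one, Fin.zero_eta, Fin.reduceFinMk, Fin.isValue, map_add, map_sub, map_mul, map_neg, map_pow, map_one, map_zero, H.qz]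
    try linear_combination (-1) * H.five + (0) * H.qx
  · simp only [P2, G2, Matrix.mul_apply, Matrix.map_apply, Fin.sum_univ_four, Matrix.of_apply, Matrix.cons_val', Matrix.cons_val, Matrix.cons_val_fin_one, Fin.mk_zero, Fin.mk_one, Fin.zero_eta, Fin.reduceFinMk, Fin.isValue, map_add, map_sub, map_mul, map_neg, map_pow, map_one, map_zero, H.qz]
    try linear_combination (1) * H.five + (0) * H.qx

theorem map_D_2_0 : (P2 x z t).map (d.D 0) = E20 (d.q x) (d.q t) := by
  ext i j
  fin_cases i <;> fin_cases j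
  · simp only [P2, E20, Matrix.mul_apply, Matrix.map_apply, Fin.sum_univ_four, Matrix.of_apply, Matrix.cons_val', Matrix.cons_val, Matrix.cons_val_fin_one, Fin.mk_zero, Fin.mk_one, Fin.zero_eta, Fin.reduceFinMk, Fin.isValue, map_add, map_sub, map_mul, map_neg, map_pow, map_one, map_zero, H.qz, d.add, D_sub, D_neg, d.leib, D_pow4, D_pow5, D_one, D_zero, H.h0x, H.h0z, H.h0t]
    try linear_combination (0) * H.five + (0) * H.qx
  · simp only [P2, E20, Matrix.mul_apply, Matrix.map_apply, Fin.sum_univ_four, Matrix.of_apply, Matrix.cons_val', Matrix.cons_val, Matrix.cons_val_fin_one, Fin.mk_zero, Fin.mk_one, Fin.zero_eta, Fin.reduceFinMk, Fin.isValue, map_add, map_sub, map_mul, map_neg, map_pow, map_one, map_zero, H.qz, d.add, D_sub, D_neg, d.leib, D_pow4, D_pow5, D_one, D_zero, H.h0x, H.h0z, H.h0t]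
    try linear_combination (0) * H.five + (0) * H.qx
  · simp only [P2, E20, Matrix.mul_apply, Matrix.map_apply, Fin.sum_univ_four, Matrix.of_apply, Matrix.cons_val', Matrix.cons_val, Matrix.cons_val_fin_one, Fin.mk_zero, Fin.mk_one, Fin.zero_eta, Fin.reduceFinMk, Fin.isValue, map_add, map_sub, map_mul, map_neg, map_pow, map_one, map_zero, H.qz, d.add, D_sub, D_neg, d.leib, D_pow4, D_pow5, D_one, D_zero, H.h0x, H.h0z, H.h0t]
    try linear_combination (d.q x^3*d.q t) * H.five + (0) * H.qx
  · simp only [P2, E20, Matrix.mul_apply, Matrix.map_apply, Fin.sum_univ_four, Matrix.of_apply, Matrix.cons_val', Matrix.cons_val, Matrix.cons_val_fin_one, Fin.mk_zero, Fin.mk_one, Fin.zero_eta, Fin.reduceFinMk, Fin.isValue, map_add, map_sub, map_mul, map_neg, map_pow, map_one, map_zero, H.qz, d.add, D_sub, D_neg, d.leib, D_pow4, D_pow5, D_one, D_zero, H.h0x, H.h0z, H.h0t]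
    try linear_combination (-d.q x^3*d.q t) * H.five + (0) * H.qx
  · simp only [P2, E20, Matrix.mul_apply, Matrix.map_apply, Fin.sum_univ_four, Matrix.of_apply, Matrix.cons_val', Matrix.cons_val, Matrix.cons_val_fin_one, Fin.mk_zero, Fin.mk_one, Fin.zero_eta, Fin.reduceFinMk, Fin.isValue, map_add, map_sub, map_mul, map_neg, map_pow, map_one, map_zero, H.qz, d.add, D_sub, D_neg, d.leib, D_pow4, D_pow5, D_one, D_zero, H.h0x, H.h0z, H.h0t]
    try linear_combination (0) * H.five + (0) * H.qx
  · simp only [P2, E20, Matrix.mul_apply, Matrix.map_apply, Fin.sum_univ_four, Matrix.of_apply, Matrix.cons_val', Matrix.cons_val, Matrix.cons_val_fin_one, Fin.mk_zero, Fin.mk_one, Fin.zero_eta, Fin.reduceFinMk, Fin.isValue, map_add, map_sub, map_mul, map_neg, map_pow, map_one, map_zero, H.qz, d.add, D_sub, D_neg, d.leib, D_pow4, D_pow5, D_one, D_zero, H.h0x, H.h0z, H.h0t]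
    try linear_combination (d.q x^4*d.q t) * H.five + (0) * H.qx
  · simp only [P2, E20, Matrix.mul_apply, Matrix.map_apply, Fin.sum_univ_four, Matrix.of_apply, Matrix.cons_val', Matrix.cons_val, Matrix.cons_val_fin_one, Fin.mk_zero, Fin.mk_one, Fin.zero_eta, Fin.reduceFinMk, Fin.isValue, map_add, map_sub, map_mul, map_neg, map_pow, map_one, map_zero, H.qz, d.add, D_sub, D_neg, d.leib, D_pow4, D_pow5, D_one, D_zero, H.h0x, H.h0z, H.h0t]
    try linear_combination (-2*d.q x^3*d.q t) * H.five + (0) * H.qx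
  · simp only [P2, E20, Matrix.mul_apply, Matrix.map_apply, Fin.sum_univ_four, Matrix.of_apply, Matrix.cons_val', Matrix.cons_val, Matrix.cons_val_fin_one, Fin.mk_zero, Fin.mk_one, Fin.zero_eta, Fin.reduceFinMk, Fin.isValue, map_add, map_sub, map_mul, map_neg, map_pow, map_one, map_zero, H.qz, d.add, D_sub, D_neg, d.leib, D_pow4, D_pow5, D_one, D_zero, H.h0x, H.h0z, H.h0t]
    try linear_combination (2*d.q x^3*d.q t) * H.five + (0) * H.qx
  · simp only [P2, E20, Matrix.mul_apply, Matrix.map_apply, Fin.sum_univ_four, Matrix.of_apply, Matrix.cons_val', Matrix.cons_val, Matrix.cons_val_fin_one, Fin.mk_zero, Fin.mk_one, Fin.zero_eta, Fin.reduceFinMk, Fin.isValue, map_add, map_sub, map_mul, map_neg, map_pow, map_one, map_zero, H.qz, d.add, D_sub, D_neg, d.leib, D_pow4, D_pow5, D_one, D_zero, H.h0x, H.h0z, H.h0t]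
    try linear_combination (0) * H.five + (0) * H.qx
  · simp only [P2, E20, Matrix.mul_apply, Matrix.map_apply, Fin.sum_univ_four, Matrix.of_apply, Matrix.cons_val', Matrix.cons_val, Matrix.cons_val_fin_one, Fin.mk_zero, Fin.mk_one, Fin.zero_eta, Fin.reduceFinMk, Fin.isValue, map_add, map_sub, map_mul, map_neg, map_pow, map_one, map_zero, H.qz, d.add, D_sub, D_neg, d.leib, D_pow4, D_pow5, D_one, D_zero, H.h0x, H.h0z, H.h0t]
    try linear_combination (0) * H.five + (0) * H.qx
  · simp only [P2, E20, Matrix.mul_apply, Matrix.map_apply, Fin.sum_univ_four, Matrix.of_apply, Matrix.cons_val', Matrix.cons_val, Matrix.cons_val_fin_one, Fin.mk_zero, Fin.mk_one, Fin.zero_eta, Fin.reduceFinMk, Fin.isValue, map_add, map_sub, map_mul, map_neg, map_pow, map_one, map_zero, H.qz, d.add, D_sub, D_neg, d.leib, D_pow4, D_pow5, D_one, D_zero, H.h0x, H.h0z, H.h0t]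
    try linear_combination (-d.q x^4*d.q t) * H.five + (0) * H.qx
  · simp only [P2, E20, Matrix.mul_apply, Matrix.map_apply, Fin.sum_univ_four, Matrix.of_apply, Matrix.cons_val', Matrix.cons_val, Matrix.cons_val_fin_one, Fin.mk_zero, Fin.mk_one, Fin.zero_eta, Fin.reduceFinMk, Fin.isValue, map_add, map_sub, map_mul, map_neg, map_pow, map_one, map_zero, H.qz, d.add, D_sub, D_neg, d.leib, D_pow4, D_pow5, D_one, D_zero, H.h0x, H.h0z, H.h0t]
    try linear_combination (d.q x^4*d.q t) * H.five + (0) * H.qx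
  · simp only [P2, E20, Matrix.mul_apply, Matrix.map_apply, Fin.sum_univ_four, Matrix.of_apply, Matrix.cons_val', Matrix.cons_val, Matrix.cons_val_fin_one, Fin.mk_zero, Fin.mk_one, Fin.zero_eta, Fin.reduceFinMk, Fin.isValue, map_add, map_sub, map_mul, map_neg, map_pow, map_one, map_zero, H.qz, d.add, D_sub, D_neg, d.leib, D_pow4, D_pow5, D_one, D_zero, H.h0x, H.h0z, H.h0t]
    try linear_combination (0) * H.five + (0) * H.qx
  · simp only [P2, E20, Matrix.mul_apply, Matrix.map_apply, Fin.sum_univ_four, Matrix.of_apply, Matrix.cons_val', Matrix.cons_val, Matrix.cons_val_fin_one, Fin.mk_zero, Fin.mk_one, Fin.zero_eta, Fin.reduceFinMk, Fin.isValue, map_add, map_sub, map_mul, map_neg, map_pow, map_one, map_zero, H.qz, d.add, D_sub, D_neg, d.leib, D_pow4, D_pow5, D_one, D_zero, H.h0x, H.h0z, H.h0t]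
    try linear_combination (0) * H.five + (0) * H.qx
  · simp only [P2, E20, Matrix.mul_apply, Matrix.map_apply, Fin.sum_univ_four, Matrix.of_apply, Matrix.cons_val', Matrix.cons_val, Matrix.cons_val_fin_one, Fin.mk_zero, Fin.mk_one, Fin.zero_eta, Fin.reduceFinMk, Fin.isValue, map_add, map_sub, map_mul, map_neg, map_pow, map_one, map_zero, H.qz, d.add, D_sub, D_neg, d.leib, D_pow4, D_pow5, D_one, D_zero, H.h0x, H.h0z, H.h0t]
    try linear_combination (0) * H.five + (0) * H.qx
  · simp only [P2, E20, Matrix.mul_apply, Matrix.map_apply, Fin.sum_univ_four, Matrix.of_apply, Matrix.cons_val', Matrix.cons_val, Matrix.cons_val_fin_one, Fin.mk_zero, Fin.mk_one, Fin.zero_eta, Fin.reduceFinMk, Fin.isValue, map_add, map_sub, map_mul, map_neg, map_pow, map_one, map_zero, H.qz, d.add, D_sub, D_neg, d.leib, D_pow4, D_pow5, D_one, D_zero, H.h0x, H.h0z, H.h0t]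
    try linear_combination (0) * H.five + (0) * H.qx

theorem map_D_2_1 : (P2 x z t).map (d.D 1) = E21 (d.q x) (d.q t) := by
  ext i j
  fin_cases i <;> fin_cases j
  · simp only [P2, E21, Matrix.mul_apply, Matrix.map_apply, Fin.sum_univ_four, Matrix.of_apply, Matrix.cons_val', Matrix.cons_val, Matrix.cons_val_fin_one, Fin.mk_zero, Fin.mk_one, Fin.zero_eta, Fin.reduceFinMk, Fin.isValue, map_add, map_sub, map_mul, map_neg, map_pow, map_one, map_zero, H.qz, d.add, D_sub, D_neg, d.leib, D_pow4, D_pow5, D_one, D_zero, H.h1x, H.h1z, H.h1t]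
    try linear_combination (0) * H.five + (0) * H.qx
  · simp only [P2, E21, Matrix.mul_apply, Matrix.map_apply, Fin.sum_univ_four, Matrix.of_apply, Matrix.cons_val', Matrix.cons_val, Matrix.cons_val_fin_one, Fin.mk_zero, Fin.mk_one, Fin.zero_eta, Fin.reduceFinMk, Fin.isValue, map_add, map_sub, map_mul, map_neg, map_pow, map_one, map_zero, H.qz, d.add, D_sub, D_neg, d.leib, D_pow4, D_pow5, D_one, D_zero, H.h1x, H.h1z, H.h1t]
    try linear_combination (0) * H.five + (0) * H.qx
  · simp only [P2, E21, Matrix.mul_apply, Matrix.map_apply, Fin.sum_univ_four, Matrix.of_apply, Matrix.cons_val', Matrix.cons_val, Matrix.cons_val_fin_one, Fin.mk_zero, Fin.mk_one, Fin.zero_eta, Fin.reduceFinMk, Fin.isValue, map_add, map_sub, map_mul, map_neg, map_pow, map_one, map_zero, H.qz, d.add, D_sub, D_neg, d.leib, D_pow4, D_pow5, D_one, D_zero, H.h1x, H.h1z, H.h1t]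
    try linear_combination (0) * H.five + (0) * H.qx
  · simp only [P2, E21, Matrix.mul_apply, Matrix.map_apply, Fin.sum_univ_four, Matrix.of_apply, Matrix.cons_val', Matrix.cons_val, Matrix.cons_val_fin_one, Fin.mk_zero, Fin.mk_one, Fin.zero_eta, Fin.reduceFinMk, Fin.isValue, map_add, map_sub, map_mul, map_neg, map_pow, map_one, map_zero, H.qz, d.add, D_sub, D_neg, d.leib, D_pow4, D_pow5, D_one, D_zero, H.h1x, H.h1z, H.h1t]
    try linear_combination (0) * H.five + (0) * H.qx
  · simp only [P2, E21, Matrix.mul_apply, Matrix.map_apply, Fin.sum_univ_four, Matrix.of_apply, Matrix.cons_val', Matrix.cons_val, Matrix.cons_val_fin_one, Fin.mk_zero, Fin.mk_one, Fin.zero_eta, Fin.reduceFinMk, Fin.isValue, map_add, map_sub, map_mul, map_neg, map_pow, map_one, map_zero, H.qz, d.add, D_sub, D_neg, d.leib, D_pow4, D_pow5, D_one, D_zero, H.h1x, H.h1z, H.h1t]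
    try linear_combination (0) * H.five + (0) * H.qx
  · simp only [P2, E21, Matrix.mul_apply, Matrix.map_apply, Fin.sum_univ_four, Matrix.of_apply, Matrix.cons_val', Matrix.cons_val, Matrix.cons_val_fin_one, Fin.mk_zero, Fin.mk_one, Fin.zero_eta, Fin.reduceFinMk, Fin.isValue, map_add, map_sub, map_mul, map_neg, map_pow, map_one, map_zero, H.qz, d.add, D_sub, D_neg, d.leib, D_pow4, D_pow5, D_one, D_zero, H.h1x, H.h1z, H.h1t]
    try linear_combination (0) * H.five + (0) * H.qx
  · simp only [P2, E21, Matrix.mul_apply, Matrix.map_apply, Fin.sum_univ_four, Matrix.of_apply, Matrix.cons_val', Matrix.cons_val, Matrix.cons_val_fin_one, Fin.mk_zero, Fin.mk_one, Fin.zero_eta, Fin.reduceFinMk, Fin.isValue, map_add, map_sub, map_mul, map_neg, map_pow, map_one, map_zero, H.qz, d.add, D_sub, D_neg, d.leib, D_pow4, D_pow5, D_one, D_zero, H.h1x, H.h1z, H.h1t]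
    try linear_combination (0) * H.five + (0) * H.qx
  · simp only [P2, E21, Matrix.mul_apply, Matrix.map_apply, Fin.sum_univ_four, Matrix.of_apply, Matrix.cons_val', Matrix.cons_val, Matrix.cons_val_fin_one, Fin.mk_zero, Fin.mk_one, Fin.zero_eta, Fin.reduceFinMk, Fin.isValue, map_add, map_sub, map_mul, map_neg, map_pow, map_one, map_zero, H.qz, d.add, D_sub, D_neg, d.leib, D_pow4, D_pow5, D_one, D_zero, H.h1x, H.h1z, H.h1t]
    try linear_combination (0) * H.five + (0) * H.qx
  · simp only [P2, E21, Matrix.mul_apply, Matrix.map_apply, Fin.sum_univ_four, Matrix.of_apply, Matrix.cons_val', Matrix.cons_val, Matrix.cons_val_fin_one, Fin.mk_zero, Fin.mk_one, Fin.zero_eta, Fin.reduceFinMk, Fin.isValue, map_add, map_sub, map_mul, map_neg, map_pow, map_one, map_zero, H.qz, d.add, D_sub, D_neg, d.leib, D_pow4, D_pow5, D_one, D_zero, H.h1x, H.h1z, H.h1t]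
    try linear_combination (0) * H.five + (0) * H.qx
  · simp only [P2, E21, Matrix.mul_apply, Matrix.map_apply, Fin.sum_univ_four, Matrix.of_apply, Matrix.cons_val', Matrix.cons_val, Matrix.cons_val_fin_one, Fin.mk_zero, Fin.mk_one, Fin.zero_eta, Fin.reduceFinMk, Fin.isValue, map_add, map_sub, map_mul, map_neg, map_pow, map_one, map_zero, H.qz, d.add, D_sub, D_neg, d.leib, D_pow4, D_pow5, D_one, D_zero, H.h1x, H.h1z, H.h1t]
    try linear_combination (0) * H.five + (0) * H.qx
  · simp only [P2, E21, Matrix.mul_apply, Matrix.map_apply, Fin.sum_univ_four, Matrix.of_apply, Matrix.cons_val', Matrix.cons_val, Matrix.cons_val_fin_one, Fin.mk_zero, Fin.mk_one, Fin.zero_eta, Fin.reduceFinMk, Fin.isValue, map_add, map_sub, map_mul, map_neg, map_pow, map_one, map_zero, H.qz, d.add, D_sub, D_neg, d.leib, D_pow4, D_pow5, D_one, D_zero, H.h1x, H.h1z, H.h1t]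
    try linear_combination (0) * H.five + (0) * H.qx
  · simp only [P2, E21, Matrix.mul_apply, Matrix.map_apply, Fin.sum_univ_four, Matrix.of_apply, Matrix.cons_val', Matrix.cons_val, Matrix.cons_val_fin_one, Fin.mk_zero, Fin.mk_one, Fin.zero_eta, Fin.reduceFinMk, Fin.isValue, map_add, map_sub, map_mul, map_neg, map_pow, map_one, map_zero, H.qz, d.add, D_sub, D_neg, d.leib, D_pow4, D_pow5, D_one, D_zero, H.h1x, H.h1z, H.h1t]
    try linear_combination (0) * H.five + (0) * H.qx
  · simp only [P2, E21, Matrix.mul_apply, Matrix.map_apply, Fin.sum_univ_four, Matrix.of_apply, Matrix.cons_val', Matrix.cons_val, Matrix.cons_val_fin_one, Fin.mk_zero, Fin.mk_one, Fin.zero_eta, Fin.reduceFinMk, Fin.isValue, map_add, map_sub, map_mul, map_neg, map_pow, map_one, map_zero, H.qz, d.add, D_sub, D_neg, d.leib, D_pow4, D_pow5, D_one, D_zero, H.h1x, H.h1z, H.h1t]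
    try linear_combination (0) * H.five + (0) * H.qx
  · simp only [P2, E21, Matrix.mul_apply, Matrix.map_apply, Fin.sum_univ_four, Matrix.of_apply, Matrix.cons_val', Matrix.cons_val, Matrix.cons_val_fin_one, Fin.mk_zero, Fin.mk_one, Fin.zero_eta, Fin.reduceFinMk, Fin.isValue, map_add, map_sub, map_mul, map_neg, map_pow, map_one, map_zero, H.qz, d.add, D_sub, D_neg, d.leib, D_pow4, D_pow5, D_one, D_zero, H.h1x, H.h1z, H.h1t]
    try linear_combination (0) * H.five + (0) * H.qx
  · simp only [P2, E21, Matrix.mul_apply, Matrix.map_apply, Fin.sum_univ_four, Matrix.of_apply, Matrix.cons_val', Matrix.cons_val, Matrix.cons_val_fin_one, Fin.mk_zero, Fin.mk_one, Fin.zero_eta, Fin.reduceFinMk, Fin.isValue, map_add, map_sub, map_mul, map_neg, map_pow, map_one, map_zero, H.qz, d.add, D_sub, D_neg, d.leib, D_pow4, D_pow5, D_one, D_zero, H.h1x, H.h1z, H.h1t]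
    try linear_combination (0) * H.five + (0) * H.qx
  · simp only [P2, E21, Matrix.mul_apply, Matrix.map_apply, Fin.sum_univ_four, Matrix.of_apply, Matrix.cons_val', Matrix.cons_val, Matrix.cons_val_fin_one, Fin.mk_zero, Fin.mk_one, Fin.zero_eta, Fin.reduceFinMk, Fin.isValue, map_add, map_sub, map_mul, map_neg, map_pow, map_one, map_zero, H.qz, d.add, D_sub, D_neg, d.leib, D_pow4, D_pow5, D_one, D_zero, H.h1x, H.h1z, H.h1t]
    try linear_combination (0) * H.five + (0) * H.qx

theorem map_D_2_2 : (P2 x z t).map (d.D 2) = E22 (d.q x) (d.q t) := by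
  ext i j
  fin_cases i <;> fin_cases j
  · simp only [P2, E22, Matrix.mul_apply, Matrix.map_apply, Fin.sum_univ_four, Matrix.of_apply, Matrix.cons_val', Matrix.cons_val, Matrix.cons_val_fin_one, Fin.mk_zero, Fin.mk_one, Fin.zero_eta, Fin.reduceFinMk, Fin.isValue, map_add, map_sub, map_mul, map_neg, map_pow, map_one, map_zero, H.qz, d.add, D_sub, D_neg, d.leib, D_pow4, D_pow5, D_one, D_zero, H.h2x, H.h2z, H.h2t]
    try linear_combination (0) * H.five + (0) * H.qx
  · simp only [P2, E22, Matrix.mul_apply, Matrix.map_apply, Fin.sum_univ_four, Matrix.of_apply, Matrix.cons_val', Matrix.cons_val, Matrix.cons_val_fin_one, Fin.mk_zero, Fin.mk_one, Fin.zero_eta, Fin.reduceFinMk, Fin.isValue, map_add, map_sub, map_mul, map_neg, map_pow, map_one, map_zero, H.qz, d.add, D_sub, D_neg, d.leib, D_pow4, D_pow5, D_one, D_zero, H.h2x, H.h2z, H.h2t]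
    try linear_combination (0) * H.five + (0) * H.qx
  · simp only [P2, E22, Matrix.mul_apply, Matrix.map_apply, Fin.sum_univ_four, Matrix.of_apply, Matrix.cons_val', Matrix.cons_val, Matrix.cons_val_fin_one, Fin.mk_zero, Fin.mk_one, Fin.zero_eta, Fin.reduceFinMk, Fin.isValue, map_add, map_sub, map_mul, map_neg, map_pow, map_one, map_zero, H.qz, d.add, D_sub, D_neg, d.leib, D_pow4, D_pow5, D_one, D_zero, H.h2x, H.h2z, H.h2t]
    try linear_combination (0) * H.five + (0) * H.qx
  · simp only [P2, E22, Matrix.mul_apply, Matrix.map_apply, Fin.sum_univ_four, Matrix.of_apply, Matrix.cons_val', Matrix.cons_val, Matrix.cons_val_fin_one, Fin.mk_zero, Fin.mk_one, Fin.zero_eta, Fin.reduceFinMk, Fin.isValue, map_add, map_sub, map_mul, map_neg, map_pow, map_one, map_zero, H.qz, d.add, D_sub, D_neg, d.leib, D_pow4, D_pow5, D_one, D_zero, H.h2x, H.h2z, H.h2t]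
    try linear_combination (0) * H.five + (0) * H.qx
  · simp only [P2, E22, Matrix.mul_apply, Matrix.map_apply, Fin.sum_univ_four, Matrix.of_apply, Matrix.cons_val', Matrix.cons_val, Matrix.cons_val_fin_one, Fin.mk_zero, Fin.mk_one, Fin.zero_eta, Fin.reduceFinMk, Fin.isValue, map_add, map_sub, map_mul, map_neg, map_pow, map_one, map_zero, H.qz, d.add, D_sub, D_neg, d.leib, D_pow4, D_pow5, D_one, D_zero, H.h2x, H.h2z, H.h2t]
    try linear_combination (0) * H.five + (0) * H.qx
  · simp only [P2, E22, Matrix.mul_apply, Matrix.map_apply, Fin.sum_univ_four, Matrix.of_apply, Matrix.cons_val', Matrix.cons_val, Matrix.cons_val_fin_one, Fin.mk_zero, Fin.mk_one, Fin.zero_eta, Fin.reduceFinMk, Fin.isValue, map_add, map_sub, map_mul, map_neg, map_pow, map_one, map_zero, H.qz, d.add, D_sub, D_neg, d.leib, D_pow4, D_pow5, D_one, D_zero, H.h2x, H.h2z, H.h2t]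
    try linear_combination (0) * H.five + (1) * H.qx
  · simp only [P2, E22, Matrix.mul_apply, Matrix.map_apply, Fin.sum_univ_four, Matrix.of_apply, Matrix.cons_val', Matrix.cons_val, Matrix.cons_val_fin_one, Fin.mk_zero, Fin.mk_one, Fin.zero_eta, Fin.reduceFinMk, Fin.isValue, map_add, map_sub, map_mul, map_neg, map_pow, map_one, map_zero, H.qz, d.add, D_sub, D_neg, d.leib, D_pow4, D_pow5, D_one, D_zero, H.h2x, H.h2z, H.h2t]
    try linear_combination (0) * H.five + (0) * H.qx
  · simp only [P2, E22, Matrix.mul_apply, Matrix.map_apply, Fin.sum_univ_four, Matrix.of_apply, Matrix.cons_val', Matrix.cons_val, Matrix.cons_val_fin_one, Fin.mk_zero, Fin.mk_one, Fin.zero_eta, Fin.reduceFinMk, Fin.isValue, map_add, map_sub, map_mul, map_neg, map_pow, map_one, map_zero, H.qz, d.add, D_sub, D_neg, d.leib, D_pow4, D_pow5, D_one, D_zero, H.h2x, H.h2z, H.h2t]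
    try linear_combination (d.q x^4) * H.five + (0) * H.qx
  · simp only [P2, E22, Matrix.mul_apply, Matrix.map_apply, Fin.sum_univ_four, Matrix.of_apply, Matrix.cons_val', Matrix.cons_val, Matrix.cons_val_fin_one, Fin.mk_zero, Fin.mk_one, Fin.zero_eta, Fin.reduceFinMk, Fin.isValue, map_add, map_sub, map_mul, map_neg, map_pow, map_one, map_zero, H.qz, d.add, D_sub, D_neg, d.leib, D_pow4, D_pow5, D_one, D_zero, H.h2x, H.h2z, H.h2t]
    try linear_combination (0) * H.five + (0) * H.qx
  · simp only [P2, E22, Matrix.mul_apply, Matrix.map_apply, Fin.sum_univ_four, Matrix.of_apply, Matrix.cons_val', Matrix.cons_val, Matrix.cons_val_fin_one, Fin.mk_zero, Fin.mk_one, Fin.zero_eta, Fin.reduceFinMk, Fin.isValue, map_add, map_sub, map_mul, map_neg, map_pow, map_one, map_zero, H.qz, d.add, D_sub, D_neg, d.leib, D_pow4, D_pow5, D_one, D_zero, H.h2x, H.h2z, H.h2t]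
    try linear_combination (0) * H.five + (0) * H.qx
  · simp only [P2, E22, Matrix.mul_apply, Matrix.map_apply, Fin.sum_univ_four, Matrix.of_apply, Matrix.cons_val', Matrix.cons_val, Matrix.cons_val_fin_one, Fin.mk_zero, Fin.mk_one, Fin.zero_eta, Fin.reduceFinMk, Fin.isValue, map_add, map_sub, map_mul, map_neg, map_pow, map_one, map_zero, H.qz, d.add, D_sub, D_neg, d.leib, D_pow4, D_pow5, D_one, D_zero, H.h2x, H.h2z, H.h2t]
    try linear_combination (0) * H.five + (-1) * H.qx
  · simp only [P2, E22, Matrix.mul_apply, Matrix.map_apply, Fin.sum_univ_four, Matrix.of_apply, Matrix.cons_val', Matrix.cons_val, Matrix.cons_val_fin_one, Fin.mk_zero, Fin.mk_one, Fin.zero_eta, Fin.reduceFinMk, Fin.isValue, map_add, map_sub, map_mul, map_neg, map_pow, map_one, map_zero, H.qz, d.add, D_sub, D_neg, d.leib, D_pow4, D_pow5, D_one, D_zero, H.h2x, H.h2z, H.h2t]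
    try linear_combination (0) * H.five + (1) * H.qx
  · simp only [P2, E22, Matrix.mul_apply, Matrix.map_apply, Fin.sum_univ_four, Matrix.of_apply, Matrix.cons_val', Matrix.cons_val, Matrix.cons_val_fin_one, Fin.mk_zero, Fin.mk_one, Fin.zero_eta, Fin.reduceFinMk, Fin.isValue, map_add, map_sub, map_mul, map_neg, map_pow, map_one, map_zero, H.qz, d.add, D_sub, D_neg, d.leib, D_pow4, D_pow5, D_one, D_zero, H.h2x, H.h2z, H.h2t]
    try linear_combination (0) * H.five + (0) * H.qx
  · simp only [P2, E22, Matrix.mul_apply, Matrix.map_apply, Fin.sum_univ_four, Matrix.of_apply, Matrix.cons_val', Matrix.cons_val, Matrix.cons_val_fin_one, Fin.mk_zero, Fin.mk_one, Fin.zero_eta, Fin.reduceFinMk, Fin.isValue, map_add, map_sub, map_mul, map_neg, map_pow, map_one, map_zero, H.qz, d.add, D_sub, D_neg, d.leib, D_pow4, D_pow5, D_one, D_zero, H.h2x, H.h2z, H.h2t]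
    try linear_combination (0) * H.five + (0) * H.qx
  · simp only [P2, E22, Matrix.mul_apply, Matrix.map_apply, Fin.sum_univ_four, Matrix.of_apply, Matrix.cons_val', Matrix.cons_val, Matrix.cons_val_fin_one, Fin.mk_zero, Fin.mk_one, Fin.zero_eta, Fin.reduceFinMk, Fin.isValue, map_add, map_sub, map_mul, map_neg, map_pow, map_one, map_zero, H.qz, d.add, D_sub, D_neg, d.leib, D_pow4, D_pow5, D_one, D_zero, H.h2x, H.h2z, H.h2t]
    try linear_combination (0) * H.five + (0) * H.qx
  · simp only [P2, E22, Matrix.mul_apply, Matrix.map_apply, Fin.sum_univ_four, Matrix.of_apply, Matrix.cons_val', Matrix.cons_val, Matrix.cons_val_fin_one, Fin.mk_zero, Fin.mk_one, Fin.zero_eta, Fin.reduceFinMk, Fin.isValue, map_add, map_sub, map_mul, map_neg, map_pow, map_one, map_zero, H.qz, d.add, D_sub, D_neg, d.leib, D_pow4, D_pow5, D_one, D_zero, H.h2x, H.h2z, H.h2t]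
    try linear_combination (0) * H.five + (0) * H.qx

theorem map_q_3 : (P3 x z t).map d.q = G3 (d.q x) (d.q t) := by
  ext i j
  fin_cases i <;> fin_cases j
  · simp only [P3, G3, Matrix.mul_apply, Matrix.map_apply, Fin.sum_univ_four, Matrix.of_apply, Matrix.cons_val', Matrix.cons_val, Matrix.cons_val_fin_one, Fin.mk_zero, Fin.mk_one, Fin.zero_eta, Fin.reduceFinMk, Fin.isValue, map_add, map_sub, map_mul, map_neg, map_pow, map_one, map_zero, H.qz]
    try linear_combination (0) * H.five + (0) * H.qx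
  · simp only [P3, G3, Matrix.mul_apply, Matrix.map_apply, Fin.sum_univ_four, Matrix.of_apply, Matrix.cons_val', Matrix.cons_val, Matrix.cons_val_fin_one, Fin.mk_zero, Fin.mk_one, Fin.zero_eta, Fin.reduceFinMk, Fin.isValue, map_add, map_sub, map_mul, map_neg, map_pow, map_one, map_zero, H.qz]
    try linear_combination (0) * H.five + (0) * H.qx
  · simp only [P3, G3, Matrix.mul_apply, Matrix.map_apply, Fin.sum_univ_four, Matrix.of_apply, Matrix.cons_val', Matrix.cons_val, Matrix.cons_val_fin_one, Fin.mk_zero, Fin.mk_one, Fin.zero_eta, Fin.reduceFinMk, Fin.isValue, map_add, map_sub, map_mul, map_neg, map_pow, map_one, map_zero, H.qz]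
    try linear_combination (0) * H.five + (0) * H.qx
  · simp only [P3, G3, Matrix.mul_apply, Matrix.map_apply, Fin.sum_univ_four, Matrix.of_apply, Matrix.cons_val', Matrix.cons_val, Matrix.cons_val_fin_one, Fin.mk_zero, Fin.mk_one, Fin.zero_eta, Fin.reduceFinMk, Fin.isValue, map_add, map_sub, map_mul, map_neg, map_pow, map_one, map_zero, H.qz]
    try linear_combination (0) * H.five + (0) * H.qx
  · simp only [P3, G3, Matrix.mul_apply, Matrix.map_apply, Fin.sum_univ_four, Matrix.of_apply, Matrix.cons_val', Matrix.cons_val, Matrix.cons_val_fin_one, Fin.mk_zero, Fin.mk_one, Fin.zero_eta, Fin.reduceFinMk, Fin.isValue, map_add, map_sub, map_mul, map_neg, map_pow, map_one, map_zero, H.qz]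
    try linear_combination (0) * H.five + (d.q t) * H.qx
  · simp only [P3, G3, Matrix.mul_apply, Matrix.map_apply, Fin.sum_univ_four, Matrix.of_apply, Matrix.cons_val', Matrix.cons_val, Matrix.cons_val_fin_one, Fin.mk_zero, Fin.mk_one, Fin.zero_eta, Fin.reduceFinMk, Fin.isValue, map_add, map_sub, map_mul, map_neg, map_pow, map_one, map_zero, H.qz]
    try linear_combination (0) * H.five + (-d.q t) * H.qx
  · simp only [P3, G3, Matrix.mul_apply, Matrix.map_apply, Fin.sum_univ_four, Matrix.of_apply, Matrix.cons_val', Matrix.cons_val, Matrix.cons_val_fin_one, Fin.mk_zero, Fin.mk_one, Fin.zero_eta, Fin.reduceFinMk, Fin.isValue, map_add, map_sub, map_mul, map_neg, map_pow, map_one, map_zero, H.qz]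
    try linear_combination (d.q x^4*d.q t) * H.five + (0) * H.qx
  · simp only [P3, G3, Matrix.mul_apply, Matrix.map_apply, Fin.sum_univ_four, Matrix.of_apply, Matrix.cons_val', Matrix.cons_val, Matrix.cons_val_fin_one, Fin.mk_zero, Fin.mk_one, Fin.zero_eta, Fin.reduceFinMk, Fin.isValue, map_add, map_sub, map_mul, map_neg, map_pow, map_one, map_zero, H.qz]
    try linear_combination (0) * H.five + (0) * H.qx
  · simp only [P3, G3, Matrix.mul_apply, Matrix.map_apply, Fin.sum_univ_four, Matrix.of_apply, Matrix.cons_val', Matrix.cons_val, Matrix.cons_val_fin_one, Fin.mk_zero, Fin.mk_one, Fin.zero_eta, Fin.reduceFinMk, Fin.isValue, map_add, map_sub, map_mul, map_neg, map_pow, map_one, map_zero, H.qz]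
    try linear_combination (0) * H.five + (0) * H.qx
  · simp only [P3, G3, Matrix.mul_apply, Matrix.map_apply, Fin.sum_univ_four, Matrix.of_apply, Matrix.cons_val', Matrix.cons_val, Matrix.cons_val_fin_one, Fin.mk_zero, Fin.mk_one, Fin.zero_eta, Fin.reduceFinMk, Fin.isValue, map_add, map_sub, map_mul, map_neg, map_pow, map_one, map_zero, H.qz]
    try linear_combination (-d.q x) * H.five + (0) * H.qx
  · simp only [P3, G3, Matrix.mul_apply, Matrix.map_apply, Fin.sum_univ_four, Matrix.of_apply, Matrix.cons_val', Matrix.cons_val, Matrix.cons_val_fin_one, Fin.mk_zero, Fin.mk_one, Fin.zero_eta, Fin.reduceFinMk, Fin.isValue, map_add, map_sub, map_mul, map_neg, map_pow, map_one, map_zero, H.qz]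
    try linear_combination (1) * H.five + (d.q t) * H.qx
  · simp only [P3, G3, Matrix.mul_apply, Matrix.map_apply, Fin.sum_univ_four, Matrix.of_apply, Matrix.cons_val', Matrix.cons_val, Matrix.cons_val_fin_one, Fin.mk_zero, Fin.mk_one, Fin.zero_eta, Fin.reduceFinMk, Fin.isValue, map_add, map_sub, map_mul, map_neg, map_pow, map_one, map_zero, H.qz]
    try linear_combination (-1) * H.five + (0) * H.qx
  · simp only [P3, G3, Matrix.mul_apply, Matrix.map_apply, Fin.sum_univ_four, Matrix.of_apply, Matrix.cons_val', Matrix.cons_val, Matrix.cons_val_fin_one, Fin.mk_zero, Fin.mk_one, Fin.zero_eta, Fin.reduceFinMk, Fin.isValue, map_add, map_sub, map_mul, map_neg, map_pow, map_one, map_zero, H.qz]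
    try linear_combination (0) * H.five + (0) * H.qx
  · simp only [P3, G3, Matrix.mul_apply, Matrix.map_apply, Fin.sum_univ_four, Matrix.of_apply, Matrix.cons_val', Matrix.cons_val, Matrix.cons_val_fin_one, Fin.mk_zero, Fin.mk_one, Fin.zero_eta, Fin.reduceFinMk, Fin.isValue, map_add, map_sub, map_mul, map_neg, map_pow, map_one, map_zero, H.qz]
    try linear_combination (0) * H.five + (0) * H.qx
  · simp only [P3, G3, Matrix.mul_apply, Matrix.map_apply, Fin.sum_univ_four, Matrix.of_apply, Matrix.cons_val', Matrix.cons_val, Matrix.cons_val_fin_one, Fin.mk_zero, Fin.mk_one, Fin.zero_eta, Fin.reduceFinMk, Fin.isValue, map_add, map_sub, map_mul, map_neg, map_pow, map_one, map_zero, H.qz]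
    try linear_combination (1) * H.five + (0) * H.qx
  · simp only [P3, G3, Matrix.mul_apply, Matrix.map_apply, Fin.sum_univ_four, Matrix.of_apply, Matrix.cons_val', Matrix.cons_val, Matrix.cons_val_fin_one, Fin.mk_zero, Fin.mk_one, Fin.zero_eta, Fin.reduceFinMk, Fin.isValue, map_add, map_sub, map_mul, map_neg, map_pow, map_one, map_zero, H.qz]
    try linear_combination (0) * H.five + (0) * H.qx

theorem map_D_3_0 : (P3 x z t).map (d.D 0) = E30 (d.q x) (d.q t) := by
  ext i j
  fin_cases i <;> fin_cases j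
  · simp only [P3, E30, Matrix.mul_apply, Matrix.map_apply, Fin.sum_univ_four, Matrix.of_apply, Matrix.cons_val', Matrix.cons_val, Matrix.cons_val_fin_one, Fin.mk_zero, Fin.mk_one, Fin.zero_eta, Fin.reduceFinMk, Fin.isValue, map_add, map_sub, map_mul, map_neg, map_pow, map_one, map_zero, H.qz, d.add, D_sub, D_neg, d.leib, D_pow4, D_pow5, D_one, D_zero, H.h0x, H.h0z, H.h0t]
    try linear_combination (0) * H.five + (0) * H.qx
  · simp only [P3, E30, Matrix.mul_apply, Matrix.map_apply, Fin.sum_univ_four, Matrix.of_apply, Matrix.cons_val', Matrix.cons_val, Matrix.cons_val_fin_one, Fin.mk_zero, Fin.mk_one, Fin.zero_eta, Fin.reduceFinMk, Fin.isValue, map_add, map_sub, map_mul, map_neg, map_pow, map_one, map_zero, H.qz, d.add, D_sub, D_neg, d.leib, D_pow4, D_pow5, D_one, D_zero, H.h0x, H.h0z, H.h0t]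
    try linear_combination (0) * H.five + (0) * H.qx
  · simp only [P3, E30, Matrix.mul_apply, Matrix.map_apply, Fin.sum_univ_four, Matrix.of_apply, Matrix.cons_val', Matrix.cons_val, Matrix.cons_val_fin_one, Fin.mk_zero, Fin.mk_one, Fin.zero_eta, Fin.reduceFinMk, Fin.isValue, map_add, map_sub, map_mul, map_neg, map_pow, map_one, map_zero, H.qz, d.add, D_sub, D_neg, d.leib, D_pow4, D_pow5, D_one, D_zero, H.h0x, H.h0z, H.h0t]
    try linear_combination (-d.q x^3*d.q t) * H.five + (0) * H.qx
  · simp only [P3, E30, Matrix.mul_apply, Matrix.map_apply, Fin.sum_univ_four, Matrix.of_apply, Matrix.cons_val', Matrix.cons_val, Matrix.cons_val_fin_one, Fin.mk_zero, Fin.mk_one, Fin.zero_eta, Fin.reduceFinMk, Fin.isValue, map_add, map_sub, map_mul, map_neg, map_pow, map_one, map_zero, H.qz, d.add, D_sub, D_neg, d.leib, D_pow4, D_pow5, D_one, D_zero, H.h0x, H.h0z, H.h0t]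
    try linear_combination (0) * H.five + (0) * H.qx
  · simp only [P3, E30, Matrix.mul_apply, Matrix.map_apply, Fin.sum_univ_four, Matrix.of_apply, Matrix.cons_val', Matrix.cons_val, Matrix.cons_val_fin_one, Fin.mk_zero, Fin.mk_one, Fin.zero_eta, Fin.reduceFinMk, Fin.isValue, map_add, map_sub, map_mul, map_neg, map_pow, map_one, map_zero, H.qz, d.add, D_sub, D_neg, d.leib, D_pow4, D_pow5, D_one, D_zero, H.h0x, H.h0z, H.h0t]
    try linear_combination (d.q x^4*d.q t) * H.five + (0) * H.qx
  · simp only [P3, E30, Matrix.mul_apply, Matrix.map_apply, Fin.sum_univ_four, Matrix.of_apply, Matrix.cons_val', Matrix.cons_val, Matrix.cons_val_fin_one, Fin.mk_zero, Fin.mk_one, Fin.zero_eta, Fin.reduceFinMk, Fin.isValue, map_add, map_sub, map_mul, map_neg, map_pow, map_one, map_zero, H.qz, d.add, D_sub, D_neg, d.leib, D_pow4, D_pow5, D_one, D_zero, H.h0x, H.h0z, H.h0t]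
    try linear_combination (-d.q x^4*d.q t) * H.five + (0) * H.qx
  · simp only [P3, E30, Matrix.mul_apply, Matrix.map_apply, Fin.sum_univ_four, Matrix.of_apply, Matrix.cons_val', Matrix.cons_val, Matrix.cons_val_fin_one, Fin.mk_zero, Fin.mk_one, Fin.zero_eta, Fin.reduceFinMk, Fin.isValue, map_add, map_sub, map_mul, map_neg, map_pow, map_one, map_zero, H.qz, d.add, D_sub, D_neg, d.leib, D_pow4, D_pow5, D_one, D_zero, H.h0x, H.h0z, H.h0t]
    try linear_combination (2*d.q x^3*d.q t) * H.five + (0) * H.qx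
  · simp only [P3, E30, Matrix.mul_apply, Matrix.map_apply, Fin.sum_univ_four, Matrix.of_apply, Matrix.cons_val', Matrix.cons_val, Matrix.cons_val_fin_one, Fin.mk_zero, Fin.mk_one, Fin.zero_eta, Fin.reduceFinMk, Fin.isValue, map_add, map_sub, map_mul, map_neg, map_pow, map_one, map_zero, H.qz, d.add, D_sub, D_neg, d.leib, D_pow4, D_pow5, D_one, D_zero, H.h0x, H.h0z, H.h0t]
    try linear_combination (-d.q x^3*d.q t) * H.five + (0) * H.qx
  · simp only [P3, E30, Matrix.mul_apply, Matrix.map_apply, Fin.sum_univ_four, Matrix.of_apply, Matrix.cons_val', Matrix.cons_val, Matrix.cons_val_fin_one, Fin.mk_zero, Fin.mk_one, Fin.zero_eta, Fin.reduceFinMk, Fin.isValue, map_add, map_sub, map_mul, map_neg, map_pow, map_one, map_zero, H.qz, d.add, D_sub, D_neg, d.leib, D_pow4, D_pow5, D_one, D_zero, H.h0x, H.h0z, H.h0t]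
    try linear_combination (0) * H.five + (0) * H.qx
  · simp only [P3, E30, Matrix.mul_apply, Matrix.map_apply, Fin.sum_univ_four, Matrix.of_apply, Matrix.cons_val', Matrix.cons_val, Matrix.cons_val_fin_one, Fin.mk_zero, Fin.mk_one, Fin.zero_eta, Fin.reduceFinMk, Fin.isValue, map_add, map_sub, map_mul, map_neg, map_pow, map_one, map_zero, H.qz, d.add, D_sub, D_neg, d.leib, D_pow4, D_pow5, D_one, D_zero, H.h0x, H.h0z, H.h0t]
    try linear_combination (-1) * H.five + (0) * H.qx
  · simp only [P3, E30, Matrix.mul_apply, Matrix.map_apply, Fin.sum_univ_four, Matrix.of_apply, Matrix.cons_val', Matrix.cons_val, Matrix.cons_val_fin_one, Fin.mk_zero, Fin.mk_one, Fin.zero_eta, Fin.reduceFinMk, Fin.isValue, map_add, map_sub, map_mul, map_neg, map_pow, map_one, map_zero, H.qz, d.add, D_sub, D_neg, d.leib, D_pow4, D_pow5, D_one, D_zero, H.h0x, H.h0z, H.h0t]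
    try linear_combination (d.q x^4*d.q t) * H.five + (0) * H.qx
  · simp only [P3, E30, Matrix.mul_apply, Matrix.map_apply, Fin.sum_univ_four, Matrix.of_apply, Matrix.cons_val', Matrix.cons_val, Matrix.cons_val_fin_one, Fin.mk_zero, Fin.mk_one, Fin.zero_eta, Fin.reduceFinMk, Fin.isValue, map_add, map_sub, map_mul, map_neg, map_pow, map_one, map_zero, H.qz, d.add, D_sub, D_neg, d.leib, D_pow4, D_pow5, D_one, D_zero, H.h0x, H.h0z, H.h0t]
    try linear_combination (0) * H.five + (0) * H.qx
  · simp only [P3, E30, Matrix.mul_apply, Matrix.map_apply, Fin.sum_univ_four, Matrix.of_apply, Matrix.cons_val', Matrix.cons_val, Matrix.cons_val_fin_one, Fin.mk_zero, Fin.mk_one, Fin.zero_eta, Fin.reduceFinMk, Fin.isValue, map_add, map_sub, map_mul, map_neg, map_pow, map_one, map_zero, H.qz, d.add, D_sub, D_neg, d.leib, D_pow4, D_pow5, D_one, D_zero, H.h0x, H.h0z, H.h0t]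
    try linear_combination (0) * H.five + (0) * H.qx
  · simp only [P3, E30, Matrix.mul_apply, Matrix.map_apply, Fin.sum_univ_four, Matrix.of_apply, Matrix.cons_val', Matrix.cons_val, Matrix.cons_val_fin_one, Fin.mk_zero, Fin.mk_one, Fin.zero_eta, Fin.reduceFinMk, Fin.isValue, map_add, map_sub, map_mul, map_neg, map_pow, map_one, map_zero, H.qz, d.add, D_sub, D_neg, d.leib, D_pow4, D_pow5, D_one, D_zero, H.h0x, H.h0z, H.h0t]
    try linear_combination (0) * H.five + (0) * H.qx
  · simp only [P3, E30, Matrix.mul_apply, Matrix.map_apply, Fin.sum_univ_four, Matrix.of_apply, Matrix.cons_val', Matrix.cons_val, Matrix.cons_val_fin_one, Fin.mk_zero, Fin.mk_one, Fin.zero_eta, Fin.reduceFinMk, Fin.isValue, map_add, map_sub, map_mul, map_neg, map_pow, map_one, map_zero, H.qz, d.add, D_sub, D_neg, d.leib, D_pow4, D_pow5, D_one, D_zero, H.h0x, H.h0z, H.h0t]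
    try linear_combination (0) * H.five + (0) * H.qx
  · simp only [P3, E30, Matrix.mul_apply, Matrix.map_apply, Fin.sum_univ_four, Matrix.of_apply, Matrix.cons_val', Matrix.cons_val, Matrix.cons_val_fin_one, Fin.mk_zero, Fin.mk_one, Fin.zero_eta, Fin.reduceFinMk, Fin.isValue, map_add, map_sub, map_mul, map_neg, map_pow, map_one, map_zero, H.qz, d.add, D_sub, D_neg, d.leib, D_pow4, D_pow5, D_one, D_zero, H.h0x, H.h0z, H.h0t]
    try linear_combination (0) * H.five + (0) * H.qx

theorem map_D_3_1 : (P3 x z t).map (d.D 1) = E31 (d.q x) (d.q t) := by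
  ext i j
  fin_cases i <;> fin_cases j
  · simp only [P3, E31, Matrix.mul_apply, Matrix.map_apply, Fin.sum_univ_four, Matrix.of_apply, Matrix.cons_val', Matrix.cons_val, Matrix.cons_val_fin_one, Fin.mk_zero, Fin.mk_one, Fin.zero_eta, Fin.reduceFinMk, Fin.isValue, map_add, map_sub, map_mul, map_neg, map_pow, map_one, map_zero, H.qz, d.add, D_sub, D_neg, d.leib, D_pow4, D_pow5, D_one, D_zero, H.h1x, H.h1z, H.h1t]
    try linear_combination (0) * H.five + (0) * H.qx
  · simp only [P3, E31, Matrix.mul_apply, Matrix.map_apply, Fin.sum_univ_four, Matrix.of_apply, Matrix.cons_val', Matrix.cons_val, Matrix.cons_val_fin_one, Fin.mk_zero, Fin.mk_one, Fin.zero_eta, Fin.reduceFinMk, Fin.isValue, map_add, map_sub, map_mul, map_neg, map_pow, map_one, map_zero, H.qz, d.add, D_sub, D_neg, d.leib, D_pow4, D_pow5, D_one, D_zero, H.h1x, H.h1z, H.h1t]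
    try linear_combination (0) * H.five + (0) * H.qx
  · simp only [P3, E31, Matrix.mul_apply, Matrix.map_apply, Fin.sum_univ_four, Matrix.of_apply, Matrix.cons_val', Matrix.cons_val, Matrix.cons_val_fin_one, Fin.mk_zero, Fin.mk_one, Fin.zero_eta, Fin.reduceFinMk, Fin.isValue, map_add, map_sub, map_mul, map_neg, map_pow, map_one, map_zero, H.qz, d.add, D_sub, D_neg, d.leib, D_pow4, D_pow5, D_one, D_zero, H.h1x, H.h1z, H.h1t]
    try linear_combination (0) * H.five + (0) * H.qx
  · simp only [P3, E31, Matrix.mul_apply, Matrix.map_apply, Fin.sum_univ_four, Matrix.of_apply, Matrix.cons_val', Matrix.cons_val, Matrix.cons_val_fin_one, Fin.mk_zero, Fin.mk_one, Fin.zero_eta, Fin.reduceFinMk, Fin.isValue, map_add, map_sub, map_mul, map_neg, map_pow, map_one, map_zero, H.qz, d.add, D_sub, D_neg, d.leib, D_pow4, D_pow5, D_one, D_zero, H.h1x, H.h1z, H.h1t]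
    try linear_combination (0) * H.five + (0) * H.qx
  · simp only [P3, E31, Matrix.mul_apply, Matrix.map_apply, Fin.sum_univ_four, Matrix.of_apply, Matrix.cons_val', Matrix.cons_val, Matrix.cons_val_fin_one, Fin.mk_zero, Fin.mk_one, Fin.zero_eta, Fin.reduceFinMk, Fin.isValue, map_add, map_sub, map_mul, map_neg, map_pow, map_one, map_zero, H.qz, d.add, D_sub, D_neg, d.leib, D_pow4, D_pow5, D_one, D_zero, H.h1x, H.h1z, H.h1t]
    try linear_combination (0) * H.five + (0) * H.qx
  · simp only [P3, E31, Matrix.mul_apply, Matrix.map_apply, Fin.sum_univ_four, Matrix.of_apply, Matrix.cons_val', Matrix.cons_val, Matrix.cons_val_fin_one, Fin.mk_zero, Fin.mk_one, Fin.zero_eta, Fin.reduceFinMk, Fin.isValue, map_add, map_sub, map_mul, map_neg, map_pow, map_one, map_zero, H.qz, d.add, D_sub, D_neg, d.leib, D_pow4, D_pow5, D_one, D_zero, H.h1x, H.h1z, H.h1t]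
    try linear_combination (0) * H.five + (0) * H.qx
  · simp only [P3, E31, Matrix.mul_apply, Matrix.map_apply, Fin.sum_univ_four, Matrix.of_apply, Matrix.cons_val', Matrix.cons_val, Matrix.cons_val_fin_one, Fin.mk_zero, Fin.mk_one, Fin.zero_eta, Fin.reduceFinMk, Fin.isValue, map_add, map_sub, map_mul, map_neg, map_pow, map_one, map_zero, H.qz, d.add, D_sub, D_neg, d.leib, D_pow4, D_pow5, D_one, D_zero, H.h1x, H.h1z, H.h1t]
    try linear_combination (0) * H.five + (0) * H.qx
  · simp only [P3, E31, Matrix.mul_apply, Matrix.map_apply, Fin.sum_univ_four, Matrix.of_apply, Matrix.cons_val', Matrix.cons_val, Matrix.cons_val_fin_one, Fin.mk_zero, Fin.mk_one, Fin.zero_eta, Fin.reduceFinMk, Fin.isValue, map_add, map_sub, map_mul, map_neg, map_pow, map_one, map_zero, H.qz, d.add, D_sub, D_neg, d.leib, D_pow4, D_pow5, D_one, D_zero, H.h1x, H.h1z, H.h1t]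
    try linear_combination (0) * H.five + (0) * H.qx
  · simp only [P3, E31, Matrix.mul_apply, Matrix.map_apply, Fin.sum_univ_four, Matrix.of_apply, Matrix.cons_val', Matrix.cons_val, Matrix.cons_val_fin_one, Fin.mk_zero, Fin.mk_one, Fin.zero_eta, Fin.reduceFinMk, Fin.isValue, map_add, map_sub, map_mul, map_neg, map_pow, map_one, map_zero, H.qz, d.add, D_sub, D_neg, d.leib, D_pow4, D_pow5, D_one, D_zero, H.h1x, H.h1z, H.h1t]
    try linear_combination (0) * H.five + (0) * H.qx
  · simp only [P3, E31, Matrix.mul_apply, Matrix.map_apply, Fin.sum_univ_four, Matrix.of_apply, Matrix.cons_val', Matrix.cons_val, Matrix.cons_val_fin_one, Fin.mk_zero, Fin.mk_one, Fin.zero_eta, Fin.reduceFinMk, Fin.isValue, map_add, map_sub, map_mul, map_neg, map_pow, map_one, map_zero, H.qz, d.add, D_sub, D_neg, d.leib, D_pow4, D_pow5, D_one, D_zero, H.h1x, H.h1z, H.h1t]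
    try linear_combination (0) * H.five + (0) * H.qx
  · simp only [P3, E31, Matrix.mul_apply, Matrix.map_apply, Fin.sum_univ_four, Matrix.of_apply, Matrix.cons_val', Matrix.cons_val, Matrix.cons_val_fin_one, Fin.mk_zero, Fin.mk_one, Fin.zero_eta, Fin.reduceFinMk, Fin.isValue, map_add, map_sub, map_mul, map_neg, map_pow, map_one, map_zero, H.qz, d.add, D_sub, D_neg, d.leib, D_pow4, D_pow5, D_one, D_zero, H.h1x, H.h1z, H.h1t]
    try linear_combination (0) * H.five + (0) * H.qx
  · simp only [P3, E31, Matrix.mul_apply, Matrix.map_apply, Fin.sum_univ_four, Matrix.of_apply, Matrix.cons_val', Matrix.cons_val, Matrix.cons_val_fin_one, Fin.mk_zero, Fin.mk_one, Fin.zero_eta, Fin.reduceFinMk, Fin.isValue, map_add, map_sub, map_mul, map_neg, map_pow, map_one, map_zero, H.qz, d.add, D_sub, D_neg, d.leib, D_pow4, D_pow5, D_one, D_zero, H.h1x, H.h1z, H.h1t]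
    try linear_combination (0) * H.five + (0) * H.qx
  · simp only [P3, E31, Matrix.mul_apply, Matrix.map_apply, Fin.sum_univ_four, Matrix.of_apply, Matrix.cons_val', Matrix.cons_val, Matrix.cons_val_fin_one, Fin.mk_zero, Fin.mk_one, Fin.zero_eta, Fin.reduceFinMk, Fin.isValue, map_add, map_sub, map_mul, map_neg, map_pow, map_one, map_zero, H.qz, d.add, D_sub, D_neg, d.leib, D_pow4, D_pow5, D_one, D_zero, H.h1x, H.h1z, H.h1t]
    try linear_combination (0) * H.five + (0) * H.qx
  · simp only [P3, E31, Matrix.mul_apply, Matrix.map_apply, Fin.sum_univ_four, Matrix.of_apply, Matrix.cons_val', Matrix.cons_val, Matrix.cons_val_fin_one, Fin.mk_zero, Fin.mk_one, Fin.zero_eta, Fin.reduceFinMk, Fin.isValue, map_add, map_sub, map_mul, map_neg, map_pow, map_one, map_zero, H.qz, d.add, D_sub, D_neg, d.leib, D_pow4, D_pow5, D_one, D_zero, H.h1x, H.h1z, H.h1t]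
    try linear_combination (0) * H.five + (0) * H.qx
  · simp only [P3, E31, Matrix.mul_apply, Matrix.map_apply, Fin.sum_univ_four, Matrix.of_apply, Matrix.cons_val', Matrix.cons_val, Matrix.cons_val_fin_one, Fin.mk_zero, Fin.mk_one, Fin.zero_eta, Fin.reduceFinMk, Fin.isValue, map_add, map_sub, map_mul, map_neg, map_pow, map_one, map_zero, H.qz, d.add, D_sub, D_neg, d.leib, D_pow4, D_pow5, D_one, D_zero, H.h1x, H.h1z, H.h1t]
    try linear_combination (0) * H.five + (0) * H.qx
  · simp only [P3, E31, Matrix.mul_apply, Matrix.map_apply, Fin.sum_univ_four, Matrix.of_apply, Matrix.cons_val', Matrix.cons_val, Matrix.cons_val_fin_one, Fin.mk_zero, Fin.mk_one, Fin.zero_eta, Fin.reduceFinMk, Fin.isValue, map_add, map_sub, map_mul, map_neg, map_pow, map_one, map_zero, H.qz, d.add, D_sub, D_neg, d.leib, D_pow4, D_pow5, D_one, D_zero, H.h1x, H.h1z, H.h1t]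
    try linear_combination (0) * H.five + (0) * H.qx

theorem map_D_3_2 : (P3 x z t).map (d.D 2) = E32 (d.q x) (d.q t) := by
  ext i j
  fin_cases i <;> fin_cases j
  · simp only [P3, E32, Matrix.mul_apply, Matrix.map_apply, Fin.sum_univ_four, Matrix.of_apply, Matrix.cons_val', Matrix.cons_val, Matrix.cons_val_fin_one, Fin.mk_zero, Fin.mk_one, Fin.zero_eta, Fin.reduceFinMk, Fin.isValue, map_add, map_sub, map_mul, map_neg, map_pow, map_one, map_zero, H.qz, d.add, D_sub, D_neg, d.leib, D_pow4, D_pow5, D_one, D_zero, H.h2x, H.h2z, H.h2t]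
    try linear_combination (0) * H.five + (0) * H.qx
  · simp only [P3, E32, Matrix.mul_apply, Matrix.map_apply, Fin.sum_univ_four, Matrix.of_apply, Matrix.cons_val', Matrix.cons_val, Matrix.cons_val_fin_one, Fin.mk_zero, Fin.mk_one, Fin.zero_eta, Fin.reduceFinMk, Fin.isValue, map_add, map_sub, map_mul, map_neg, map_pow, map_one, map_zero, H.qz, d.add, D_sub, D_neg, d.leib, D_pow4, D_pow5, D_one, D_zero, H.h2x, H.h2z, H.h2t]
    try linear_combination (0) * H.five + (0) * H.qx
  · simp only [P3, E32, Matrix.mul_apply, Matrix.map_apply, Fin.sum_univ_four, Matrix.of_apply, Matrix.cons_val', Matrix.cons_val, Matrix.cons_val_fin_one, Fin.mk_zero, Fin.mk_one, Fin.zero_eta, Fin.reduceFinMk, Fin.isValue, map_add, map_sub, map_mul, map_neg, map_pow, map_one, map_zero, H.qz, d.add, D_sub, D_neg, d.leib, D_pow4, D_pow5, D_one, D_zero, H.h2x, H.h2z, H.h2t]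
    try linear_combination (0) * H.five + (0) * H.qx
  · simp only [P3, E32, Matrix.mul_apply, Matrix.map_apply, Fin.sum_univ_four, Matrix.of_apply, Matrix.cons_val', Matrix.cons_val, Matrix.cons_val_fin_one, Fin.mk_zero, Fin.mk_one, Fin.zero_eta, Fin.reduceFinMk, Fin.isValue, map_add, map_sub, map_mul, map_neg, map_pow, map_one, map_zero, H.qz, d.add, D_sub, D_neg, d.leib, D_pow4, D_pow5, D_one, D_zero, H.h2x, H.h2z, H.h2t]
    try linear_combination (0) * H.five + (0) * H.qx
  · simp only [P3, E32, Matrix.mul_apply, Matrix.map_apply, Fin.sum_univ_four, Matrix.of_apply, Matrix.cons_val', Matrix.cons_val, Matrix.cons_val_fin_one, Fin.mk_zero, Fin.mk_one, Fin.zero_eta, Fin.reduceFinMk, Fin.isValue, map_add, map_sub, map_mul, map_neg, map_pow, map_one, map_zero, H.qz, d.add, D_sub, D_neg, d.leib, D_pow4, D_pow5, D_one, D_zero, H.h2x, H.h2z, H.h2t]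
    try linear_combination (0) * H.five + (1) * H.qx
  · simp only [P3, E32, Matrix.mul_apply, Matrix.map_apply, Fin.sum_univ_four, Matrix.of_apply, Matrix.cons_val', Matrix.cons_val, Matrix.cons_val_fin_one, Fin.mk_zero, Fin.mk_one, Fin.zero_eta, Fin.reduceFinMk, Fin.isValue, map_add, map_sub, map_mul, map_neg, map_pow, map_one, map_zero, H.qz, d.add, D_sub, D_neg, d.leib, D_pow4, D_pow5, D_one, D_zero, H.h2x, H.h2z, H.h2t]
    try linear_combination (0) * H.five + (-1) * H.qx
  · simp only [P3, E32, Matrix.mul_apply, Matrix.map_apply, Fin.sum_univ_four, Matrix.of_apply, Matrix.cons_val', Matrix.cons_val, Matrix.cons_val_fin_one, Fin.mk_zero, Fin.mk_one, Fin.zero_eta, Fin.reduceFinMk, Fin.isValue, map_add, map_sub, map_mul, map_neg, map_pow, map_one, map_zero, H.qz, d.add, D_sub, D_neg, d.leib, D_pow4, D_pow5, D_one, D_zero, H.h2x, H.h2z, H.h2t]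
    try linear_combination (d.q x^4) * H.five + (0) * H.qx
  · simp only [P3, E32, Matrix.mul_apply, Matrix.map_apply, Fin.sum_univ_four, Matrix.of_apply, Matrix.cons_val', Matrix.cons_val, Matrix.cons_val_fin_one, Fin.mk_zero, Fin.mk_one, Fin.zero_eta, Fin.reduceFinMk, Fin.isValue, map_add, map_sub, map_mul, map_neg, map_pow, map_one, map_zero, H.qz, d.add, D_sub, D_neg, d.leib, D_pow4, D_pow5, D_one, D_zero, H.h2x, H.h2z, H.h2t]
    try linear_combination (0) * H.five + (0) * H.qx
  · simp only [P3, E32, Matrix.mul_apply, Matrix.map_apply, Fin.sum_univ_four, Matrix.of_apply, Matrix.cons_val', Matrix.cons_val, Matrix.cons_val_fin_one, Fin.mk_zero, Fin.mk_one, Fin.zero_eta, Fin.reduceFinMk, Fin.isValue, map_add, map_sub, map_mul, map_neg, map_pow, map_one, map_zero, H.qz, d.add, D_sub, D_neg, d.leib, D_pow4, D_pow5, D_one, D_zero, H.h2x, H.h2z, H.h2t]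
    try linear_combination (0) * H.five + (0) * H.qx
  · simp only [P3, E32, Matrix.mul_apply, Matrix.map_apply, Fin.sum_univ_four, Matrix.of_apply, Matrix.cons_val', Matrix.cons_val, Matrix.cons_val_fin_one, Fin.mk_zero, Fin.mk_one, Fin.zero_eta, Fin.reduceFinMk, Fin.isValue, map_add, map_sub, map_mul, map_neg, map_pow, map_one, map_zero, H.qz, d.add, D_sub, D_neg, d.leib, D_pow4, D_pow5, D_one, D_zero, H.h2x, H.h2z, H.h2t]
    try linear_combination (0) * H.five + (0) * H.qx
  · simp only [P3, E32, Matrix.mul_apply, Matrix.map_apply, Fin.sum_univ_four, Matrix.of_apply, Matrix.cons_val', Matrix.cons_val, Matrix.cons_val_fin_one, Fin.mk_zero, Fin.mk_one, Fin.zero_eta, Fin.reduceFinMk, Fin.isValue, map_add, map_sub, map_mul, map_neg, map_pow, map_one, map_zero, H.qz, d.add, D_sub, D_neg, d.leib, D_pow4, D_pow5, D_one, D_zero, H.h2x, H.h2z, H.h2t]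
    try linear_combination (0) * H.five + (1) * H.qx
  · simp only [P3, E32, Matrix.mul_apply, Matrix.map_apply, Fin.sum_univ_four, Matrix.of_apply, Matrix.cons_val', Matrix.cons_val, Matrix.cons_val_fin_one, Fin.mk_zero, Fin.mk_one, Fin.zero_eta, Fin.reduceFinMk, Fin.isValue, map_add, map_sub, map_mul, map_neg, map_pow, map_one, map_zero, H.qz, d.add, D_sub, D_neg, d.leib, D_pow4, D_pow5, D_one, D_zero, H.h2x, H.h2z, H.h2t]
    try linear_combination (0) * H.five + (0) * H.qx
  · simp only [P3, E32, Matrix.mul_apply, Matrix.map_apply, Fin.sum_univ_four, Matrix.of_apply, Matrix.cons_val', Matrix.cons_val, Matrix.cons_val_fin_one, Fin.mk_zero, Fin.mk_one, Fin.zero_eta, Fin.reduceFinMk, Fin.isValue, map_add, map_sub, map_mul, map_neg, map_pow, map_one, map_zero, H.qz, d.add, D_sub, D_neg, d.leib, D_pow4, D_pow5, D_one, D_zero, H.h2x, H.h2z, H.h2t]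
    try linear_combination (0) * H.five + (0) * H.qx
  · simp only [P3, E32, Matrix.mul_apply, Matrix.map_apply, Fin.sum_univ_four, Matrix.of_apply, Matrix.cons_val', Matrix.cons_val, Matrix.cons_val_fin_one, Fin.mk_zero, Fin.mk_one, Fin.zero_eta, Fin.reduceFinMk, Fin.isValue, map_add, map_sub, map_mul, map_neg, map_pow, map_one, map_zero, H.qz, d.add, D_sub, D_neg, d.leib, D_pow4, D_pow5, D_one, D_zero, H.h2x, H.h2z, H.h2t]
    try linear_combination (0) * H.five + (0) * H.qx
  · simp only [P3, E32, Matrix.mul_apply, Matrix.map_apply, Fin.sum_univ_four, Matrix.of_apply, Matrix.cons_val', Matrix.cons_val, Matrix.cons_val_fin_one, Fin.mk_zero, Fin.mk_one, Fin.zero_eta, Fin.reduceFinMk, Fin.isValue, map_add, map_sub, map_mul, map_neg, map_pow, map_one, map_zero, H.qz, d.add, D_sub, D_neg, d.leib, D_pow4, D_pow5, D_one, D_zero, H.h2x, H.h2z, H.h2t]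
    try linear_combination (0) * H.five + (0) * H.qx
  · simp only [P3, E32, Matrix.mul_apply, Matrix.map_apply, Fin.sum_univ_four, Matrix.of_apply, Matrix.cons_val', Matrix.cons_val, Matrix.cons_val_fin_one, Fin.mk_zero, Fin.mk_one, Fin.zero_eta, Fin.reduceFinMk, Fin.isValue, map_add, map_sub, map_mul, map_neg, map_pow, map_one, map_zero, H.qz, d.add, D_sub, D_neg, d.leib, D_pow4, D_pow5, D_one, D_zero, H.h2x, H.h2z, H.h2t]
    try linear_combination (0) * H.five + (0) * H.qx

theorem map_q_4 : (P4 x z t).map d.q = G4 (d.q x) (d.q t) := by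
  ext i j
  fin_cases i <;> fin_cases j
  · simp only [P4, G4, Matrix.mul_apply, Matrix.map_apply, Fin.sum_univ_four, Matrix.of_apply, Matrix.cons_val', Matrix.cons_val, Matrix.cons_val_fin_one, Fin.mk_zero, Fin.mk_one, Fin.zero_eta, Fin.reduceFinMk, Fin.isValue, map_add, map_sub, map_mul, map_neg, map_pow, map_one, map_zero, H.qz]
    try linear_combination (0) * H.five + (0) * H.qx
  · simp only [P4, G4, Matrix.mul_apply, Matrix.map_apply, Fin.sum_univ_four, Matrix.of_apply, Matrix.cons_val', Matrix.cons_val, Matrix.cons_val_fin_one, Fin.mk_zero, Fin.mk_one, Fin.zero_eta, Fin.reduceFinMk, Fin.isValue, map_add, map_sub, map_mul, map_neg, map_pow, map_one, map_zero, H.qz]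
    try linear_combination (0) * H.five + (0) * H.qx
  · simp only [P4, G4, Matrix.mul_apply, Matrix.map_apply, Fin.sum_univ_four, Matrix.of_apply, Matrix.cons_val', Matrix.cons_val, Matrix.cons_val_fin_one, Fin.mk_zero, Fin.mk_one, Fin.zero_eta, Fin.reduceFinMk, Fin.isValue, map_add, map_sub, map_mul, map_neg, map_pow, map_one, map_zero, H.qz]
    try linear_combination (0) * H.five + (0) * H.qx
  · simp only [P4, G4, Matrix.mul_apply, Matrix.map_apply, Fin.sum_univ_four, Matrix.of_apply, Matrix.cons_val', Matrix.cons_val, Matrix.cons_val_fin_one, Fin.mk_zero, Fin.mk_one, Fin.zero_eta, Fin.reduceFinMk, Fin.isValue, map_add, map_sub, map_mul, map_neg, map_pow, map_one, map_zero, H.qz]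
    try linear_combination (0) * H.five + (0) * H.qx
  · simp only [P4, G4, Matrix.mul_apply, Matrix.map_apply, Fin.sum_univ_four, Matrix.of_apply, Matrix.cons_val', Matrix.cons_val, Matrix.cons_val_fin_one, Fin.mk_zero, Fin.mk_one, Fin.zero_eta, Fin.reduceFinMk, Fin.isValue, map_add, map_sub, map_mul, map_neg, map_pow, map_one, map_zero, H.qz]
    try linear_combination (0) * H.five + (-d.q t) * H.qx
  · simp only [P4, G4, Matrix.mul_apply, Matrix.map_apply, Fin.sum_univ_four, Matrix.of_apply, Matrix.cons_val', Matrix.cons_val, Matrix.cons_val_fin_one, Fin.mk_zero, Fin.mk_one, Fin.zero_eta, Fin.reduceFinMk, Fin.isValue, map_add, map_sub, map_mul, map_neg, map_pow, map_one, map_zero, H.qz]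
    try linear_combination (0) * H.five + (0) * H.qx
  · simp only [P4, G4, Matrix.mul_apply, Matrix.map_apply, Fin.sum_univ_four, Matrix.of_apply, Matrix.cons_val', Matrix.cons_val, Matrix.cons_val_fin_one, Fin.mk_zero, Fin.mk_one, Fin.zero_eta, Fin.reduceFinMk, Fin.isValue, map_add, map_sub, map_mul, map_neg, map_pow, map_one, map_zero, H.qz]
    try linear_combination (0) * H.five + (0) * H.qx
  · simp only [P4, G4, Matrix.mul_apply, Matrix.map_apply, Fin.sum_univ_four, Matrix.of_apply, Matrix.cons_val', Matrix.cons_val, Matrix.cons_val_fin_one, Fin.mk_zero, Fin.mk_one, Fin.zero_eta, Fin.reduceFinMk, Fin.isValue, map_add, map_sub, map_mul, map_neg, map_pow, map_one, map_zero, H.qz]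
    try linear_combination (0) * H.five + (0) * H.qx
  · simp only [P4, G4, Matrix.mul_apply, Matrix.map_apply, Fin.sum_univ_four, Matrix.of_apply, Matrix.cons_val', Matrix.cons_val, Matrix.cons_val_fin_one, Fin.mk_zero, Fin.mk_one, Fin.zero_eta, Fin.reduceFinMk, Fin.isValue, map_add, map_sub, map_mul, map_neg, map_pow, map_one, map_zero, H.qz]
    try linear_combination (-d.q x) * H.five + (0) * H.qx
  · simp only [P4, G4, Matrix.mul_apply, Matrix.map_apply, Fin.sum_univ_four, Matrix.of_apply, Matrix.cons_val', Matrix.cons_val, Matrix.cons_val_fin_one, Fin.mk_zero, Fin.mk_one, Fin.zero_eta, Fin.reduceFinMk, Fin.isValue, map_add, map_sub, map_mul, map_neg, map_pow, map_one, map_zero, H.qz]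
    try linear_combination (0) * H.five + (0) * H.qx
  · simp only [P4, G4, Matrix.mul_apply, Matrix.map_apply, Fin.sum_univ_four, Matrix.of_apply, Matrix.cons_val', Matrix.cons_val, Matrix.cons_val_fin_one, Fin.mk_zero, Fin.mk_one, Fin.zero_eta, Fin.reduceFinMk, Fin.isValue, map_add, map_sub, map_mul, map_neg, map_pow, map_one, map_zero, H.qz]
    try linear_combination (-1) * H.five + (0) * H.qx
  · simp only [P4, G4, Matrix.mul_apply, Matrix.map_apply, Fin.sum_univ_four, Matrix.of_apply, Matrix.cons_val', Matrix.cons_val, Matrix.cons_val_fin_one, Fin.mk_zero, Fin.mk_one, Fin.zero_eta, Fin.reduceFinMk, Fin.isValue, map_add, map_sub, map_mul, map_neg, map_pow, map_one, map_zero, H.qz]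
    try linear_combination (0) * H.five + (0) * H.qx
  · simp only [P4, G4, Matrix.mul_apply, Matrix.map_apply, Fin.sum_univ_four, Matrix.of_apply, Matrix.cons_val', Matrix.cons_val, Matrix.cons_val_fin_one, Fin.mk_zero, Fin.mk_one, Fin.zero_eta, Fin.reduceFinMk, Fin.isValue, map_add, map_sub, map_mul, map_neg, map_pow, map_one, map_zero, H.qz]
    try linear_combination (0) * H.five + (0) * H.qx
  · simp only [P4, G4, Matrix.mul_apply, Matrix.map_apply, Fin.sum_univ_four, Matrix.of_apply, Matrix.cons_val', Matrix.cons_val, Matrix.cons_val_fin_one, Fin.mk_zero, Fin.mk_one, Fin.zero_eta, Fin.reduceFinMk, Fin.isValue, map_add, map_sub, map_mul, map_neg, map_pow, map_one, map_zero, H.qz]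
    try linear_combination (0) * H.five + (0) * H.qx
  · simp only [P4, G4, Matrix.mul_apply, Matrix.map_apply, Fin.sum_univ_four, Matrix.of_apply, Matrix.cons_val', Matrix.cons_val, Matrix.cons_val_fin_one, Fin.mk_zero, Fin.mk_one, Fin.zero_eta, Fin.reduceFinMk, Fin.isValue, map_add, map_sub, map_mul, map_neg, map_pow, map_one, map_zero, H.qz]
    try linear_combination (0) * H.five + (0) * H.qx
  · simp only [P4, G4, Matrix.mul_apply, Matrix.map_apply, Fin.sum_univ_four, Matrix.of_apply, Matrix.cons_val', Matrix.cons_val, Matrix.cons_val_fin_one, Fin.mk_zero, Fin.mk_one, Fin.zero_eta, Fin.reduceFinMk, Fin.isValue, map_add, map_sub, map_mul, map_neg, map_pow, map_one, map_zero, H.qz]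
    try linear_combination (0) * H.five + (0) * H.qx

theorem map_D_4_0 : (P4 x z t).map (d.D 0) = E40 (d.q x) (d.q t) := by
  ext i j
  fin_cases i <;> fin_cases j
  · simp only [P4, E40, Matrix.mul_apply, Matrix.map_apply, Fin.sum_univ_four, Matrix.of_apply, Matrix.cons_val', Matrix.cons_val, Matrix.cons_val_fin_one, Fin.mk_zero, Fin.mk_one, Fin.zero_eta, Fin.reduceFinMk, Fin.isValue, map_add, map_sub, map_mul, map_neg, map_pow, map_one, map_zero, H.qz, d.add, D_sub, D_neg, d.leib, D_pow4, D_pow5, D_one, D_zero, H.h0x, H.h0z, H.h0t]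
    try linear_combination (0) * H.five + (0) * H.qx
  · simp only [P4, E40, Matrix.mul_apply, Matrix.map_apply, Fin.sum_univ_four, Matrix.of_apply, Matrix.cons_val', Matrix.cons_val, Matrix.cons_val_fin_one, Fin.mk_zero, Fin.mk_one, Fin.zero_eta, Fin.reduceFinMk, Fin.isValue, map_add, map_sub, map_mul, map_neg, map_pow, map_one, map_zero, H.qz, d.add, D_sub, D_neg, d.leib, D_pow4, D_pow5, D_one, D_zero, H.h0x, H.h0z, H.h0t]
    try linear_combination (0) * H.five + (0) * H.qx
  · simp only [P4, E40, Matrix.mul_apply, Matrix.map_apply, Fin.sum_univ_four, Matrix.of_apply, Matrix.cons_val', Matrix.cons_val, Matrix.cons_val_fin_one, Fin.mk_zero, Fin.mk_one, Fin.zero_eta, Fin.reduceFinMk, Fin.isValue, map_add, map_sub, map_mul, map_neg, map_pow, map_one, map_zero, H.qz, d.add, D_sub, D_neg, d.leib, D_pow4, D_pow5, D_one, D_zero, H.h0x, H.h0z, H.h0t]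
    try linear_combination (0) * H.five + (0) * H.qx
  · simp only [P4, E40, Matrix.mul_apply, Matrix.map_apply, Fin.sum_univ_four, Matrix.of_apply, Matrix.cons_val', Matrix.cons_val, Matrix.cons_val_fin_one, Fin.mk_zero, Fin.mk_one, Fin.zero_eta, Fin.reduceFinMk, Fin.isValue, map_add, map_sub, map_mul, map_neg, map_pow, map_one, map_zero, H.qz, d.add, D_sub, D_neg, d.leib, D_pow4, D_pow5, D_one, D_zero, H.h0x, H.h0z, H.h0t]
    try linear_combination (0) * H.five + (0) * H.qx
  · simp only [P4, E40, Matrix.mul_apply, Matrix.map_apply, Fin.sum_univ_four, Matrix.of_apply, Matrix.cons_val', Matrix.cons_val, Matrix.cons_val_fin_one, Fin.mk_zero, Fin.mk_one, Fin.zero_eta, Fin.reduceFinMk, Fin.isValue, map_add, map_sub, map_mul, map_neg, map_pow, map_one, map_zero, H.qz, d.add, D_sub, D_neg, d.leib, D_pow4, D_pow5, D_one, D_zero, H.h0x, H.h0z, H.h0t]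
    try linear_combination (-d.q x^4*d.q t) * H.five + (0) * H.qx
  · simp only [P4, E40, Matrix.mul_apply, Matrix.map_apply, Fin.sum_univ_four, Matrix.of_apply, Matrix.cons_val', Matrix.cons_val, Matrix.cons_val_fin_one, Fin.mk_zero, Fin.mk_one, Fin.zero_eta, Fin.reduceFinMk, Fin.isValue, map_add, map_sub, map_mul, map_neg, map_pow, map_one, map_zero, H.qz, d.add, D_sub, D_neg, d.leib, D_pow4, D_pow5, D_one, D_zero, H.h0x, H.h0z, H.h0t]
    try linear_combination (0) * H.five + (0) * H.qx
  · simp only [P4, E40, Matrix.mul_apply, Matrix.map_apply, Fin.sum_univ_four, Matrix.of_apply, Matrix.cons_val', Matrix.cons_val, Matrix.cons_val_fin_one, Fin.mk_zero, Fin.mk_one, Fin.zero_eta, Fin.reduceFinMk, Fin.isValue, map_add, map_sub, map_mul, map_neg, map_pow, map_one, map_zero, H.qz, d.add, D_sub, D_neg, d.leib, D_pow4, D_pow5, D_one, D_zero, H.h0x, H.h0z, H.h0t]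
    try linear_combination (-d.q x^3*d.q t) * H.five + (0) * H.qx
  · simp only [P4, E40, Matrix.mul_apply, Matrix.map_apply, Fin.sum_univ_four, Matrix.of_apply, Matrix.cons_val', Matrix.cons_val, Matrix.cons_val_fin_one, Fin.mk_zero, Fin.mk_one, Fin.zero_eta, Fin.reduceFinMk, Fin.isValue, map_add, map_sub, map_mul, map_neg, map_pow, map_one, map_zero, H.qz, d.add, D_sub, D_neg, d.leib, D_pow4, D_pow5, D_one, D_zero, H.h0x, H.h0z, H.h0t]
    try linear_combination (0) * H.five + (0) * H.qx
  · simp only [P4, E40, Matrix.mul_apply, Matrix.map_apply, Fin.sum_univ_four, Matrix.of_apply, Matrix.cons_val', Matrix.cons_val, Matrix.cons_val_fin_one, Fin.mk_zero, Fin.mk_one, Fin.zero_eta, Fin.reduceFinMk, Fin.isValue, map_add, map_sub, map_mul, map_neg, map_pow, map_one, map_zero, H.qz, d.add, D_sub, D_neg, d.leib, D_pow4, D_pow5, D_one, D_zero, H.h0x, H.h0z, H.h0t]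
    try linear_combination (-1) * H.five + (0) * H.qx
  · simp only [P4, E40, Matrix.mul_apply, Matrix.map_apply, Fin.sum_univ_four, Matrix.of_apply, Matrix.cons_val', Matrix.cons_val, Matrix.cons_val_fin_one, Fin.mk_zero, Fin.mk_one, Fin.zero_eta, Fin.reduceFinMk, Fin.isValue, map_add, map_sub, map_mul, map_neg, map_pow, map_one, map_zero, H.qz, d.add, D_sub, D_neg, d.leib, D_pow4, D_pow5, D_one, D_zero, H.h0x, H.h0z, H.h0t]
    try linear_combination (0) * H.five + (0) * H.qx
  · simp only [P4, E40, Matrix.mul_apply, Matrix.map_apply, Fin.sum_univ_four, Matrix.of_apply, Matrix.cons_val', Matrix.cons_val, Matrix.cons_val_fin_one, Fin.mk_zero, Fin.mk_one, Fin.zero_eta, Fin.reduceFinMk, Fin.isValue, map_add, map_sub, map_mul, map_neg, map_pow, map_one, map_zero, H.qz, d.add, D_sub, D_neg, d.leib, D_pow4, D_pow5, D_one, D_zero, H.h0x, H.h0z, H.h0t]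
    try linear_combination (0) * H.five + (0) * H.qx
  · simp only [P4, E40, Matrix.mul_apply, Matrix.map_apply, Fin.sum_univ_four, Matrix.of_apply, Matrix.cons_val', Matrix.cons_val, Matrix.cons_val_fin_one, Fin.mk_zero, Fin.mk_one, Fin.zero_eta, Fin.reduceFinMk, Fin.isValue, map_add, map_sub, map_mul, map_neg, map_pow, map_one, map_zero, H.qz, d.add, D_sub, D_neg, d.leib, D_pow4, D_pow5, D_one, D_zero, H.h0x, H.h0z, H.h0t]
    try linear_combination (0) * H.five + (0) * H.qx
  · simp only [P4, E40, Matrix.mul_apply, Matrix.map_apply, Fin.sum_univ_four, Matrix.of_apply, Matrix.cons_val', Matrix.cons_val, Matrix.cons_val_fin_one, Fin.mk_zero, Fin.mk_one, Fin.zero_eta, Fin.reduceFinMk, Fin.isValue, map_add, map_sub, map_mul, map_neg, map_pow, map_one, map_zero, H.qz, d.add, D_sub, D_neg, d.leib, D_pow4, D_pow5, D_one, D_zero, H.h0x, H.h0z, H.h0t]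
    try linear_combination (0) * H.five + (0) * H.qx
  · simp only [P4, E40, Matrix.mul_apply, Matrix.map_apply, Fin.sum_univ_four, Matrix.of_apply, Matrix.cons_val', Matrix.cons_val, Matrix.cons_val_fin_one, Fin.mk_zero, Fin.mk_one, Fin.zero_eta, Fin.reduceFinMk, Fin.isValue, map_add, map_sub, map_mul, map_neg, map_pow, map_one, map_zero, H.qz, d.add, D_sub, D_neg, d.leib, D_pow4, D_pow5, D_one, D_zero, H.h0x, H.h0z, H.h0t]
    try linear_combination (0) * H.five + (0) * H.qx
  · simp only [P4, E40, Matrix.mul_apply, Matrix.map_apply, Fin.sum_univ_four, Matrix.of_apply, Matrix.cons_val', Matrix.cons_val, Matrix.cons_val_fin_one, Fin.mk_zero, Fin.mk_one, Fin.zero_eta, Fin.reduceFinMk, Fin.isValue, map_add, map_sub, map_mul, map_neg, map_pow, map_one, map_zero, H.qz, d.add, D_sub, D_neg, d.leib, D_pow4, D_pow5, D_one, D_zero, H.h0x, H.h0z, H.h0t]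
    try linear_combination (0) * H.five + (0) * H.qx
  · simp only [P4, E40, Matrix.mul_apply, Matrix.map_apply, Fin.sum_univ_four, Matrix.of_apply, Matrix.cons_val', Matrix.cons_val, Matrix.cons_val_fin_one, Fin.mk_zero, Fin.mk_one, Fin.zero_eta, Fin.reduceFinMk, Fin.isValue, map_add, map_sub, map_mul, map_neg, map_pow, map_one, map_zero, H.qz, d.add, D_sub, D_neg, d.leib, D_pow4, D_pow5, D_one, D_zero, H.h0x, H.h0z, H.h0t]
    try linear_combination (0) * H.five + (0) * H.qx

theorem map_D_4_1 : (P4 x z t).map (d.D 1) = E41 (d.q x) (d.q t) := by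
  ext i j
  fin_cases i <;> fin_cases j
  · simp only [P4, E41, Matrix.mul_apply, Matrix.map_apply, Fin.sum_univ_four, Matrix.of_apply, Matrix.cons_val', Matrix.cons_val, Matrix.cons_val_fin_one, Fin.mk_zero, Fin.mk_one, Fin.zero_eta, Fin.reduceFinMk, Fin.isValue, map_add, map_sub, map_mul, map_neg, map_pow, map_one, map_zero, H.qz, d.add, D_sub, D_neg, d.leib, D_pow4, D_pow5, D_one, D_zero, H.h1x, H.h1z, H.h1t]
    try linear_combination (0) * H.five + (0) * H.qx
  · simp only [P4, E41, Matrix.mul_apply, Matrix.map_apply, Fin.sum_univ_four, Matrix.of_apply, Matrix.cons_val', Matrix.cons_val, Matrix.cons_val_fin_one, Fin.mk_zero, Fin.mk_one, Fin.zero_eta, Fin.reduceFinMk, Fin.isValue, map_add, map_sub, map_mul, map_neg, map_pow, map_one, map_zero, H.qz, d.add, D_sub, D_neg, d.leib, D_pow4, D_pow5, D_one, D_zero, H.h1x, H.h1z, H.h1t]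
    try linear_combination (0) * H.five + (0) * H.qx
  · simp only [P4, E41, Matrix.mul_apply, Matrix.map_apply, Fin.sum_univ_four, Matrix.of_apply, Matrix.cons_val', Matrix.cons_val, Matrix.cons_val_fin_one, Fin.mk_zero, Fin.mk_one, Fin.zero_eta, Fin.reduceFinMk, Fin.isValue, map_add, map_sub, map_mul, map_neg, map_pow, map_one, map_zero, H.qz, d.add, D_sub, D_neg, d.leib, D_pow4, D_pow5, D_one, D_zero, H.h1x, H.h1z, H.h1t]
    try linear_combination (0) * H.five + (0) * H.qx
  · simp only [P4, E41, Matrix.mul_apply, Matrix.map_apply, Fin.sum_univ_four, Matrix.of_apply, Matrix.cons_val', Matrix.cons_val, Matrix.cons_val_fin_one, Fin.mk_zero, Fin.mk_one, Fin.zero_eta, Fin.reduceFinMk, Fin.isValue, map_add, map_sub, map_mul, map_neg, map_pow, map_one, map_zero, H.qz, d.add, D_sub, D_neg, d.leib, D_pow4, D_pow5, D_one, D_zero, H.h1x, H.h1z, H.h1t]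
    try linear_combination (0) * H.five + (0) * H.qx
  · simp only [P4, E41, Matrix.mul_apply, Matrix.map_apply, Fin.sum_univ_four, Matrix.of_apply, Matrix.cons_val', Matrix.cons_val, Matrix.cons_val_fin_one, Fin.mk_zero, Fin.mk_one, Fin.zero_eta, Fin.reduceFinMk, Fin.isValue, map_add, map_sub, map_mul, map_neg, map_pow, map_one, map_zero, H.qz, d.add, D_sub, D_neg, d.leib, D_pow4, D_pow5, D_one, D_zero, H.h1x, H.h1z, H.h1t]
    try linear_combination (0) * H.five + (0) * H.qx
  · simp only [P4, E41, Matrix.mul_apply, Matrix.map_apply, Fin.sum_univ_four, Matrix.of_apply, Matrix.cons_val', Matrix.cons_val, Matrix.cons_val_fin_one, Fin.mk_zero, Fin.mk_one, Fin.zero_eta, Fin.reduceFinMk, Fin.isValue, map_add, map_sub, map_mul, map_neg, map_pow, map_one, map_zero, H.qz, d.add, D_sub, D_neg, d.leib, D_pow4, D_pow5, D_one, D_zero, H.h1x, H.h1z, H.h1t]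
    try linear_combination (0) * H.five + (0) * H.qx
  · simp only [P4, E41, Matrix.mul_apply, Matrix.map_apply, Fin.sum_univ_four, Matrix.of_apply, Matrix.cons_val', Matrix.cons_val, Matrix.cons_val_fin_one, Fin.mk_zero, Fin.mk_one, Fin.zero_eta, Fin.reduceFinMk, Fin.isValue, map_add, map_sub, map_mul, map_neg, map_pow, map_one, map_zero, H.qz, d.add, D_sub, D_neg, d.leib, D_pow4, D_pow5, D_one, D_zero, H.h1x, H.h1z, H.h1t]
    try linear_combination (0) * H.five + (0) * H.qx
  · simp only [P4, E41, Matrix.mul_apply, Matrix.map_apply, Fin.sum_univ_four, Matrix.of_apply, Matrix.cons_val', Matrix.cons_val, Matrix.cons_val_fin_one, Fin.mk_zero, Fin.mk_one, Fin.zero_eta, Fin.reduceFinMk, Fin.isValue, map_add, map_sub, map_mul, map_neg, map_pow, map_one, map_zero, H.qz, d.add, D_sub, D_neg, d.leib, D_pow4, D_pow5, D_one, D_zero, H.h1x, H.h1z, H.h1t]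
    try linear_combination (0) * H.five + (0) * H.qx
  · simp only [P4, E41, Matrix.mul_apply, Matrix.map_apply, Fin.sum_univ_four, Matrix.of_apply, Matrix.cons_val', Matrix.cons_val, Matrix.cons_val_fin_one, Fin.mk_zero, Fin.mk_one, Fin.zero_eta, Fin.reduceFinMk, Fin.isValue, map_add, map_sub, map_mul, map_neg, map_pow, map_one, map_zero, H.qz, d.add, D_sub, D_neg, d.leib, D_pow4, D_pow5, D_one, D_zero, H.h1x, H.h1z, H.h1t]
    try linear_combination (0) * H.five + (0) * H.qx
  · simp only [P4, E41, Matrix.mul_apply, Matrix.map_apply, Fin.sum_univ_four, Matrix.of_apply, Matrix.cons_val', Matrix.cons_val, Matrix.cons_val_fin_one, Fin.mk_zero, Fin.mk_one, Fin.zero_eta, Fin.reduceFinMk, Fin.isValue, map_add, map_sub, map_mul, map_neg, map_pow, map_one, map_zero, H.qz, d.add, D_sub, D_neg, d.leib, D_pow4, D_pow5, D_one, D_zero, H.h1x, H.h1z, H.h1t]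
    try linear_combination (0) * H.five + (0) * H.qx
  · simp only [P4, E41, Matrix.mul_apply, Matrix.map_apply, Fin.sum_univ_four, Matrix.of_apply, Matrix.cons_val', Matrix.cons_val, Matrix.cons_val_fin_one, Fin.mk_zero, Fin.mk_one, Fin.zero_eta, Fin.reduceFinMk, Fin.isValue, map_add, map_sub, map_mul, map_neg, map_pow, map_one, map_zero, H.qz, d.add, D_sub, D_neg, d.leib, D_pow4, D_pow5, D_one, D_zero, H.h1x, H.h1z, H.h1t]
    try linear_combination (0) * H.five + (0) * H.qx
  · simp only [P4, E41, Matrix.mul_apply, Matrix.map_apply, Fin.sum_univ_four, Matrix.of_apply, Matrix.cons_val', Matrix.cons_val, Matrix.cons_val_fin_one, Fin.mk_zero, Fin.mk_one, Fin.zero_eta, Fin.reduceFinMk, Fin.isValue, map_add, map_sub, map_mul, map_neg, map_pow, map_one, map_zero, H.qz, d.add, D_sub, D_neg, d.leib, D_pow4, D_pow5, D_one, D_zero, H.h1x, H.h1z, H.h1t]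
    try linear_combination (0) * H.five + (0) * H.qx
  · simp only [P4, E41, Matrix.mul_apply, Matrix.map_apply, Fin.sum_univ_four, Matrix.of_apply, Matrix.cons_val', Matrix.cons_val, Matrix.cons_val_fin_one, Fin.mk_zero, Fin.mk_one, Fin.zero_eta, Fin.reduceFinMk, Fin.isValue, map_add, map_sub, map_mul, map_neg, map_pow, map_one, map_zero, H.qz, d.add, D_sub, D_neg, d.leib, D_pow4, D_pow5, D_one, D_zero, H.h1x, H.h1z, H.h1t]
    try linear_combination (0) * H.five + (0) * H.qx
  · simp only [P4, E41, Matrix.mul_apply, Matrix.map_apply, Fin.sum_univ_four, Matrix.of_apply, Matrix.cons_val', Matrix.cons_val, Matrix.cons_val_fin_one, Fin.mk_zero, Fin.mk_one, Fin.zero_eta, Fin.reduceFinMk, Fin.isValue, map_add, map_sub, map_mul, map_neg, map_pow, map_one, map_zero, H.qz, d.add, D_sub, D_neg, d.leib, D_pow4, D_pow5, D_one, D_zero, H.h1x, H.h1z, H.h1t]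
    try linear_combination (0) * H.five + (0) * H.qx
  · simp only [P4, E41, Matrix.mul_apply, Matrix.map_apply, Fin.sum_univ_four, Matrix.of_apply, Matrix.cons_val', Matrix.cons_val, Matrix.cons_val_fin_one, Fin.mk_zero, Fin.mk_one, Fin.zero_eta, Fin.reduceFinMk, Fin.isValue, map_add, map_sub, map_mul, map_neg, map_pow, map_one, map_zero, H.qz, d.add, D_sub, D_neg, d.leib, D_pow4, D_pow5, D_one, D_zero, H.h1x, H.h1z, H.h1t]
    try linear_combination (0) * H.five + (0) * H.qx
  · simp only [P4, E41, Matrix.mul_apply, Matrix.map_apply, Fin.sum_univ_four, Matrix.of_apply, Matrix.cons_val', Matrix.cons_val, Matrix.cons_val_fin_one, Fin.mk_zero, Fin.mk_one, Fin.zero_eta, Fin.reduceFinMk, Fin.isValue, map_add, map_sub, map_mul, map_neg, map_pow, map_one, map_zero, H.qz, d.add, D_sub, D_neg, d.leib, D_pow4, D_pow5, D_one, D_zero, H.h1x, H.h1z, H.h1t]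
    try linear_combination (0) * H.five + (0) * H.qx

theorem map_D_4_2 : (P4 x z t).map (d.D 2) = E42 (d.q x) (d.q t) := by
  ext i j
  fin_cases i <;> fin_cases j
  · simp only [P4, E42, Matrix.mul_apply, Matrix.map_apply, Fin.sum_univ_four, Matrix.of_apply, Matrix.cons_val', Matrix.cons_val, Matrix.cons_val_fin_one, Fin.mk_zero, Fin.mk_one, Fin.zero_eta, Fin.reduceFinMk, Fin.isValue, map_add, map_sub, map_mul, map_neg, map_pow, map_one, map_zero, H.qz, d.add, D_sub, D_neg, d.leib, D_pow4, D_pow5, D_one, D_zero, H.h2x, H.h2z, H.h2t]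
    try linear_combination (0) * H.five + (0) * H.qx
  · simp only [P4, E42, Matrix.mul_apply, Matrix.map_apply, Fin.sum_univ_four, Matrix.of_apply, Matrix.cons_val', Matrix.cons_val, Matrix.cons_val_fin_one, Fin.mk_zero, Fin.mk_one, Fin.zero_eta, Fin.reduceFinMk, Fin.isValue, map_add, map_sub, map_mul, map_neg, map_pow, map_one, map_zero, H.qz, d.add, D_sub, D_neg, d.leib, D_pow4, D_pow5, D_one, D_zero, H.h2x, H.h2z, H.h2t]
    try linear_combination (0) * H.five + (0) * H.qx
  · simp only [P4, E42, Matrix.mul_apply, Matrix.map_apply, Fin.sum_univ_four, Matrix.of_apply, Matrix.cons_val', Matrix.cons_val, Matrix.cons_val_fin_one, Fin.mk_zero, Fin.mk_one, Fin.zero_eta, Fin.reduceFinMk, Fin.isValue, map_add, map_sub, map_mul, map_neg, map_pow, map_one, map_zero, H.qz, d.add, D_sub, D_neg, d.leib, D_pow4, D_pow5, D_one, D_zero, H.h2x, H.h2z, H.h2t]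
    try linear_combination (0) * H.five + (0) * H.qx
  · simp only [P4, E42, Matrix.mul_apply, Matrix.map_apply, Fin.sum_univ_four, Matrix.of_apply, Matrix.cons_val', Matrix.cons_val, Matrix.cons_val_fin_one, Fin.mk_zero, Fin.mk_one, Fin.zero_eta, Fin.reduceFinMk, Fin.isValue, map_add, map_sub, map_mul, map_neg, map_pow, map_one, map_zero, H.qz, d.add, D_sub, D_neg, d.leib, D_pow4, D_pow5, D_one, D_zero, H.h2x, H.h2z, H.h2t]
    try linear_combination (0) * H.five + (0) * H.qx
  · simp only [P4, E42, Matrix.mul_apply, Matrix.map_apply, Fin.sum_univ_four, Matrix.of_apply, Matrix.cons_val', Matrix.cons_val, Matrix.cons_val_fin_one, Fin.mk_zero, Fin.mk_one, Fin.zero_eta, Fin.reduceFinMk, Fin.isValue, map_add, map_sub, map_mul, map_neg, map_pow, map_one, map_zero, H.qz, d.add, D_sub, D_neg, d.leib, D_pow4, D_pow5, D_one, D_zero, H.h2x, H.h2z, H.h2t]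
    try linear_combination (0) * H.five + (-1) * H.qx
  · simp only [P4, E42, Matrix.mul_apply, Matrix.map_apply, Fin.sum_univ_four, Matrix.of_apply, Matrix.cons_val', Matrix.cons_val, Matrix.cons_val_fin_one, Fin.mk_zero, Fin.mk_one, Fin.zero_eta, Fin.reduceFinMk, Fin.isValue, map_add, map_sub, map_mul, map_neg, map_pow, map_one, map_zero, H.qz, d.add, D_sub, D_neg, d.leib, D_pow4, D_pow5, D_one, D_zero, H.h2x, H.h2z, H.h2t]
    try linear_combination (0) * H.five + (0) * H.qx
  · simp only [P4, E42, Matrix.mul_apply, Matrix.map_apply, Fin.sum_univ_four, Matrix.of_apply, Matrix.cons_val', Matrix.cons_val, Matrix.cons_val_fin_one, Fin.mk_zero, Fin.mk_one, Fin.zero_eta, Fin.reduceFinMk, Fin.isValue, map_add, map_sub, map_mul, map_neg, map_pow, map_one, map_zero, H.qz, d.add, D_sub, D_neg, d.leib, D_pow4, D_pow5, D_one, D_zero, H.h2x, H.h2z, H.h2t]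
    try linear_combination (0) * H.five + (0) * H.qx
  · simp only [P4, E42, Matrix.mul_apply, Matrix.map_apply, Fin.sum_univ_four, Matrix.of_apply, Matrix.cons_val', Matrix.cons_val, Matrix.cons_val_fin_one, Fin.mk_zero, Fin.mk_one, Fin.zero_eta, Fin.reduceFinMk, Fin.isValue, map_add, map_sub, map_mul, map_neg, map_pow, map_one, map_zero, H.qz, d.add, D_sub, D_neg, d.leib, D_pow4, D_pow5, D_one, D_zero, H.h2x, H.h2z, H.h2t]
    try linear_combination (0) * H.five + (0) * H.qx
  · simp only [P4, E42, Matrix.mul_apply, Matrix.map_apply, Fin.sum_univ_four, Matrix.of_apply, Matrix.cons_val', Matrix.cons_val, Matrix.cons_val_fin_one, Fin.mk_zero, Fin.mk_one, Fin.zero_eta, Fin.reduceFinMk, Fin.isValue, map_add, map_sub, map_mul, map_neg, map_pow, map_one, map_zero, H.qz, d.add, D_sub, D_neg, d.leib, D_pow4, D_pow5, D_one, D_zero, H.h2x, H.h2z, H.h2t]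
    try linear_combination (0) * H.five + (0) * H.qx
  · simp only [P4, E42, Matrix.mul_apply, Matrix.map_apply, Fin.sum_univ_four, Matrix.of_apply, Matrix.cons_val', Matrix.cons_val, Matrix.cons_val_fin_one, Fin.mk_zero, Fin.mk_one, Fin.zero_eta, Fin.reduceFinMk, Fin.isValue, map_add, map_sub, map_mul, map_neg, map_pow, map_one, map_zero, H.qz, d.add, D_sub, D_neg, d.leib, D_pow4, D_pow5, D_one, D_zero, H.h2x, H.h2z, H.h2t]
    try linear_combination (0) * H.five + (0) * H.qx
  · simp only [P4, E42, Matrix.mul_apply, Matrix.map_apply, Fin.sum_univ_four, Matrix.of_apply, Matrix.cons_val', Matrix.cons_val, Matrix.cons_val_fin_one, Fin.mk_zero, Fin.mk_one, Fin.zero_eta, Fin.reduceFinMk, Fin.isValue, map_add, map_sub, map_mul, map_neg, map_pow, map_one, map_zero, H.qz, d.add, D_sub, D_neg, d.leib, D_pow4, D_pow5, D_one, D_zero, H.h2x, H.h2z, H.h2t]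
    try linear_combination (0) * H.five + (0) * H.qx
  · simp only [P4, E42, Matrix.mul_apply, Matrix.map_apply, Fin.sum_univ_four, Matrix.of_apply, Matrix.cons_val', Matrix.cons_val, Matrix.cons_val_fin_one, Fin.mk_zero, Fin.mk_one, Fin.zero_eta, Fin.reduceFinMk, Fin.isValue, map_add, map_sub, map_mul, map_neg, map_pow, map_one, map_zero, H.qz, d.add, D_sub, D_neg, d.leib, D_pow4, D_pow5, D_one, D_zero, H.h2x, H.h2z, H.h2t]
    try linear_combination (0) * H.five + (0) * H.qx
  · simp only [P4, E42, Matrix.mul_apply, Matrix.map_apply, Fin.sum_univ_four, Matrix.of_apply, Matrix.cons_val', Matrix.cons_val, Matrix.cons_val_fin_one, Fin.mk_zero, Fin.mk_one, Fin.zero_eta, Fin.reduceFinMk, Fin.isValue, map_add, map_sub, map_mul, map_neg, map_pow, map_one, map_zero, H.qz, d.add, D_sub, D_neg, d.leib, D_pow4, D_pow5, D_one, D_zero, H.h2x, H.h2z, H.h2t]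
    try linear_combination (0) * H.five + (0) * H.qx
  · simp only [P4, E42, Matrix.mul_apply, Matrix.map_apply, Fin.sum_univ_four, Matrix.of_apply, Matrix.cons_val', Matrix.cons_val, Matrix.cons_val_fin_one, Fin.mk_zero, Fin.mk_one, Fin.zero_eta, Fin.reduceFinMk, Fin.isValue, map_add, map_sub, map_mul, map_neg, map_pow, map_one, map_zero, H.qz, d.add, D_sub, D_neg, d.leib, D_pow4, D_pow5, D_one, D_zero, H.h2x, H.h2z, H.h2t]
    try linear_combination (0) * H.five + (0) * H.qx
  · simp only [P4, E42, Matrix.mul_apply, Matrix.map_apply, Fin.sum_univ_four, Matrix.of_apply, Matrix.cons_val', Matrix.cons_val, Matrix.cons_val_fin_one, Fin.mk_zero, Fin.mk_one, Fin.zero_eta, Fin.reduceFinMk, Fin.isValue, map_add, map_sub, map_mul, map_neg, map_pow, map_one, map_zero, H.qz, d.add, D_sub, D_neg, d.leib, D_pow4, D_pow5, D_one, D_zero, H.h2x, H.h2z, H.h2t]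
    try linear_combination (0) * H.five + (0) * H.qx
  · simp only [P4, E42, Matrix.mul_apply, Matrix.map_apply, Fin.sum_univ_four, Matrix.of_apply, Matrix.cons_val', Matrix.cons_val, Matrix.cons_val_fin_one, Fin.mk_zero, Fin.mk_one, Fin.zero_eta, Fin.reduceFinMk, Fin.isValue, map_add, map_sub, map_mul, map_neg, map_pow, map_one, map_zero, H.qz, d.add, D_sub, D_neg, d.leib, D_pow4, D_pow5, D_one, D_zero, H.h2x, H.h2z, H.h2t]
    try linear_combination (0) * H.five + (0) * H.qx

theorem tr_2_4_2 : Matrix.trace (G4 (d.q x) (d.q t) * E20 (d.q x) (d.q t) * E21 (d.q x) (d.q t) * E22 (d.q x) (d.q t)) =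
    0 := by
  have e1 : G4 (d.q x) (d.q t) * E20 (d.q x) (d.q t) =
      !![0, 0, 0, -d.q x^3*d.q t; -d.q x^4*d.q t, -2*d.q x^4*d.q t, d.q x^3*d.q t, -d.q x^3*d.q t; 2, 0, -2*d.q x^4*d.q t, 2*d.q x^4*d.q t; -1, -2, d.q x^4*d.q t, -d.q x^4*d.q t] := by
    ext i j
    fin_cases i <;> fin_cases j
    · simp only [G4, E20, Matrix.mul_apply, Matrix.map_apply, Fin.sum_univ_four, Matrix.of_apply, Matrix.cons_val', Matrix.cons_val, Matrix.cons_val_fin_one, Fin.mk_zero, Fin.mk_one, Fin.zero_eta, Fin.reduceFinMk, Fin.isValue]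
      try linear_combination (0) * H.five + (0) * H.qx
    · simp only [G4, E20, Matrix.mul_apply, Matrix.map_apply, Fin.sum_univ_four, Matrix.of_apply, Matrix.cons_val', Matrix.cons_val, Matrix.cons_val_fin_one, Fin.mk_zero, Fin.mk_one, Fin.zero_eta, Fin.reduceFinMk, Fin.isValue]
      try linear_combination (0) * H.five + (0) * H.qx
    · simp only [G4, E20, Matrix.mul_apply, Matrix.map_apply, Fin.sum_univ_four, Matrix.of_apply, Matrix.cons_val', Matrix.cons_val, Matrix.cons_val_fin_one, Fin.mk_zero, Fin.mk_one, Fin.zero_eta, Fin.reduceFinMk, Fin.isValue]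
      try linear_combination (0) * H.five + (0) * H.qx
    · simp only [G4, E20, Matrix.mul_apply, Matrix.map_apply, Fin.sum_univ_four, Matrix.of_apply, Matrix.cons_val', Matrix.cons_val, Matrix.cons_val_fin_one, Fin.mk_zero, Fin.mk_one, Fin.zero_eta, Fin.reduceFinMk, Fin.isValue]
      try linear_combination (d.q x^3*d.q t) * H.five + (0) * H.qx
    · simp only [G4, E20, Matrix.mul_apply, Matrix.map_apply, Fin.sum_univ_four, Matrix.of_apply, Matrix.cons_val', Matrix.cons_val, Matrix.cons_val_fin_one, Fin.mk_zero, Fin.mk_one, Fin.zero_eta, Fin.reduceFinMk, Fin.isValue]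
      try linear_combination (0) * H.five + (0) * H.qx
    · simp only [G4, E20, Matrix.mul_apply, Matrix.map_apply, Fin.sum_univ_four, Matrix.of_apply, Matrix.cons_val', Matrix.cons_val, Matrix.cons_val_fin_one, Fin.mk_zero, Fin.mk_one, Fin.zero_eta, Fin.reduceFinMk, Fin.isValue]
      try linear_combination (0) * H.five + (0) * H.qx
    · simp only [G4, E20, Matrix.mul_apply, Matrix.map_apply, Fin.sum_univ_four, Matrix.of_apply, Matrix.cons_val', Matrix.cons_val, Matrix.cons_val_fin_one, Fin.mk_zero, Fin.mk_one, Fin.zero_eta, Fin.reduceFinMk, Fin.isValue]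
      try linear_combination (0) * H.five + (0) * H.qx
    · simp only [G4, E20, Matrix.mul_apply, Matrix.map_apply, Fin.sum_univ_four, Matrix.of_apply, Matrix.cons_val', Matrix.cons_val, Matrix.cons_val_fin_one, Fin.mk_zero, Fin.mk_one, Fin.zero_eta, Fin.reduceFinMk, Fin.isValue]
      try linear_combination (0) * H.five + (0) * H.qx
    · simp only [G4, E20, Matrix.mul_apply, Matrix.map_apply, Fin.sum_univ_four, Matrix.of_apply, Matrix.cons_val', Matrix.cons_val, Matrix.cons_val_fin_one, Fin.mk_zero, Fin.mk_one, Fin.zero_eta, Fin.reduceFinMk, Fin.isValue]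
      try linear_combination (0) * H.five + (0) * H.qx
    · simp only [G4, E20, Matrix.mul_apply, Matrix.map_apply, Fin.sum_univ_four, Matrix.of_apply, Matrix.cons_val', Matrix.cons_val, Matrix.cons_val_fin_one, Fin.mk_zero, Fin.mk_one, Fin.zero_eta, Fin.reduceFinMk, Fin.isValue]
      try linear_combination (1) * H.five + (0) * H.qx
    · simp only [G4, E20, Matrix.mul_apply, Matrix.map_apply, Fin.sum_univ_four, Matrix.of_apply, Matrix.cons_val', Matrix.cons_val, Matrix.cons_val_fin_one, Fin.mk_zero, Fin.mk_one, Fin.zero_eta, Fin.reduceFinMk, Fin.isValue]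
      try linear_combination (0) * H.five + (0) * H.qx
    · simp only [G4, E20, Matrix.mul_apply, Matrix.map_apply, Fin.sum_univ_four, Matrix.of_apply, Matrix.cons_val', Matrix.cons_val, Matrix.cons_val_fin_one, Fin.mk_zero, Fin.mk_one, Fin.zero_eta, Fin.reduceFinMk, Fin.isValue]
      try linear_combination (0) * H.five + (0) * H.qx
    · simp only [G4, E20, Matrix.mul_apply, Matrix.map_apply, Fin.sum_univ_four, Matrix.of_apply, Matrix.cons_val', Matrix.cons_val, Matrix.cons_val_fin_one, Fin.mk_zero, Fin.mk_one, Fin.zero_eta, Fin.reduceFinMk, Fin.isValue]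
      try linear_combination (0) * H.five + (0) * H.qx
    · simp only [G4, E20, Matrix.mul_apply, Matrix.map_apply, Fin.sum_univ_four, Matrix.of_apply, Matrix.cons_val', Matrix.cons_val, Matrix.cons_val_fin_one, Fin.mk_zero, Fin.mk_one, Fin.zero_eta, Fin.reduceFinMk, Fin.isValue]
      try linear_combination (0) * H.five + (0) * H.qx
    · simp only [G4, E20, Matrix.mul_apply, Matrix.map_apply, Fin.sum_univ_four, Matrix.of_apply, Matrix.cons_val', Matrix.cons_val, Matrix.cons_val_fin_one, Fin.mk_zero, Fin.mk_one, Fin.zero_eta, Fin.reduceFinMk, Fin.isValue]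
      try linear_combination (0) * H.five + (0) * H.qx
    · simp only [G4, E20, Matrix.mul_apply, Matrix.map_apply, Fin.sum_univ_four, Matrix.of_apply, Matrix.cons_val', Matrix.cons_val, Matrix.cons_val_fin_one, Fin.mk_zero, Fin.mk_one, Fin.zero_eta, Fin.reduceFinMk, Fin.isValue]
      try linear_combination (0) * H.five + (0) * H.qx
  have e2 : E21 (d.q x) (d.q t) * E22 (d.q x) (d.q t) =
      !![0, 0, 2*d.q x^4, 2*d.q x^4; 0, 0, -2*d.q x^4, d.q x^4; 0, 0, 0, 0; 0, 0, 0, 0] := by
    ext i j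
    fin_cases i <;> fin_cases j
    · simp only [E21, E22, Matrix.mul_apply, Matrix.map_apply, Fin.sum_univ_four, Matrix.of_apply, Matrix.cons_val', Matrix.cons_val, Matrix.cons_val_fin_one, Fin.mk_zero, Fin.mk_one, Fin.zero_eta, Fin.reduceFinMk, Fin.isValue]
      try linear_combination (0) * H.five + (0) * H.qx
    · simp only [E21, E22, Matrix.mul_apply, Matrix.map_apply, Fin.sum_univ_four, Matrix.of_apply, Matrix.cons_val', Matrix.cons_val, Matrix.cons_val_fin_one, Fin.mk_zero, Fin.mk_one, Fin.zero_eta, Fin.reduceFinMk, Fin.isValue]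
      try linear_combination (0) * H.five + (0) * H.qx
    · simp only [E21, E22, Matrix.mul_apply, Matrix.map_apply, Fin.sum_univ_four, Matrix.of_apply, Matrix.cons_val', Matrix.cons_val, Matrix.cons_val_fin_one, Fin.mk_zero, Fin.mk_one, Fin.zero_eta, Fin.reduceFinMk, Fin.isValue]
      try linear_combination (0) * H.five + (0) * H.qx
    · simp only [E21, E22, Matrix.mul_apply, Matrix.map_apply, Fin.sum_univ_four, Matrix.of_apply, Matrix.cons_val', Matrix.cons_val, Matrix.cons_val_fin_one, Fin.mk_zero, Fin.mk_one, Fin.zero_eta, Fin.reduceFinMk, Fin.isValue]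
      try linear_combination (0) * H.five + (0) * H.qx
    · simp only [E21, E22, Matrix.mul_apply, Matrix.map_apply, Fin.sum_univ_four, Matrix.of_apply, Matrix.cons_val', Matrix.cons_val, Matrix.cons_val_fin_one, Fin.mk_zero, Fin.mk_one, Fin.zero_eta, Fin.reduceFinMk, Fin.isValue]
      try linear_combination (0) * H.five + (0) * H.qx
    · simp only [E21, E22, Matrix.mul_apply, Matrix.map_apply, Fin.sum_univ_four, Matrix.of_apply, Matrix.cons_val', Matrix.cons_val, Matrix.cons_val_fin_one, Fin.mk_zero, Fin.mk_one, Fin.zero_eta, Fin.reduceFinMk, Fin.isValue]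
      try linear_combination (0) * H.five + (0) * H.qx
    · simp only [E21, E22, Matrix.mul_apply, Matrix.map_apply, Fin.sum_univ_four, Matrix.of_apply, Matrix.cons_val', Matrix.cons_val, Matrix.cons_val_fin_one, Fin.mk_zero, Fin.mk_one, Fin.zero_eta, Fin.reduceFinMk, Fin.isValue]
      try linear_combination (d.q x^4) * H.five + (0) * H.qx
    · simp only [E21, E22, Matrix.mul_apply, Matrix.map_apply, Fin.sum_univ_four, Matrix.of_apply, Matrix.cons_val', Matrix.cons_val, Matrix.cons_val_fin_one, Fin.mk_zero, Fin.mk_one, Fin.zero_eta, Fin.reduceFinMk, Fin.isValue]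
      try linear_combination (0) * H.five + (0) * H.qx
    · simp only [E21, E22, Matrix.mul_apply, Matrix.map_apply, Fin.sum_univ_four, Matrix.of_apply, Matrix.cons_val', Matrix.cons_val, Matrix.cons_val_fin_one, Fin.mk_zero, Fin.mk_one, Fin.zero_eta, Fin.reduceFinMk, Fin.isValue]
      try linear_combination (0) * H.five + (0) * H.qx
    · simp only [E21, E22, Matrix.mul_apply, Matrix.map_apply, Fin.sum_univ_four, Matrix.of_apply, Matrix.cons_val', Matrix.cons_val, Matrix.cons_val_fin_one, Fin.mk_zero, Fin.mk_one, Fin.zero_eta, Fin.reduceFinMk, Fin.isValue]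
      try linear_combination (0) * H.five + (0) * H.qx
    · simp only [E21, E22, Matrix.mul_apply, Matrix.map_apply, Fin.sum_univ_four, Matrix.of_apply, Matrix.cons_val', Matrix.cons_val, Matrix.cons_val_fin_one, Fin.mk_zero, Fin.mk_one, Fin.zero_eta, Fin.reduceFinMk, Fin.isValue]
      try linear_combination (0) * H.five + (-2) * H.qx
    · simp only [E21, E22, Matrix.mul_apply, Matrix.map_apply, Fin.sum_univ_four, Matrix.of_apply, Matrix.cons_val', Matrix.cons_val, Matrix.cons_val_fin_one, Fin.mk_zero, Fin.mk_one, Fin.zero_eta, Fin.reduceFinMk, Fin.isValue]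
      try linear_combination (0) * H.five + (-2) * H.qx
    · simp only [E21, E22, Matrix.mul_apply, Matrix.map_apply, Fin.sum_univ_four, Matrix.of_apply, Matrix.cons_val', Matrix.cons_val, Matrix.cons_val_fin_one, Fin.mk_zero, Fin.mk_one, Fin.zero_eta, Fin.reduceFinMk, Fin.isValue]
      try linear_combination (0) * H.five + (0) * H.qx
    · simp only [E21, E22, Matrix.mul_apply, Matrix.map_apply, Fin.sum_univ_four, Matrix.of_apply, Matrix.cons_val', Matrix.cons_val, Matrix.cons_val_fin_one, Fin.mk_zero, Fin.mk_one, Fin.zero_eta, Fin.reduceFinMk, Fin.isValue]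
      try linear_combination (0) * H.five + (0) * H.qx
    · simp only [E21, E22, Matrix.mul_apply, Matrix.map_apply, Fin.sum_univ_four, Matrix.of_apply, Matrix.cons_val', Matrix.cons_val, Matrix.cons_val_fin_one, Fin.mk_zero, Fin.mk_one, Fin.zero_eta, Fin.reduceFinMk, Fin.isValue]
      try linear_combination (0) * H.five + (0) * H.qx
    · simp only [E21, E22, Matrix.mul_apply, Matrix.map_apply, Fin.sum_univ_four, Matrix.of_apply, Matrix.cons_val', Matrix.cons_val, Matrix.cons_val_fin_one, Fin.mk_zero, Fin.mk_one, Fin.zero_eta, Fin.reduceFinMk, Fin.isValue]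
      try linear_combination (0) * H.five + (0) * H.qx
  rw [Matrix.mul_assoc, e1, e2]
  simp only [Matrix.trace, Matrix.diag_apply, Matrix.mul_apply, Fin.sum_univ_four, Matrix.of_apply, Matrix.cons_val', Matrix.cons_val, Matrix.cons_val_fin_one, Fin.isValue]
  linear_combination (0) * H.five + (0) * H.qx

theorem tr_2_2_4 : Matrix.trace (G2 (d.q x) (d.q t) * E20 (d.q x) (d.q t) * E41 (d.q x) (d.q t) * E22 (d.q x) (d.q t)) =
    2*d.q x^4 := by
  have e1 : G2 (d.q x) (d.q t) * E20 (d.q x) (d.q t) =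
      !![d.q x^4*d.q t, d.q x^4*d.q t, 2*d.q x^3*d.q t, 0; -2*d.q x^4*d.q t, -d.q x^4*d.q t, -d.q x^3*d.q t, -2*d.q x^3*d.q t; -1, 1, -2*d.q x^4*d.q t, 0; 2, 2, 2*d.q x^4*d.q t, 2*d.q x^4*d.q t] := by
    ext i j
    fin_cases i <;> fin_cases j
    · simp only [G2, E20, Matrix.mul_apply, Matrix.map_apply, Fin.sum_univ_four, Matrix.of_apply, Matrix.cons_val', Matrix.cons_val, Matrix.cons_val_fin_one, Fin.mk_zero, Fin.mk_one, Fin.zero_eta, Fin.reduceFinMk, Fin.isValue]
      try linear_combination (0) * H.five + (0) * H.qx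
    · simp only [G2, E20, Matrix.mul_apply, Matrix.map_apply, Fin.sum_univ_four, Matrix.of_apply, Matrix.cons_val', Matrix.cons_val, Matrix.cons_val_fin_one, Fin.mk_zero, Fin.mk_one, Fin.zero_eta, Fin.reduceFinMk, Fin.isValue]
      try linear_combination (0) * H.five + (0) * H.qx
    · simp only [G2, E20, Matrix.mul_apply, Matrix.map_apply, Fin.sum_univ_four, Matrix.of_apply, Matrix.cons_val', Matrix.cons_val, Matrix.cons_val_fin_one, Fin.mk_zero, Fin.mk_one, Fin.zero_eta, Fin.reduceFinMk, Fin.isValue]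
      try linear_combination (-d.q x^3*d.q t) * H.five + (0) * H.qx
    · simp only [G2, E20, Matrix.mul_apply, Matrix.map_apply, Fin.sum_univ_four, Matrix.of_apply, Matrix.cons_val', Matrix.cons_val, Matrix.cons_val_fin_one, Fin.mk_zero, Fin.mk_one, Fin.zero_eta, Fin.reduceFinMk, Fin.isValue]
      try linear_combination (-d.q x^3*d.q t) * H.five + (0) * H.qx
    · simp only [G2, E20, Matrix.mul_apply, Matrix.map_apply, Fin.sum_univ_four, Matrix.of_apply, Matrix.cons_val', Matrix.cons_val, Matrix.cons_val_fin_one, Fin.mk_zero, Fin.mk_one, Fin.zero_eta, Fin.reduceFinMk, Fin.isValue]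
      try linear_combination (0) * H.five + (0) * H.qx
    · simp only [G2, E20, Matrix.mul_apply, Matrix.map_apply, Fin.sum_univ_four, Matrix.of_apply, Matrix.cons_val', Matrix.cons_val, Matrix.cons_val_fin_one, Fin.mk_zero, Fin.mk_one, Fin.zero_eta, Fin.reduceFinMk, Fin.isValue]
      try linear_combination (-d.q x^4*d.q t) * H.five + (0) * H.qx
    · simp only [G2, E20, Matrix.mul_apply, Matrix.map_apply, Fin.sum_univ_four, Matrix.of_apply, Matrix.cons_val', Matrix.cons_val, Matrix.cons_val_fin_one, Fin.mk_zero, Fin.mk_one, Fin.zero_eta, Fin.reduceFinMk, Fin.isValue]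
      try linear_combination (-d.q x^3*d.q t) * H.five + (0) * H.qx
    · simp only [G2, E20, Matrix.mul_apply, Matrix.map_apply, Fin.sum_univ_four, Matrix.of_apply, Matrix.cons_val', Matrix.cons_val, Matrix.cons_val_fin_one, Fin.mk_zero, Fin.mk_one, Fin.zero_eta, Fin.reduceFinMk, Fin.isValue]
      try linear_combination (0) * H.five + (0) * H.qx
    · simp only [G2, E20, Matrix.mul_apply, Matrix.map_apply, Fin.sum_univ_four, Matrix.of_apply, Matrix.cons_val', Matrix.cons_val, Matrix.cons_val_fin_one, Fin.mk_zero, Fin.mk_one, Fin.zero_eta, Fin.reduceFinMk, Fin.isValue]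
      try linear_combination (0) * H.five + (0) * H.qx
    · simp only [G2, E20, Matrix.mul_apply, Matrix.map_apply, Fin.sum_univ_four, Matrix.of_apply, Matrix.cons_val', Matrix.cons_val, Matrix.cons_val_fin_one, Fin.mk_zero, Fin.mk_one, Fin.zero_eta, Fin.reduceFinMk, Fin.isValue]
      try linear_combination (-1) * H.five + (0) * H.qx
    · simp only [G2, E20, Matrix.mul_apply, Matrix.map_apply, Fin.sum_univ_four, Matrix.of_apply, Matrix.cons_val', Matrix.cons_val, Matrix.cons_val_fin_one, Fin.mk_zero, Fin.mk_one, Fin.zero_eta, Fin.reduceFinMk, Fin.isValue]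
      try linear_combination (d.q x^4*d.q t) * H.five + (0) * H.qx
    · simp only [G2, E20, Matrix.mul_apply, Matrix.map_apply, Fin.sum_univ_four, Matrix.of_apply, Matrix.cons_val', Matrix.cons_val, Matrix.cons_val_fin_one, Fin.mk_zero, Fin.mk_one, Fin.zero_eta, Fin.reduceFinMk, Fin.isValue]
      try linear_combination (d.q x^4*d.q t) * H.five + (0) * H.qx
    · simp only [G2, E20, Matrix.mul_apply, Matrix.map_apply, Fin.sum_univ_four, Matrix.of_apply, Matrix.cons_val', Matrix.cons_val, Matrix.cons_val_fin_one, Fin.mk_zero, Fin.mk_one, Fin.zero_eta, Fin.reduceFinMk, Fin.isValue]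
      try linear_combination (0) * H.five + (0) * H.qx
    · simp only [G2, E20, Matrix.mul_apply, Matrix.map_apply, Fin.sum_univ_four, Matrix.of_apply, Matrix.cons_val', Matrix.cons_val, Matrix.cons_val_fin_one, Fin.mk_zero, Fin.mk_one, Fin.zero_eta, Fin.reduceFinMk, Fin.isValue]
      try linear_combination (0) * H.five + (0) * H.qx
    · simp only [G2, E20, Matrix.mul_apply, Matrix.map_apply, Fin.sum_univ_four, Matrix.of_apply, Matrix.cons_val', Matrix.cons_val, Matrix.cons_val_fin_one, Fin.mk_zero, Fin.mk_one, Fin.zero_eta, Fin.reduceFinMk, Fin.isValue]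
      try linear_combination (0) * H.five + (0) * H.qx
    · simp only [G2, E20, Matrix.mul_apply, Matrix.map_apply, Fin.sum_univ_four, Matrix.of_apply, Matrix.cons_val', Matrix.cons_val, Matrix.cons_val_fin_one, Fin.mk_zero, Fin.mk_one, Fin.zero_eta, Fin.reduceFinMk, Fin.isValue]
      try linear_combination (0) * H.five + (0) * H.qx
  have e2 : E41 (d.q x) (d.q t) * E22 (d.q x) (d.q t) =
      !![0, 0, d.q x^4, -d.q x^4; 0, 0, 0, 0; 0, 0, 0, 0; 0, 0, 0, 0] := by
    ext i j
    fin_cases i <;> fin_cases j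
    · simp only [E41, E22, Matrix.mul_apply, Matrix.map_apply, Fin.sum_univ_four, Matrix.of_apply, Matrix.cons_val', Matrix.cons_val, Matrix.cons_val_fin_one, Fin.mk_zero, Fin.mk_one, Fin.zero_eta, Fin.reduceFinMk, Fin.isValue]
      try linear_combination (0) * H.five + (0) * H.qx
    · simp only [E41, E22, Matrix.mul_apply, Matrix.map_apply, Fin.sum_univ_four, Matrix.of_apply, Matrix.cons_val', Matrix.cons_val, Matrix.cons_val_fin_one, Fin.mk_zero, Fin.mk_one, Fin.zero_eta, Fin.reduceFinMk, Fin.isValue]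
      try linear_combination (0) * H.five + (0) * H.qx
    · simp only [E41, E22, Matrix.mul_apply, Matrix.map_apply, Fin.sum_univ_four, Matrix.of_apply, Matrix.cons_val', Matrix.cons_val, Matrix.cons_val_fin_one, Fin.mk_zero, Fin.mk_one, Fin.zero_eta, Fin.reduceFinMk, Fin.isValue]
      try linear_combination (0) * H.five + (0) * H.qx
    · simp only [E41, E22, Matrix.mul_apply, Matrix.map_apply, Fin.sum_univ_four, Matrix.of_apply, Matrix.cons_val', Matrix.cons_val, Matrix.cons_val_fin_one, Fin.mk_zero, Fin.mk_one, Fin.zero_eta, Fin.reduceFinMk, Fin.isValue]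
      try linear_combination (0) * H.five + (0) * H.qx
    · simp only [E41, E22, Matrix.mul_apply, Matrix.map_apply, Fin.sum_univ_four, Matrix.of_apply, Matrix.cons_val', Matrix.cons_val, Matrix.cons_val_fin_one, Fin.mk_zero, Fin.mk_one, Fin.zero_eta, Fin.reduceFinMk, Fin.isValue]
      try linear_combination (0) * H.five + (0) * H.qx
    · simp only [E41, E22, Matrix.mul_apply, Matrix.map_apply, Fin.sum_univ_four, Matrix.of_apply, Matrix.cons_val', Matrix.cons_val, Matrix.cons_val_fin_one, Fin.mk_zero, Fin.mk_one, Fin.zero_eta, Fin.reduceFinMk, Fin.isValue]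
      try linear_combination (0) * H.five + (0) * H.qx
    · simp only [E41, E22, Matrix.mul_apply, Matrix.map_apply, Fin.sum_univ_four, Matrix.of_apply, Matrix.cons_val', Matrix.cons_val, Matrix.cons_val_fin_one, Fin.mk_zero, Fin.mk_one, Fin.zero_eta, Fin.reduceFinMk, Fin.isValue]
      try linear_combination (0) * H.five + (0) * H.qx
    · simp only [E41, E22, Matrix.mul_apply, Matrix.map_apply, Fin.sum_univ_four, Matrix.of_apply, Matrix.cons_val', Matrix.cons_val, Matrix.cons_val_fin_one, Fin.mk_zero, Fin.mk_one, Fin.zero_eta, Fin.reduceFinMk, Fin.isValue]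
      try linear_combination (0) * H.five + (0) * H.qx
    · simp only [E41, E22, Matrix.mul_apply, Matrix.map_apply, Fin.sum_univ_four, Matrix.of_apply, Matrix.cons_val', Matrix.cons_val, Matrix.cons_val_fin_one, Fin.mk_zero, Fin.mk_one, Fin.zero_eta, Fin.reduceFinMk, Fin.isValue]
      try linear_combination (0) * H.five + (0) * H.qx
    · simp only [E41, E22, Matrix.mul_apply, Matrix.map_apply, Fin.sum_univ_four, Matrix.of_apply, Matrix.cons_val', Matrix.cons_val, Matrix.cons_val_fin_one, Fin.mk_zero, Fin.mk_one, Fin.zero_eta, Fin.reduceFinMk, Fin.isValue]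
      try linear_combination (0) * H.five + (0) * H.qx
    · simp only [E41, E22, Matrix.mul_apply, Matrix.map_apply, Fin.sum_univ_four, Matrix.of_apply, Matrix.cons_val', Matrix.cons_val, Matrix.cons_val_fin_one, Fin.mk_zero, Fin.mk_one, Fin.zero_eta, Fin.reduceFinMk, Fin.isValue]
      try linear_combination (0) * H.five + (-1) * H.qx
    · simp only [E41, E22, Matrix.mul_apply, Matrix.map_apply, Fin.sum_univ_four, Matrix.of_apply, Matrix.cons_val', Matrix.cons_val, Matrix.cons_val_fin_one, Fin.mk_zero, Fin.mk_one, Fin.zero_eta, Fin.reduceFinMk, Fin.isValue]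
      try linear_combination (0) * H.five + (1) * H.qx
    · simp only [E41, E22, Matrix.mul_apply, Matrix.map_apply, Fin.sum_univ_four, Matrix.of_apply, Matrix.cons_val', Matrix.cons_val, Matrix.cons_val_fin_one, Fin.mk_zero, Fin.mk_one, Fin.zero_eta, Fin.reduceFinMk, Fin.isValue]
      try linear_combination (0) * H.five + (0) * H.qx
    · simp only [E41, E22, Matrix.mul_apply, Matrix.map_apply, Fin.sum_univ_four, Matrix.of_apply, Matrix.cons_val', Matrix.cons_val, Matrix.cons_val_fin_one, Fin.mk_zero, Fin.mk_one, Fin.zero_eta, Fin.reduceFinMk, Fin.isValue]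
      try linear_combination (0) * H.five + (0) * H.qx
    · simp only [E41, E22, Matrix.mul_apply, Matrix.map_apply, Fin.sum_univ_four, Matrix.of_apply, Matrix.cons_val', Matrix.cons_val, Matrix.cons_val_fin_one, Fin.mk_zero, Fin.mk_one, Fin.zero_eta, Fin.reduceFinMk, Fin.isValue]
      try linear_combination (0) * H.five + (0) * H.qx
    · simp only [E41, E22, Matrix.mul_apply, Matrix.map_apply, Fin.sum_univ_four, Matrix.of_apply, Matrix.cons_val', Matrix.cons_val, Matrix.cons_val_fin_one, Fin.mk_zero, Fin.mk_one, Fin.zero_eta, Fin.reduceFinMk, Fin.isValue]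
      try linear_combination (0) * H.five + (0) * H.qx
  rw [Matrix.mul_assoc, e1, e2]
  simp only [Matrix.trace, Matrix.diag_apply, Matrix.mul_apply, Fin.sum_univ_four, Matrix.of_apply, Matrix.cons_val', Matrix.cons_val, Matrix.cons_val_fin_one, Fin.isValue]
  linear_combination (-d.q x^4) * H.five + (0) * H.qx

theorem tr_2_0_1 : Matrix.trace ((1 : Matrix (Fin 4) (Fin 4) Q) * E20 (d.q x) (d.q t) * E11 (d.q x) (d.q t) * E22 (d.q x) (d.q t)) =
    -d.q x^4 := by
  have e1 : (1 : Matrix (Fin 4) (Fin 4) Q) * E20 (d.q x) (d.q t) =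
      !![0, 0, -d.q x^3*d.q t, d.q x^3*d.q t; 0, 0, 2*d.q x^3*d.q t, 2*d.q x^3*d.q t; 1, 2, 0, 0; 0, 1, 0, 0] := by
    rw [one_mul]; rfl
  have e2 : E11 (d.q x) (d.q t) * E22 (d.q x) (d.q t) =
      !![0, 0, 0, 0; 0, 0, -2*d.q x^4, -2*d.q x^4; 0, 0, 0, 0; 0, 0, 0, 0] := by
    ext i j
    fin_cases i <;> fin_cases j
    · simp only [E11, E22, Matrix.mul_apply, Matrix.map_apply, Fin.sum_univ_four, Matrix.of_apply, Matrix.cons_val', Matrix.cons_val, Matrix.cons_val_fin_one, Fin.mk_zero, Fin.mk_one, Fin.zero_eta, Fin.reduceFinMk, Fin.isValue]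
      try linear_combination (0) * H.five + (0) * H.qx
    · simp only [E11, E22, Matrix.mul_apply, Matrix.map_apply, Fin.sum_univ_four, Matrix.of_apply, Matrix.cons_val', Matrix.cons_val, Matrix.cons_val_fin_one, Fin.mk_zero, Fin.mk_one, Fin.zero_eta, Fin.reduceFinMk, Fin.isValue]
      try linear_combination (0) * H.five + (0) * H.qx
    · simp only [E11, E22, Matrix.mul_apply, Matrix.map_apply, Fin.sum_univ_four, Matrix.of_apply, Matrix.cons_val', Matrix.cons_val, Matrix.cons_val_fin_one, Fin.mk_zero, Fin.mk_one, Fin.zero_eta, Fin.reduceFinMk, Fin.isValue]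
      try linear_combination (0) * H.five + (0) * H.qx
    · simp only [E11, E22, Matrix.mul_apply, Matrix.map_apply, Fin.sum_univ_four, Matrix.of_apply, Matrix.cons_val', Matrix.cons_val, Matrix.cons_val_fin_one, Fin.mk_zero, Fin.mk_one, Fin.zero_eta, Fin.reduceFinMk, Fin.isValue]
      try linear_combination (0) * H.five + (0) * H.qx
    · simp only [E11, E22, Matrix.mul_apply, Matrix.map_apply, Fin.sum_univ_four, Matrix.of_apply, Matrix.cons_val', Matrix.cons_val, Matrix.cons_val_fin_one, Fin.mk_zero, Fin.mk_one, Fin.zero_eta, Fin.reduceFinMk, Fin.isValue]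
      try linear_combination (0) * H.five + (0) * H.qx
    · simp only [E11, E22, Matrix.mul_apply, Matrix.map_apply, Fin.sum_univ_four, Matrix.of_apply, Matrix.cons_val', Matrix.cons_val, Matrix.cons_val_fin_one, Fin.mk_zero, Fin.mk_one, Fin.zero_eta, Fin.reduceFinMk, Fin.isValue]
      try linear_combination (0) * H.five + (0) * H.qx
    · simp only [E11, E22, Matrix.mul_apply, Matrix.map_apply, Fin.sum_univ_four, Matrix.of_apply, Matrix.cons_val', Matrix.cons_val, Matrix.cons_val_fin_one, Fin.mk_zero, Fin.mk_one, Fin.zero_eta, Fin.reduceFinMk, Fin.isValue]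
      try linear_combination (0) * H.five + (0) * H.qx
    · simp only [E11, E22, Matrix.mul_apply, Matrix.map_apply, Fin.sum_univ_four, Matrix.of_apply, Matrix.cons_val', Matrix.cons_val, Matrix.cons_val_fin_one, Fin.mk_zero, Fin.mk_one, Fin.zero_eta, Fin.reduceFinMk, Fin.isValue]
      try linear_combination (0) * H.five + (0) * H.qx
    · simp only [E11, E22, Matrix.mul_apply, Matrix.map_apply, Fin.sum_univ_four, Matrix.of_apply, Matrix.cons_val', Matrix.cons_val, Matrix.cons_val_fin_one, Fin.mk_zero, Fin.mk_one, Fin.zero_eta, Fin.reduceFinMk, Fin.isValue]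
      try linear_combination (0) * H.five + (0) * H.qx
    · simp only [E11, E22, Matrix.mul_apply, Matrix.map_apply, Fin.sum_univ_four, Matrix.of_apply, Matrix.cons_val', Matrix.cons_val, Matrix.cons_val_fin_one, Fin.mk_zero, Fin.mk_one, Fin.zero_eta, Fin.reduceFinMk, Fin.isValue]
      try linear_combination (0) * H.five + (0) * H.qx
    · simp only [E11, E22, Matrix.mul_apply, Matrix.map_apply, Fin.sum_univ_four, Matrix.of_apply, Matrix.cons_val', Matrix.cons_val, Matrix.cons_val_fin_one, Fin.mk_zero, Fin.mk_one, Fin.zero_eta, Fin.reduceFinMk, Fin.isValue]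
      try linear_combination (0) * H.five + (0) * H.qx
    · simp only [E11, E22, Matrix.mul_apply, Matrix.map_apply, Fin.sum_univ_four, Matrix.of_apply, Matrix.cons_val', Matrix.cons_val, Matrix.cons_val_fin_one, Fin.mk_zero, Fin.mk_one, Fin.zero_eta, Fin.reduceFinMk, Fin.isValue]
      try linear_combination (0) * H.five + (0) * H.qx
    · simp only [E11, E22, Matrix.mul_apply, Matrix.map_apply, Fin.sum_univ_four, Matrix.of_apply, Matrix.cons_val', Matrix.cons_val, Matrix.cons_val_fin_one, Fin.mk_zero, Fin.mk_one, Fin.zero_eta, Fin.reduceFinMk, Fin.isValue]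
      try linear_combination (0) * H.five + (0) * H.qx
    · simp only [E11, E22, Matrix.mul_apply, Matrix.map_apply, Fin.sum_univ_four, Matrix.of_apply, Matrix.cons_val', Matrix.cons_val, Matrix.cons_val_fin_one, Fin.mk_zero, Fin.mk_one, Fin.zero_eta, Fin.reduceFinMk, Fin.isValue]
      try linear_combination (0) * H.five + (0) * H.qx
    · simp only [E11, E22, Matrix.mul_apply, Matrix.map_apply, Fin.sum_univ_four, Matrix.of_apply, Matrix.cons_val', Matrix.cons_val, Matrix.cons_val_fin_one, Fin.mk_zero, Fin.mk_one, Fin.zero_eta, Fin.reduceFinMk, Fin.isValue]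
      try linear_combination (0) * H.five + (0) * H.qx
    · simp only [E11, E22, Matrix.mul_apply, Matrix.map_apply, Fin.sum_univ_four, Matrix.of_apply, Matrix.cons_val', Matrix.cons_val, Matrix.cons_val_fin_one, Fin.mk_zero, Fin.mk_one, Fin.zero_eta, Fin.reduceFinMk, Fin.isValue]
      try linear_combination (0) * H.five + (0) * H.qx
  rw [Matrix.mul_assoc, e1, e2]
  simp only [Matrix.trace, Matrix.diag_apply, Matrix.mul_apply, Fin.sum_univ_four, Matrix.of_apply, Matrix.cons_val', Matrix.cons_val, Matrix.cons_val_fin_one, Fin.isValue]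
  linear_combination (-d.q x^4) * H.five + (0) * H.qx

theorem tr_2_3_3 : Matrix.trace (G3 (d.q x) (d.q t) * E20 (d.q x) (d.q t) * E31 (d.q x) (d.q t) * E22 (d.q x) (d.q t)) =
    0 := by
  have e1 : G3 (d.q x) (d.q t) * E20 (d.q x) (d.q t) =
      !![-d.q x^4*d.q t, -2*d.q x^4*d.q t, d.q x^3*d.q t, 2*d.q x^3*d.q t; -2*d.q x^4*d.q t, 0, 0, d.q x^3*d.q t; -2, -2, 2*d.q x^4*d.q t, d.q x^4*d.q t; -2, 0, 2*d.q x^4*d.q t, -d.q x^4*d.q t] := by
    ext i j
    fin_cases i <;> fin_cases j
    · simp only [G3, E20, Matrix.mul_apply, Matrix.map_apply, Fin.sum_univ_four, Matrix.of_apply, Matrix.cons_val', Matrix.cons_val, Matrix.cons_val_fin_one, Fin.mk_zero, Fin.mk_one, Fin.zero_eta, Fin.reduceFinMk, Fin.isValue]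
      try linear_combination (0) * H.five + (0) * H.qx
    · simp only [G3, E20, Matrix.mul_apply, Matrix.map_apply, Fin.sum_univ_four, Matrix.of_apply, Matrix.cons_val', Matrix.cons_val, Matrix.cons_val_fin_one, Fin.mk_zero, Fin.mk_one, Fin.zero_eta, Fin.reduceFinMk, Fin.isValue]
      try linear_combination (0) * H.five + (0) * H.qx
    · simp only [G3, E20, Matrix.mul_apply, Matrix.map_apply, Fin.sum_univ_four, Matrix.of_apply, Matrix.cons_val', Matrix.cons_val, Matrix.cons_val_fin_one, Fin.mk_zero, Fin.mk_one, Fin.zero_eta, Fin.reduceFinMk, Fin.isValue]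
      try linear_combination (d.q x^3*d.q t) * H.five + (0) * H.qx
    · simp only [G3, E20, Matrix.mul_apply, Matrix.map_apply, Fin.sum_univ_four, Matrix.of_apply, Matrix.cons_val', Matrix.cons_val, Matrix.cons_val_fin_one, Fin.mk_zero, Fin.mk_one, Fin.zero_eta, Fin.reduceFinMk, Fin.isValue]
      try linear_combination (0) * H.five + (0) * H.qx
    · simp only [G3, E20, Matrix.mul_apply, Matrix.map_apply, Fin.sum_univ_four, Matrix.of_apply, Matrix.cons_val', Matrix.cons_val, Matrix.cons_val_fin_one, Fin.mk_zero, Fin.mk_one, Fin.zero_eta, Fin.reduceFinMk, Fin.isValue]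
      try linear_combination (0) * H.five + (0) * H.qx
    · simp only [G3, E20, Matrix.mul_apply, Matrix.map_apply, Fin.sum_univ_four, Matrix.of_apply, Matrix.cons_val', Matrix.cons_val, Matrix.cons_val_fin_one, Fin.mk_zero, Fin.mk_one, Fin.zero_eta, Fin.reduceFinMk, Fin.isValue]
      try linear_combination (-d.q x^4*d.q t) * H.five + (0) * H.qx
    · simp only [G3, E20, Matrix.mul_apply, Matrix.map_apply, Fin.sum_univ_four, Matrix.of_apply, Matrix.cons_val', Matrix.cons_val, Matrix.cons_val_fin_one, Fin.mk_zero, Fin.mk_one, Fin.zero_eta, Fin.reduceFinMk, Fin.isValue]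
      try linear_combination (0) * H.five + (0) * H.qx
    · simp only [G3, E20, Matrix.mul_apply, Matrix.map_apply, Fin.sum_univ_four, Matrix.of_apply, Matrix.cons_val', Matrix.cons_val, Matrix.cons_val_fin_one, Fin.mk_zero, Fin.mk_one, Fin.zero_eta, Fin.reduceFinMk, Fin.isValue]
      try linear_combination (-d.q x^3*d.q t) * H.five + (0) * H.qx
    · simp only [G3, E20, Matrix.mul_apply, Matrix.map_apply, Fin.sum_univ_four, Matrix.of_apply, Matrix.cons_val', Matrix.cons_val, Matrix.cons_val_fin_one, Fin.mk_zero, Fin.mk_one, Fin.zero_eta, Fin.reduceFinMk, Fin.isValue]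
      try linear_combination (0) * H.five + (0) * H.qx
    · simp only [G3, E20, Matrix.mul_apply, Matrix.map_apply, Fin.sum_univ_four, Matrix.of_apply, Matrix.cons_val', Matrix.cons_val, Matrix.cons_val_fin_one, Fin.mk_zero, Fin.mk_one, Fin.zero_eta, Fin.reduceFinMk, Fin.isValue]
      try linear_combination (0) * H.five + (0) * H.qx
    · simp only [G3, E20, Matrix.mul_apply, Matrix.map_apply, Fin.sum_univ_four, Matrix.of_apply, Matrix.cons_val', Matrix.cons_val, Matrix.cons_val_fin_one, Fin.mk_zero, Fin.mk_one, Fin.zero_eta, Fin.reduceFinMk, Fin.isValue]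
      try linear_combination (0) * H.five + (0) * H.qx
    · simp only [G3, E20, Matrix.mul_apply, Matrix.map_apply, Fin.sum_univ_four, Matrix.of_apply, Matrix.cons_val', Matrix.cons_val, Matrix.cons_val_fin_one, Fin.mk_zero, Fin.mk_one, Fin.zero_eta, Fin.reduceFinMk, Fin.isValue]
      try linear_combination (d.q x^4*d.q t) * H.five + (0) * H.qx
    · simp only [G3, E20, Matrix.mul_apply, Matrix.map_apply, Fin.sum_univ_four, Matrix.of_apply, Matrix.cons_val', Matrix.cons_val, Matrix.cons_val_fin_one, Fin.mk_zero, Fin.mk_one, Fin.zero_eta, Fin.reduceFinMk, Fin.isValue]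
      try linear_combination (0) * H.five + (0) * H.qx
    · simp only [G3, E20, Matrix.mul_apply, Matrix.map_apply, Fin.sum_univ_four, Matrix.of_apply, Matrix.cons_val', Matrix.cons_val, Matrix.cons_val_fin_one, Fin.mk_zero, Fin.mk_one, Fin.zero_eta, Fin.reduceFinMk, Fin.isValue]
      try linear_combination (-1) * H.five + (0) * H.qx
    · simp only [G3, E20, Matrix.mul_apply, Matrix.map_apply, Fin.sum_univ_four, Matrix.of_apply, Matrix.cons_val', Matrix.cons_val, Matrix.cons_val_fin_one, Fin.mk_zero, Fin.mk_one, Fin.zero_eta, Fin.reduceFinMk, Fin.isValue]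
      try linear_combination (-d.q x^4*d.q t) * H.five + (0) * H.qx
    · simp only [G3, E20, Matrix.mul_apply, Matrix.map_apply, Fin.sum_univ_four, Matrix.of_apply, Matrix.cons_val', Matrix.cons_val, Matrix.cons_val_fin_one, Fin.mk_zero, Fin.mk_one, Fin.zero_eta, Fin.reduceFinMk, Fin.isValue]
      try linear_combination (0) * H.five + (0) * H.qx
  have e2 : E31 (d.q x) (d.q t) * E22 (d.q x) (d.q t) =
      !![0, 0, 2*d.q x^4, -d.q x^4; 0, 0, -d.q x^4, d.q x^4; 0, 0, 0, 0; 0, 0, 0, 0] := by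
    ext i j
    fin_cases i <;> fin_cases j
    · simp only [E31, E22, Matrix.mul_apply, Matrix.map_apply, Fin.sum_univ_four, Matrix.of_apply, Matrix.cons_val', Matrix.cons_val, Matrix.cons_val_fin_one, Fin.mk_zero, Fin.mk_one, Fin.zero_eta, Fin.reduceFinMk, Fin.isValue]
      try linear_combination (0) * H.five + (0) * H.qx
    · simp only [E31, E22, Matrix.mul_apply, Matrix.map_apply, Fin.sum_univ_four, Matrix.of_apply, Matrix.cons_val', Matrix.cons_val, Matrix.cons_val_fin_one, Fin.mk_zero, Fin.mk_one, Fin.zero_eta, Fin.reduceFinMk, Fin.isValue]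
      try linear_combination (0) * H.five + (0) * H.qx
    · simp only [E31, E22, Matrix.mul_apply, Matrix.map_apply, Fin.sum_univ_four, Matrix.of_apply, Matrix.cons_val', Matrix.cons_val, Matrix.cons_val_fin_one, Fin.mk_zero, Fin.mk_one, Fin.zero_eta, Fin.reduceFinMk, Fin.isValue]
      try linear_combination (-d.q x^4) * H.five + (0) * H.qx
    · simp only [E31, E22, Matrix.mul_apply, Matrix.map_apply, Fin.sum_univ_four, Matrix.of_apply, Matrix.cons_val', Matrix.cons_val, Matrix.cons_val_fin_one, Fin.mk_zero, Fin.mk_one, Fin.zero_eta, Fin.reduceFinMk, Fin.isValue]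
      try linear_combination (0) * H.five + (0) * H.qx
    · simp only [E31, E22, Matrix.mul_apply, Matrix.map_apply, Fin.sum_univ_four, Matrix.of_apply, Matrix.cons_val', Matrix.cons_val, Matrix.cons_val_fin_one, Fin.mk_zero, Fin.mk_one, Fin.zero_eta, Fin.reduceFinMk, Fin.isValue]
      try linear_combination (0) * H.five + (0) * H.qx
    · simp only [E31, E22, Matrix.mul_apply, Matrix.map_apply, Fin.sum_univ_four, Matrix.of_apply, Matrix.cons_val', Matrix.cons_val, Matrix.cons_val_fin_one, Fin.mk_zero, Fin.mk_one, Fin.zero_eta, Fin.reduceFinMk, Fin.isValue]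
      try linear_combination (0) * H.five + (0) * H.qx
    · simp only [E31, E22, Matrix.mul_apply, Matrix.map_apply, Fin.sum_univ_four, Matrix.of_apply, Matrix.cons_val', Matrix.cons_val, Matrix.cons_val_fin_one, Fin.mk_zero, Fin.mk_one, Fin.zero_eta, Fin.reduceFinMk, Fin.isValue]
      try linear_combination (0) * H.five + (0) * H.qx
    · simp only [E31, E22, Matrix.mul_apply, Matrix.map_apply, Fin.sum_univ_four, Matrix.of_apply, Matrix.cons_val', Matrix.cons_val, Matrix.cons_val_fin_one, Fin.mk_zero, Fin.mk_one, Fin.zero_eta, Fin.reduceFinMk, Fin.isValue]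
      try linear_combination (0) * H.five + (0) * H.qx
    · simp only [E31, E22, Matrix.mul_apply, Matrix.map_apply, Fin.sum_univ_four, Matrix.of_apply, Matrix.cons_val', Matrix.cons_val, Matrix.cons_val_fin_one, Fin.mk_zero, Fin.mk_one, Fin.zero_eta, Fin.reduceFinMk, Fin.isValue]
      try linear_combination (0) * H.five + (0) * H.qx
    · simp only [E31, E22, Matrix.mul_apply, Matrix.map_apply, Fin.sum_univ_four, Matrix.of_apply, Matrix.cons_val', Matrix.cons_val, Matrix.cons_val_fin_one, Fin.mk_zero, Fin.mk_one, Fin.zero_eta, Fin.reduceFinMk, Fin.isValue]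
      try linear_combination (0) * H.five + (0) * H.qx
    · simp only [E31, E22, Matrix.mul_apply, Matrix.map_apply, Fin.sum_univ_four, Matrix.of_apply, Matrix.cons_val', Matrix.cons_val, Matrix.cons_val_fin_one, Fin.mk_zero, Fin.mk_one, Fin.zero_eta, Fin.reduceFinMk, Fin.isValue]
      try linear_combination (0) * H.five + (3) * H.qx
    · simp only [E31, E22, Matrix.mul_apply, Matrix.map_apply, Fin.sum_univ_four, Matrix.of_apply, Matrix.cons_val', Matrix.cons_val, Matrix.cons_val_fin_one, Fin.mk_zero, Fin.mk_one, Fin.zero_eta, Fin.reduceFinMk, Fin.isValue]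
      try linear_combination (0) * H.five + (1) * H.qx
    · simp only [E31, E22, Matrix.mul_apply, Matrix.map_apply, Fin.sum_univ_four, Matrix.of_apply, Matrix.cons_val', Matrix.cons_val, Matrix.cons_val_fin_one, Fin.mk_zero, Fin.mk_one, Fin.zero_eta, Fin.reduceFinMk, Fin.isValue]
      try linear_combination (0) * H.five + (0) * H.qx
    · simp only [E31, E22, Matrix.mul_apply, Matrix.map_apply, Fin.sum_univ_four, Matrix.of_apply, Matrix.cons_val', Matrix.cons_val, Matrix.cons_val_fin_one, Fin.mk_zero, Fin.mk_one, Fin.zero_eta, Fin.reduceFinMk, Fin.isValue]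
      try linear_combination (0) * H.five + (0) * H.qx
    · simp only [E31, E22, Matrix.mul_apply, Matrix.map_apply, Fin.sum_univ_four, Matrix.of_apply, Matrix.cons_val', Matrix.cons_val, Matrix.cons_val_fin_one, Fin.mk_zero, Fin.mk_one, Fin.zero_eta, Fin.reduceFinMk, Fin.isValue]
      try linear_combination (0) * H.five + (0) * H.qx
    · simp only [E31, E22, Matrix.mul_apply, Matrix.map_apply, Fin.sum_univ_four, Matrix.of_apply, Matrix.cons_val', Matrix.cons_val, Matrix.cons_val_fin_one, Fin.mk_zero, Fin.mk_one, Fin.zero_eta, Fin.reduceFinMk, Fin.isValue]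
      try linear_combination (0) * H.five + (0) * H.qx
  rw [Matrix.mul_assoc, e1, e2]
  simp only [Matrix.trace, Matrix.diag_apply, Matrix.mul_apply, Fin.sum_univ_four, Matrix.of_apply, Matrix.cons_val', Matrix.cons_val, Matrix.cons_val_fin_one, Fin.isValue]
  linear_combination (0) * H.five + (0) * H.qx

theorem tr_3_1_3 : Matrix.trace (G1 (d.q x) (d.q t) * E30 (d.q x) (d.q t) * E31 (d.q x) (d.q t) * E32 (d.q x) (d.q t)) =
    -2*d.q x^4 := by
  have e1 : G1 (d.q x) (d.q t) * E30 (d.q x) (d.q t) =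
      !![d.q x^4*d.q t, -d.q x^4*d.q t, -2*d.q x^3*d.q t, -d.q x^3*d.q t; -2*d.q x^4*d.q t, 2*d.q x^4*d.q t, 0, 2*d.q x^3*d.q t; -1, 1, 2*d.q x^4*d.q t, d.q x^4*d.q t; -1, 0, 0, 0] := by
    ext i j
    fin_cases i <;> fin_cases j
    · simp only [G1, E30, Matrix.mul_apply, Matrix.map_apply, Fin.sum_univ_four, Matrix.of_apply, Matrix.cons_val', Matrix.cons_val, Matrix.cons_val_fin_one, Fin.mk_zero, Fin.mk_one, Fin.zero_eta, Fin.reduceFinMk, Fin.isValue]
      try linear_combination (0) * H.five + (0) * H.qx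
    · simp only [G1, E30, Matrix.mul_apply, Matrix.map_apply, Fin.sum_univ_four, Matrix.of_apply, Matrix.cons_val', Matrix.cons_val, Matrix.cons_val_fin_one, Fin.mk_zero, Fin.mk_one, Fin.zero_eta, Fin.reduceFinMk, Fin.isValue]
      try linear_combination (0) * H.five + (0) * H.qx
    · simp only [G1, E30, Matrix.mul_apply, Matrix.map_apply, Fin.sum_univ_four, Matrix.of_apply, Matrix.cons_val', Matrix.cons_val, Matrix.cons_val_fin_one, Fin.mk_zero, Fin.mk_one, Fin.zero_eta, Fin.reduceFinMk, Fin.isValue]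
      try linear_combination (0) * H.five + (0) * H.qx
    · simp only [G1, E30, Matrix.mul_apply, Matrix.map_apply, Fin.sum_univ_four, Matrix.of_apply, Matrix.cons_val', Matrix.cons_val, Matrix.cons_val_fin_one, Fin.mk_zero, Fin.mk_one, Fin.zero_eta, Fin.reduceFinMk, Fin.isValue]
      try linear_combination (0) * H.five + (0) * H.qx
    · simp only [G1, E30, Matrix.mul_apply, Matrix.map_apply, Fin.sum_univ_four, Matrix.of_apply, Matrix.cons_val', Matrix.cons_val, Matrix.cons_val_fin_one, Fin.mk_zero, Fin.mk_one, Fin.zero_eta, Fin.reduceFinMk, Fin.isValue]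
      try linear_combination (0) * H.five + (0) * H.qx
    · simp only [G1, E30, Matrix.mul_apply, Matrix.map_apply, Fin.sum_univ_four, Matrix.of_apply, Matrix.cons_val', Matrix.cons_val, Matrix.cons_val_fin_one, Fin.mk_zero, Fin.mk_one, Fin.zero_eta, Fin.reduceFinMk, Fin.isValue]
      try linear_combination (0) * H.five + (0) * H.qx
    · simp only [G1, E30, Matrix.mul_apply, Matrix.map_apply, Fin.sum_univ_four, Matrix.of_apply, Matrix.cons_val', Matrix.cons_val, Matrix.cons_val_fin_one, Fin.mk_zero, Fin.mk_one, Fin.zero_eta, Fin.reduceFinMk, Fin.isValue]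
      try linear_combination (d.q x^3*d.q t) * H.five + (0) * H.qx
    · simp only [G1, E30, Matrix.mul_apply, Matrix.map_apply, Fin.sum_univ_four, Matrix.of_apply, Matrix.cons_val', Matrix.cons_val, Matrix.cons_val_fin_one, Fin.mk_zero, Fin.mk_one, Fin.zero_eta, Fin.reduceFinMk, Fin.isValue]
      try linear_combination (0) * H.five + (0) * H.qx
    · simp only [G1, E30, Matrix.mul_apply, Matrix.map_apply, Fin.sum_univ_four, Matrix.of_apply, Matrix.cons_val', Matrix.cons_val, Matrix.cons_val_fin_one, Fin.mk_zero, Fin.mk_one, Fin.zero_eta, Fin.reduceFinMk, Fin.isValue]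
      try linear_combination (0) * H.five + (0) * H.qx
    · simp only [G1, E30, Matrix.mul_apply, Matrix.map_apply, Fin.sum_univ_four, Matrix.of_apply, Matrix.cons_val', Matrix.cons_val, Matrix.cons_val_fin_one, Fin.mk_zero, Fin.mk_one, Fin.zero_eta, Fin.reduceFinMk, Fin.isValue]
      try linear_combination (0) * H.five + (0) * H.qx
    · simp only [G1, E30, Matrix.mul_apply, Matrix.map_apply, Fin.sum_univ_four, Matrix.of_apply, Matrix.cons_val', Matrix.cons_val, Matrix.cons_val_fin_one, Fin.mk_zero, Fin.mk_one, Fin.zero_eta, Fin.reduceFinMk, Fin.isValue]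
      try linear_combination (0) * H.five + (0) * H.qx
    · simp only [G1, E30, Matrix.mul_apply, Matrix.map_apply, Fin.sum_univ_four, Matrix.of_apply, Matrix.cons_val', Matrix.cons_val, Matrix.cons_val_fin_one, Fin.mk_zero, Fin.mk_one, Fin.zero_eta, Fin.reduceFinMk, Fin.isValue]
      try linear_combination (0) * H.five + (0) * H.qx
    · simp only [G1, E30, Matrix.mul_apply, Matrix.map_apply, Fin.sum_univ_four, Matrix.of_apply, Matrix.cons_val', Matrix.cons_val, Matrix.cons_val_fin_one, Fin.mk_zero, Fin.mk_one, Fin.zero_eta, Fin.reduceFinMk, Fin.isValue]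
      try linear_combination (1) * H.five + (0) * H.qx
    · simp only [G1, E30, Matrix.mul_apply, Matrix.map_apply, Fin.sum_univ_four, Matrix.of_apply, Matrix.cons_val', Matrix.cons_val, Matrix.cons_val_fin_one, Fin.mk_zero, Fin.mk_one, Fin.zero_eta, Fin.reduceFinMk, Fin.isValue]
      try linear_combination (0) * H.five + (0) * H.qx
    · simp only [G1, E30, Matrix.mul_apply, Matrix.map_apply, Fin.sum_univ_four, Matrix.of_apply, Matrix.cons_val', Matrix.cons_val, Matrix.cons_val_fin_one, Fin.mk_zero, Fin.mk_one, Fin.zero_eta, Fin.reduceFinMk, Fin.isValue]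
      try linear_combination (0) * H.five + (0) * H.qx
    · simp only [G1, E30, Matrix.mul_apply, Matrix.map_apply, Fin.sum_univ_four, Matrix.of_apply, Matrix.cons_val', Matrix.cons_val, Matrix.cons_val_fin_one, Fin.mk_zero, Fin.mk_one, Fin.zero_eta, Fin.reduceFinMk, Fin.isValue]
      try linear_combination (0) * H.five + (0) * H.qx
  have e2 : E31 (d.q x) (d.q t) * E32 (d.q x) (d.q t) =
      !![0, 0, -d.q x^4, -d.q x^4; 0, 0, d.q x^4, 0; 0, 0, 0, 0; 0, 0, 0, 0] := by
    ext i j
    fin_cases i <;> fin_cases j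
    · simp only [E31, E32, Matrix.mul_apply, Matrix.map_apply, Fin.sum_univ_four, Matrix.of_apply, Matrix.cons_val', Matrix.cons_val, Matrix.cons_val_fin_one, Fin.mk_zero, Fin.mk_one, Fin.zero_eta, Fin.reduceFinMk, Fin.isValue]
      try linear_combination (0) * H.five + (0) * H.qx
    · simp only [E31, E32, Matrix.mul_apply, Matrix.map_apply, Fin.sum_univ_four, Matrix.of_apply, Matrix.cons_val', Matrix.cons_val, Matrix.cons_val_fin_one, Fin.mk_zero, Fin.mk_one, Fin.zero_eta, Fin.reduceFinMk, Fin.isValue]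
      try linear_combination (0) * H.five + (0) * H.qx
    · simp only [E31, E32, Matrix.mul_apply, Matrix.map_apply, Fin.sum_univ_four, Matrix.of_apply, Matrix.cons_val', Matrix.cons_val, Matrix.cons_val_fin_one, Fin.mk_zero, Fin.mk_one, Fin.zero_eta, Fin.reduceFinMk, Fin.isValue]
      try linear_combination (0) * H.five + (0) * H.qx
    · simp only [E31, E32, Matrix.mul_apply, Matrix.map_apply, Fin.sum_univ_four, Matrix.of_apply, Matrix.cons_val', Matrix.cons_val, Matrix.cons_val_fin_one, Fin.mk_zero, Fin.mk_one, Fin.zero_eta, Fin.reduceFinMk, Fin.isValue]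
      try linear_combination (0) * H.five + (0) * H.qx
    · simp only [E31, E32, Matrix.mul_apply, Matrix.map_apply, Fin.sum_univ_four, Matrix.of_apply, Matrix.cons_val', Matrix.cons_val, Matrix.cons_val_fin_one, Fin.mk_zero, Fin.mk_one, Fin.zero_eta, Fin.reduceFinMk, Fin.isValue]
      try linear_combination (0) * H.five + (0) * H.qx
    · simp only [E31, E32, Matrix.mul_apply, Matrix.map_apply, Fin.sum_univ_four, Matrix.of_apply, Matrix.cons_val', Matrix.cons_val, Matrix.cons_val_fin_one, Fin.mk_zero, Fin.mk_one, Fin.zero_eta, Fin.reduceFinMk, Fin.isValue]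
      try linear_combination (0) * H.five + (0) * H.qx
    · simp only [E31, E32, Matrix.mul_apply, Matrix.map_apply, Fin.sum_univ_four, Matrix.of_apply, Matrix.cons_val', Matrix.cons_val, Matrix.cons_val_fin_one, Fin.mk_zero, Fin.mk_one, Fin.zero_eta, Fin.reduceFinMk, Fin.isValue]
      try linear_combination (0) * H.five + (0) * H.qx
    · simp only [E31, E32, Matrix.mul_apply, Matrix.map_apply, Fin.sum_univ_four, Matrix.of_apply, Matrix.cons_val', Matrix.cons_val, Matrix.cons_val_fin_one, Fin.mk_zero, Fin.mk_one, Fin.zero_eta, Fin.reduceFinMk, Fin.isValue]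
      try linear_combination (0) * H.five + (0) * H.qx
    · simp only [E31, E32, Matrix.mul_apply, Matrix.map_apply, Fin.sum_univ_four, Matrix.of_apply, Matrix.cons_val', Matrix.cons_val, Matrix.cons_val_fin_one, Fin.mk_zero, Fin.mk_one, Fin.zero_eta, Fin.reduceFinMk, Fin.isValue]
      try linear_combination (0) * H.five + (0) * H.qx
    · simp only [E31, E32, Matrix.mul_apply, Matrix.map_apply, Fin.sum_univ_four, Matrix.of_apply, Matrix.cons_val', Matrix.cons_val, Matrix.cons_val_fin_one, Fin.mk_zero, Fin.mk_one, Fin.zero_eta, Fin.reduceFinMk, Fin.isValue]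
      try linear_combination (0) * H.five + (0) * H.qx
    · simp only [E31, E32, Matrix.mul_apply, Matrix.map_apply, Fin.sum_univ_four, Matrix.of_apply, Matrix.cons_val', Matrix.cons_val, Matrix.cons_val_fin_one, Fin.mk_zero, Fin.mk_one, Fin.zero_eta, Fin.reduceFinMk, Fin.isValue]
      try linear_combination (0) * H.five + (1) * H.qx
    · simp only [E31, E32, Matrix.mul_apply, Matrix.map_apply, Fin.sum_univ_four, Matrix.of_apply, Matrix.cons_val', Matrix.cons_val, Matrix.cons_val_fin_one, Fin.mk_zero, Fin.mk_one, Fin.zero_eta, Fin.reduceFinMk, Fin.isValue]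
      try linear_combination (0) * H.five + (1) * H.qx
    · simp only [E31, E32, Matrix.mul_apply, Matrix.map_apply, Fin.sum_univ_four, Matrix.of_apply, Matrix.cons_val', Matrix.cons_val, Matrix.cons_val_fin_one, Fin.mk_zero, Fin.mk_one, Fin.zero_eta, Fin.reduceFinMk, Fin.isValue]
      try linear_combination (0) * H.five + (0) * H.qx
    · simp only [E31, E32, Matrix.mul_apply, Matrix.map_apply, Fin.sum_univ_four, Matrix.of_apply, Matrix.cons_val', Matrix.cons_val, Matrix.cons_val_fin_one, Fin.mk_zero, Fin.mk_one, Fin.zero_eta, Fin.reduceFinMk, Fin.isValue]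
      try linear_combination (0) * H.five + (0) * H.qx
    · simp only [E31, E32, Matrix.mul_apply, Matrix.map_apply, Fin.sum_univ_four, Matrix.of_apply, Matrix.cons_val', Matrix.cons_val, Matrix.cons_val_fin_one, Fin.mk_zero, Fin.mk_one, Fin.zero_eta, Fin.reduceFinMk, Fin.isValue]
      try linear_combination (0) * H.five + (0) * H.qx
    · simp only [E31, E32, Matrix.mul_apply, Matrix.map_apply, Fin.sum_univ_four, Matrix.of_apply, Matrix.cons_val', Matrix.cons_val, Matrix.cons_val_fin_one, Fin.mk_zero, Fin.mk_one, Fin.zero_eta, Fin.reduceFinMk, Fin.isValue]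
      try linear_combination (0) * H.five + (0) * H.qx
  rw [Matrix.mul_assoc, e1, e2]
  simp only [Matrix.trace, Matrix.diag_apply, Matrix.mul_apply, Fin.sum_univ_four, Matrix.of_apply, Matrix.cons_val', Matrix.cons_val, Matrix.cons_val_fin_one, Fin.isValue]
  linear_combination (d.q x^4) * H.five + (0) * H.qx

theorem tr_3_3_1 : Matrix.trace (G3 (d.q x) (d.q t) * E30 (d.q x) (d.q t) * E11 (d.q x) (d.q t) * E32 (d.q x) (d.q t)) =
    0 := by
  have e1 : G3 (d.q x) (d.q t) * E30 (d.q x) (d.q t) =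
      !![-2*d.q x^4*d.q t, -2*d.q x^4*d.q t, 2*d.q x^3*d.q t, 2*d.q x^3*d.q t; 0, 2*d.q x^4*d.q t, d.q x^3*d.q t, -d.q x^3*d.q t; -2, -1, d.q x^4*d.q t, 2*d.q x^4*d.q t; 0, 2, -d.q x^4*d.q t, -d.q x^4*d.q t] := by
    ext i j
    fin_cases i <;> fin_cases j
    · simp only [G3, E30, Matrix.mul_apply, Matrix.map_apply, Fin.sum_univ_four, Matrix.of_apply, Matrix.cons_val', Matrix.cons_val, Matrix.cons_val_fin_one, Fin.mk_zero, Fin.mk_one, Fin.zero_eta, Fin.reduceFinMk, Fin.isValue]
      try linear_combination (0) * H.five + (0) * H.qx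
    · simp only [G3, E30, Matrix.mul_apply, Matrix.map_apply, Fin.sum_univ_four, Matrix.of_apply, Matrix.cons_val', Matrix.cons_val, Matrix.cons_val_fin_one, Fin.mk_zero, Fin.mk_one, Fin.zero_eta, Fin.reduceFinMk, Fin.isValue]
      try linear_combination (0) * H.five + (0) * H.qx
    · simp only [G3, E30, Matrix.mul_apply, Matrix.map_apply, Fin.sum_univ_four, Matrix.of_apply, Matrix.cons_val', Matrix.cons_val, Matrix.cons_val_fin_one, Fin.mk_zero, Fin.mk_one, Fin.zero_eta, Fin.reduceFinMk, Fin.isValue]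
      try linear_combination (0) * H.five + (0) * H.qx
    · simp only [G3, E30, Matrix.mul_apply, Matrix.map_apply, Fin.sum_univ_four, Matrix.of_apply, Matrix.cons_val', Matrix.cons_val, Matrix.cons_val_fin_one, Fin.mk_zero, Fin.mk_one, Fin.zero_eta, Fin.reduceFinMk, Fin.isValue]
      try linear_combination (0) * H.five + (0) * H.qx
    · simp only [G3, E30, Matrix.mul_apply, Matrix.map_apply, Fin.sum_univ_four, Matrix.of_apply, Matrix.cons_val', Matrix.cons_val, Matrix.cons_val_fin_one, Fin.mk_zero, Fin.mk_one, Fin.zero_eta, Fin.reduceFinMk, Fin.isValue]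
      try linear_combination (-d.q x^4*d.q t) * H.five + (0) * H.qx
    · simp only [G3, E30, Matrix.mul_apply, Matrix.map_apply, Fin.sum_univ_four, Matrix.of_apply, Matrix.cons_val', Matrix.cons_val, Matrix.cons_val_fin_one, Fin.mk_zero, Fin.mk_one, Fin.zero_eta, Fin.reduceFinMk, Fin.isValue]
      try linear_combination (-d.q x^4*d.q t) * H.five + (0) * H.qx
    · simp only [G3, E30, Matrix.mul_apply, Matrix.map_apply, Fin.sum_univ_four, Matrix.of_apply, Matrix.cons_val', Matrix.cons_val, Matrix.cons_val_fin_one, Fin.mk_zero, Fin.mk_one, Fin.zero_eta, Fin.reduceFinMk, Fin.isValue]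
      try linear_combination (-d.q x^3*d.q t) * H.five + (0) * H.qx
    · simp only [G3, E30, Matrix.mul_apply, Matrix.map_apply, Fin.sum_univ_four, Matrix.of_apply, Matrix.cons_val', Matrix.cons_val, Matrix.cons_val_fin_one, Fin.mk_zero, Fin.mk_one, Fin.zero_eta, Fin.reduceFinMk, Fin.isValue]
      try linear_combination (0) * H.five + (0) * H.qx
    · simp only [G3, E30, Matrix.mul_apply, Matrix.map_apply, Fin.sum_univ_four, Matrix.of_apply, Matrix.cons_val', Matrix.cons_val, Matrix.cons_val_fin_one, Fin.mk_zero, Fin.mk_one, Fin.zero_eta, Fin.reduceFinMk, Fin.isValue]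
      try linear_combination (0) * H.five + (0) * H.qx
    · simp only [G3, E30, Matrix.mul_apply, Matrix.map_apply, Fin.sum_univ_four, Matrix.of_apply, Matrix.cons_val', Matrix.cons_val, Matrix.cons_val_fin_one, Fin.mk_zero, Fin.mk_one, Fin.zero_eta, Fin.reduceFinMk, Fin.isValue]
      try linear_combination (-1) * H.five + (0) * H.qx
    · simp only [G3, E30, Matrix.mul_apply, Matrix.map_apply, Fin.sum_univ_four, Matrix.of_apply, Matrix.cons_val', Matrix.cons_val, Matrix.cons_val_fin_one, Fin.mk_zero, Fin.mk_one, Fin.zero_eta, Fin.reduceFinMk, Fin.isValue]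
      try linear_combination (d.q x^4*d.q t) * H.five + (0) * H.qx
    · simp only [G3, E30, Matrix.mul_apply, Matrix.map_apply, Fin.sum_univ_four, Matrix.of_apply, Matrix.cons_val', Matrix.cons_val, Matrix.cons_val_fin_one, Fin.mk_zero, Fin.mk_one, Fin.zero_eta, Fin.reduceFinMk, Fin.isValue]
      try linear_combination (0) * H.five + (0) * H.qx
    · simp only [G3, E30, Matrix.mul_apply, Matrix.map_apply, Fin.sum_univ_four, Matrix.of_apply, Matrix.cons_val', Matrix.cons_val, Matrix.cons_val_fin_one, Fin.mk_zero, Fin.mk_one, Fin.zero_eta, Fin.reduceFinMk, Fin.isValue]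
      try linear_combination (-1) * H.five + (0) * H.qx
    · simp only [G3, E30, Matrix.mul_apply, Matrix.map_apply, Fin.sum_univ_four, Matrix.of_apply, Matrix.cons_val', Matrix.cons_val, Matrix.cons_val_fin_one, Fin.mk_zero, Fin.mk_one, Fin.zero_eta, Fin.reduceFinMk, Fin.isValue]
      try linear_combination (-1) * H.five + (0) * H.qx
    · simp only [G3, E30, Matrix.mul_apply, Matrix.map_apply, Fin.sum_univ_four, Matrix.of_apply, Matrix.cons_val', Matrix.cons_val, Matrix.cons_val_fin_one, Fin.mk_zero, Fin.mk_one, Fin.zero_eta, Fin.reduceFinMk, Fin.isValue]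
      try linear_combination (0) * H.five + (0) * H.qx
    · simp only [G3, E30, Matrix.mul_apply, Matrix.map_apply, Fin.sum_univ_four, Matrix.of_apply, Matrix.cons_val', Matrix.cons_val, Matrix.cons_val_fin_one, Fin.mk_zero, Fin.mk_one, Fin.zero_eta, Fin.reduceFinMk, Fin.isValue]
      try linear_combination (0) * H.five + (0) * H.qx
  have e2 : E11 (d.q x) (d.q t) * E32 (d.q x) (d.q t) =
      !![0, 0, 0, 0; 0, 0, -2*d.q x^4, -d.q x^4; 0, 0, 0, 0; 0, 0, 0, 0] := by
    ext i j
    fin_cases i <;> fin_cases j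
    · simp only [E11, E32, Matrix.mul_apply, Matrix.map_apply, Fin.sum_univ_four, Matrix.of_apply, Matrix.cons_val', Matrix.cons_val, Matrix.cons_val_fin_one, Fin.mk_zero, Fin.mk_one, Fin.zero_eta, Fin.reduceFinMk, Fin.isValue]
      try linear_combination (0) * H.five + (0) * H.qx
    · simp only [E11, E32, Matrix.mul_apply, Matrix.map_apply, Fin.sum_univ_four, Matrix.of_apply, Matrix.cons_val', Matrix.cons_val, Matrix.cons_val_fin_one, Fin.mk_zero, Fin.mk_one, Fin.zero_eta, Fin.reduceFinMk, Fin.isValue]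
      try linear_combination (0) * H.five + (0) * H.qx
    · simp only [E11, E32, Matrix.mul_apply, Matrix.map_apply, Fin.sum_univ_four, Matrix.of_apply, Matrix.cons_val', Matrix.cons_val, Matrix.cons_val_fin_one, Fin.mk_zero, Fin.mk_one, Fin.zero_eta, Fin.reduceFinMk, Fin.isValue]
      try linear_combination (0) * H.five + (0) * H.qx
    · simp only [E11, E32, Matrix.mul_apply, Matrix.map_apply, Fin.sum_univ_four, Matrix.of_apply, Matrix.cons_val', Matrix.cons_val, Matrix.cons_val_fin_one, Fin.mk_zero, Fin.mk_one, Fin.zero_eta, Fin.reduceFinMk, Fin.isValue]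
      try linear_combination (0) * H.five + (0) * H.qx
    · simp only [E11, E32, Matrix.mul_apply, Matrix.map_apply, Fin.sum_univ_four, Matrix.of_apply, Matrix.cons_val', Matrix.cons_val, Matrix.cons_val_fin_one, Fin.mk_zero, Fin.mk_one, Fin.zero_eta, Fin.reduceFinMk, Fin.isValue]
      try linear_combination (0) * H.five + (0) * H.qx
    · simp only [E11, E32, Matrix.mul_apply, Matrix.map_apply, Fin.sum_univ_four, Matrix.of_apply, Matrix.cons_val', Matrix.cons_val, Matrix.cons_val_fin_one, Fin.mk_zero, Fin.mk_one, Fin.zero_eta, Fin.reduceFinMk, Fin.isValue]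
      try linear_combination (0) * H.five + (0) * H.qx
    · simp only [E11, E32, Matrix.mul_apply, Matrix.map_apply, Fin.sum_univ_four, Matrix.of_apply, Matrix.cons_val', Matrix.cons_val, Matrix.cons_val_fin_one, Fin.mk_zero, Fin.mk_one, Fin.zero_eta, Fin.reduceFinMk, Fin.isValue]
      try linear_combination (0) * H.five + (0) * H.qx
    · simp only [E11, E32, Matrix.mul_apply, Matrix.map_apply, Fin.sum_univ_four, Matrix.of_apply, Matrix.cons_val', Matrix.cons_val, Matrix.cons_val_fin_one, Fin.mk_zero, Fin.mk_one, Fin.zero_eta, Fin.reduceFinMk, Fin.isValue]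
      try linear_combination (0) * H.five + (0) * H.qx
    · simp only [E11, E32, Matrix.mul_apply, Matrix.map_apply, Fin.sum_univ_four, Matrix.of_apply, Matrix.cons_val', Matrix.cons_val, Matrix.cons_val_fin_one, Fin.mk_zero, Fin.mk_one, Fin.zero_eta, Fin.reduceFinMk, Fin.isValue]
      try linear_combination (0) * H.five + (0) * H.qx
    · simp only [E11, E32, Matrix.mul_apply, Matrix.map_apply, Fin.sum_univ_four, Matrix.of_apply, Matrix.cons_val', Matrix.cons_val, Matrix.cons_val_fin_one, Fin.mk_zero, Fin.mk_one, Fin.zero_eta, Fin.reduceFinMk, Fin.isValue]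
      try linear_combination (0) * H.five + (0) * H.qx
    · simp only [E11, E32, Matrix.mul_apply, Matrix.map_apply, Fin.sum_univ_four, Matrix.of_apply, Matrix.cons_val', Matrix.cons_val, Matrix.cons_val_fin_one, Fin.mk_zero, Fin.mk_one, Fin.zero_eta, Fin.reduceFinMk, Fin.isValue]
      try linear_combination (0) * H.five + (0) * H.qx
    · simp only [E11, E32, Matrix.mul_apply, Matrix.map_apply, Fin.sum_univ_four, Matrix.of_apply, Matrix.cons_val', Matrix.cons_val, Matrix.cons_val_fin_one, Fin.mk_zero, Fin.mk_one, Fin.zero_eta, Fin.reduceFinMk, Fin.isValue]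
      try linear_combination (0) * H.five + (0) * H.qx
    · simp only [E11, E32, Matrix.mul_apply, Matrix.map_apply, Fin.sum_univ_four, Matrix.of_apply, Matrix.cons_val', Matrix.cons_val, Matrix.cons_val_fin_one, Fin.mk_zero, Fin.mk_one, Fin.zero_eta, Fin.reduceFinMk, Fin.isValue]
      try linear_combination (0) * H.five + (0) * H.qx
    · simp only [E11, E32, Matrix.mul_apply, Matrix.map_apply, Fin.sum_univ_four, Matrix.of_apply, Matrix.cons_val', Matrix.cons_val, Matrix.cons_val_fin_one, Fin.mk_zero, Fin.mk_one, Fin.zero_eta, Fin.reduceFinMk, Fin.isValue]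
      try linear_combination (0) * H.five + (0) * H.qx
    · simp only [E11, E32, Matrix.mul_apply, Matrix.map_apply, Fin.sum_univ_four, Matrix.of_apply, Matrix.cons_val', Matrix.cons_val, Matrix.cons_val_fin_one, Fin.mk_zero, Fin.mk_one, Fin.zero_eta, Fin.reduceFinMk, Fin.isValue]
      try linear_combination (0) * H.five + (0) * H.qx
    · simp only [E11, E32, Matrix.mul_apply, Matrix.map_apply, Fin.sum_univ_four, Matrix.of_apply, Matrix.cons_val', Matrix.cons_val, Matrix.cons_val_fin_one, Fin.mk_zero, Fin.mk_one, Fin.zero_eta, Fin.reduceFinMk, Fin.isValue]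
      try linear_combination (0) * H.five + (0) * H.qx
  rw [Matrix.mul_assoc, e1, e2]
  simp only [Matrix.trace, Matrix.diag_apply, Matrix.mul_apply, Fin.sum_univ_four, Matrix.of_apply, Matrix.cons_val', Matrix.cons_val, Matrix.cons_val_fin_one, Fin.isValue]
  linear_combination (0) * H.five + (0) * H.qx

theorem tr_3_0_4 : Matrix.trace ((1 : Matrix (Fin 4) (Fin 4) Q) * E30 (d.q x) (d.q t) * E41 (d.q x) (d.q t) * E32 (d.q x) (d.q t)) =
    -2*d.q x^4 := by
  have e1 : (1 : Matrix (Fin 4) (Fin 4) Q) * E30 (d.q x) (d.q t) =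
      !![0, 0, d.q x^3*d.q t, 0; 0, 0, 2*d.q x^3*d.q t, d.q x^3*d.q t; 2, 2, 0, 0; 1, -1, 0, 0] := by
    rw [one_mul]; rfl
  have e2 : E41 (d.q x) (d.q t) * E32 (d.q x) (d.q t) =
      !![0, 0, -d.q x^4, 0; 0, 0, 0, 0; 0, 0, 0, 0; 0, 0, 0, 0] := by
    ext i j
    fin_cases i <;> fin_cases j
    · simp only [E41, E32, Matrix.mul_apply, Matrix.map_apply, Fin.sum_univ_four, Matrix.of_apply, Matrix.cons_val', Matrix.cons_val, Matrix.cons_val_fin_one, Fin.mk_zero, Fin.mk_one, Fin.zero_eta, Fin.reduceFinMk, Fin.isValue]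
      try linear_combination (0) * H.five + (0) * H.qx
    · simp only [E41, E32, Matrix.mul_apply, Matrix.map_apply, Fin.sum_univ_four, Matrix.of_apply, Matrix.cons_val', Matrix.cons_val, Matrix.cons_val_fin_one, Fin.mk_zero, Fin.mk_one, Fin.zero_eta, Fin.reduceFinMk, Fin.isValue]
      try linear_combination (0) * H.five + (0) * H.qx
    · simp only [E41, E32, Matrix.mul_apply, Matrix.map_apply, Fin.sum_univ_four, Matrix.of_apply, Matrix.cons_val', Matrix.cons_val, Matrix.cons_val_fin_one, Fin.mk_zero, Fin.mk_one, Fin.zero_eta, Fin.reduceFinMk, Fin.isValue]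
      try linear_combination (0) * H.five + (0) * H.qx
    · simp only [E41, E32, Matrix.mul_apply, Matrix.map_apply, Fin.sum_univ_four, Matrix.of_apply, Matrix.cons_val', Matrix.cons_val, Matrix.cons_val_fin_one, Fin.mk_zero, Fin.mk_one, Fin.zero_eta, Fin.reduceFinMk, Fin.isValue]
      try linear_combination (0) * H.five + (0) * H.qx
    · simp only [E41, E32, Matrix.mul_apply, Matrix.map_apply, Fin.sum_univ_four, Matrix.of_apply, Matrix.cons_val', Matrix.cons_val, Matrix.cons_val_fin_one, Fin.mk_zero, Fin.mk_one, Fin.zero_eta, Fin.reduceFinMk, Fin.isValue]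
      try linear_combination (0) * H.five + (0) * H.qx
    · simp only [E41, E32, Matrix.mul_apply, Matrix.map_apply, Fin.sum_univ_four, Matrix.of_apply, Matrix.cons_val', Matrix.cons_val, Matrix.cons_val_fin_one, Fin.mk_zero, Fin.mk_one, Fin.zero_eta, Fin.reduceFinMk, Fin.isValue]
      try linear_combination (0) * H.five + (0) * H.qx
    · simp only [E41, E32, Matrix.mul_apply, Matrix.map_apply, Fin.sum_univ_four, Matrix.of_apply, Matrix.cons_val', Matrix.cons_val, Matrix.cons_val_fin_one, Fin.mk_zero, Fin.mk_one, Fin.zero_eta, Fin.reduceFinMk, Fin.isValue]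
      try linear_combination (0) * H.five + (0) * H.qx
    · simp only [E41, E32, Matrix.mul_apply, Matrix.map_apply, Fin.sum_univ_four, Matrix.of_apply, Matrix.cons_val', Matrix.cons_val, Matrix.cons_val_fin_one, Fin.mk_zero, Fin.mk_one, Fin.zero_eta, Fin.reduceFinMk, Fin.isValue]
      try linear_combination (0) * H.five + (0) * H.qx
    · simp only [E41, E32, Matrix.mul_apply, Matrix.map_apply, Fin.sum_univ_four, Matrix.of_apply, Matrix.cons_val', Matrix.cons_val, Matrix.cons_val_fin_one, Fin.mk_zero, Fin.mk_one, Fin.zero_eta, Fin.reduceFinMk, Fin.isValue]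
      try linear_combination (0) * H.five + (0) * H.qx
    · simp only [E41, E32, Matrix.mul_apply, Matrix.map_apply, Fin.sum_univ_four, Matrix.of_apply, Matrix.cons_val', Matrix.cons_val, Matrix.cons_val_fin_one, Fin.mk_zero, Fin.mk_one, Fin.zero_eta, Fin.reduceFinMk, Fin.isValue]
      try linear_combination (0) * H.five + (0) * H.qx
    · simp only [E41, E32, Matrix.mul_apply, Matrix.map_apply, Fin.sum_univ_four, Matrix.of_apply, Matrix.cons_val', Matrix.cons_val, Matrix.cons_val_fin_one, Fin.mk_zero, Fin.mk_one, Fin.zero_eta, Fin.reduceFinMk, Fin.isValue]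
      try linear_combination (0) * H.five + (1) * H.qx
    · simp only [E41, E32, Matrix.mul_apply, Matrix.map_apply, Fin.sum_univ_four, Matrix.of_apply, Matrix.cons_val', Matrix.cons_val, Matrix.cons_val_fin_one, Fin.mk_zero, Fin.mk_one, Fin.zero_eta, Fin.reduceFinMk, Fin.isValue]
      try linear_combination (0) * H.five + (0) * H.qx
    · simp only [E41, E32, Matrix.mul_apply, Matrix.map_apply, Fin.sum_univ_four, Matrix.of_apply, Matrix.cons_val', Matrix.cons_val, Matrix.cons_val_fin_one, Fin.mk_zero, Fin.mk_one, Fin.zero_eta, Fin.reduceFinMk, Fin.isValue]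
      try linear_combination (0) * H.five + (0) * H.qx
    · simp only [E41, E32, Matrix.mul_apply, Matrix.map_apply, Fin.sum_univ_four, Matrix.of_apply, Matrix.cons_val', Matrix.cons_val, Matrix.cons_val_fin_one, Fin.mk_zero, Fin.mk_one, Fin.zero_eta, Fin.reduceFinMk, Fin.isValue]
      try linear_combination (0) * H.five + (0) * H.qx
    · simp only [E41, E32, Matrix.mul_apply, Matrix.map_apply, Fin.sum_univ_four, Matrix.of_apply, Matrix.cons_val', Matrix.cons_val, Matrix.cons_val_fin_one, Fin.mk_zero, Fin.mk_one, Fin.zero_eta, Fin.reduceFinMk, Fin.isValue]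
      try linear_combination (0) * H.five + (0) * H.qx
    · simp only [E41, E32, Matrix.mul_apply, Matrix.map_apply, Fin.sum_univ_four, Matrix.of_apply, Matrix.cons_val', Matrix.cons_val, Matrix.cons_val_fin_one, Fin.mk_zero, Fin.mk_one, Fin.zero_eta, Fin.reduceFinMk, Fin.isValue]
      try linear_combination (0) * H.five + (0) * H.qx
  rw [Matrix.mul_assoc, e1, e2]
  simp only [Matrix.trace, Matrix.diag_apply, Matrix.mul_apply, Fin.sum_univ_four, Matrix.of_apply, Matrix.cons_val', Matrix.cons_val, Matrix.cons_val_fin_one, Fin.isValue]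
  linear_combination (0) * H.five + (0) * H.qx

theorem tr_3_2_2 : Matrix.trace (G2 (d.q x) (d.q t) * E30 (d.q x) (d.q t) * E21 (d.q x) (d.q t) * E32 (d.q x) (d.q t)) =
    0 := by
  have e1 : G2 (d.q x) (d.q t) * E30 (d.q x) (d.q t) =
      !![d.q x^4*d.q t, -2*d.q x^4*d.q t, 0, -2*d.q x^3*d.q t; -d.q x^4*d.q t, -2*d.q x^4*d.q t, -2*d.q x^3*d.q t, -2*d.q x^3*d.q t; 1, 0, 0, 2*d.q x^4*d.q t; 2, 1, 2*d.q x^4*d.q t, d.q x^4*d.q t] := by
    ext i j
    fin_cases i <;> fin_cases j
    · simp only [G2, E30, Matrix.mul_apply, Matrix.map_apply, Fin.sum_univ_four, Matrix.of_apply, Matrix.cons_val', Matrix.cons_val, Matrix.cons_val_fin_one, Fin.mk_zero, Fin.mk_one, Fin.zero_eta, Fin.reduceFinMk, Fin.isValue]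
      try linear_combination (0) * H.five + (0) * H.qx
    · simp only [G2, E30, Matrix.mul_apply, Matrix.map_apply, Fin.sum_univ_four, Matrix.of_apply, Matrix.cons_val', Matrix.cons_val, Matrix.cons_val_fin_one, Fin.mk_zero, Fin.mk_one, Fin.zero_eta, Fin.reduceFinMk, Fin.isValue]
      try linear_combination (d.q x^4*d.q t) * H.five + (0) * H.qx
    · simp only [G2, E30, Matrix.mul_apply, Matrix.map_apply, Fin.sum_univ_four, Matrix.of_apply, Matrix.cons_val', Matrix.cons_val, Matrix.cons_val_fin_one, Fin.mk_zero, Fin.mk_one, Fin.zero_eta, Fin.reduceFinMk, Fin.isValue]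
      try linear_combination (-d.q x^3*d.q t) * H.five + (0) * H.qx
    · simp only [G2, E30, Matrix.mul_apply, Matrix.map_apply, Fin.sum_univ_four, Matrix.of_apply, Matrix.cons_val', Matrix.cons_val, Matrix.cons_val_fin_one, Fin.mk_zero, Fin.mk_one, Fin.zero_eta, Fin.reduceFinMk, Fin.isValue]
      try linear_combination (0) * H.five + (0) * H.qx
    · simp only [G2, E30, Matrix.mul_apply, Matrix.map_apply, Fin.sum_univ_four, Matrix.of_apply, Matrix.cons_val', Matrix.cons_val, Matrix.cons_val_fin_one, Fin.mk_zero, Fin.mk_one, Fin.zero_eta, Fin.reduceFinMk, Fin.isValue]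
      try linear_combination (-d.q x^4*d.q t) * H.five + (0) * H.qx
    · simp only [G2, E30, Matrix.mul_apply, Matrix.map_apply, Fin.sum_univ_four, Matrix.of_apply, Matrix.cons_val', Matrix.cons_val, Matrix.cons_val_fin_one, Fin.mk_zero, Fin.mk_one, Fin.zero_eta, Fin.reduceFinMk, Fin.isValue]
      try linear_combination (0) * H.five + (0) * H.qx
    · simp only [G2, E30, Matrix.mul_apply, Matrix.map_apply, Fin.sum_univ_four, Matrix.of_apply, Matrix.cons_val', Matrix.cons_val, Matrix.cons_val_fin_one, Fin.mk_zero, Fin.mk_one, Fin.zero_eta, Fin.reduceFinMk, Fin.isValue]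
      try linear_combination (0) * H.five + (0) * H.qx
    · simp only [G2, E30, Matrix.mul_apply, Matrix.map_apply, Fin.sum_univ_four, Matrix.of_apply, Matrix.cons_val', Matrix.cons_val, Matrix.cons_val_fin_one, Fin.mk_zero, Fin.mk_one, Fin.zero_eta, Fin.reduceFinMk, Fin.isValue]
      try linear_combination (0) * H.five + (0) * H.qx
    · simp only [G2, E30, Matrix.mul_apply, Matrix.map_apply, Fin.sum_univ_four, Matrix.of_apply, Matrix.cons_val', Matrix.cons_val, Matrix.cons_val_fin_one, Fin.mk_zero, Fin.mk_one, Fin.zero_eta, Fin.reduceFinMk, Fin.isValue]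
      try linear_combination (-1) * H.five + (0) * H.qx
    · simp only [G2, E30, Matrix.mul_apply, Matrix.map_apply, Fin.sum_univ_four, Matrix.of_apply, Matrix.cons_val', Matrix.cons_val, Matrix.cons_val_fin_one, Fin.mk_zero, Fin.mk_one, Fin.zero_eta, Fin.reduceFinMk, Fin.isValue]
      try linear_combination (0) * H.five + (0) * H.qx
    · simp only [G2, E30, Matrix.mul_apply, Matrix.map_apply, Fin.sum_univ_four, Matrix.of_apply, Matrix.cons_val', Matrix.cons_val, Matrix.cons_val_fin_one, Fin.mk_zero, Fin.mk_one, Fin.zero_eta, Fin.reduceFinMk, Fin.isValue]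
      try linear_combination (d.q x^4*d.q t) * H.five + (0) * H.qx
    · simp only [G2, E30, Matrix.mul_apply, Matrix.map_apply, Fin.sum_univ_four, Matrix.of_apply, Matrix.cons_val', Matrix.cons_val, Matrix.cons_val_fin_one, Fin.mk_zero, Fin.mk_one, Fin.zero_eta, Fin.reduceFinMk, Fin.isValue]
      try linear_combination (0) * H.five + (0) * H.qx
    · simp only [G2, E30, Matrix.mul_apply, Matrix.map_apply, Fin.sum_univ_four, Matrix.of_apply, Matrix.cons_val', Matrix.cons_val, Matrix.cons_val_fin_one, Fin.mk_zero, Fin.mk_one, Fin.zero_eta, Fin.reduceFinMk, Fin.isValue]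
      try linear_combination (0) * H.five + (0) * H.qx
    · simp only [G2, E30, Matrix.mul_apply, Matrix.map_apply, Fin.sum_univ_four, Matrix.of_apply, Matrix.cons_val', Matrix.cons_val, Matrix.cons_val_fin_one, Fin.mk_zero, Fin.mk_one, Fin.zero_eta, Fin.reduceFinMk, Fin.isValue]
      try linear_combination (1) * H.five + (0) * H.qx
    · simp only [G2, E30, Matrix.mul_apply, Matrix.map_apply, Fin.sum_univ_four, Matrix.of_apply, Matrix.cons_val', Matrix.cons_val, Matrix.cons_val_fin_one, Fin.mk_zero, Fin.mk_one, Fin.zero_eta, Fin.reduceFinMk, Fin.isValue]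
      try linear_combination (0) * H.five + (0) * H.qx
    · simp only [G2, E30, Matrix.mul_apply, Matrix.map_apply, Fin.sum_univ_four, Matrix.of_apply, Matrix.cons_val', Matrix.cons_val, Matrix.cons_val_fin_one, Fin.mk_zero, Fin.mk_one, Fin.zero_eta, Fin.reduceFinMk, Fin.isValue]
      try linear_combination (0) * H.five + (0) * H.qx
  have e2 : E21 (d.q x) (d.q t) * E32 (d.q x) (d.q t) =
      !![0, 0, 2*d.q x^4, d.q x^4; 0, 0, d.q x^4, d.q x^4; 0, 0, 0, 0; 0, 0, 0, 0] := by
    ext i j
    fin_cases i <;> fin_cases j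
    · simp only [E21, E32, Matrix.mul_apply, Matrix.map_apply, Fin.sum_univ_four, Matrix.of_apply, Matrix.cons_val', Matrix.cons_val, Matrix.cons_val_fin_one, Fin.mk_zero, Fin.mk_one, Fin.zero_eta, Fin.reduceFinMk, Fin.isValue]
      try linear_combination (0) * H.five + (0) * H.qx
    · simp only [E21, E32, Matrix.mul_apply, Matrix.map_apply, Fin.sum_univ_four, Matrix.of_apply, Matrix.cons_val', Matrix.cons_val, Matrix.cons_val_fin_one, Fin.mk_zero, Fin.mk_one, Fin.zero_eta, Fin.reduceFinMk, Fin.isValue]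
      try linear_combination (0) * H.five + (0) * H.qx
    · simp only [E21, E32, Matrix.mul_apply, Matrix.map_apply, Fin.sum_univ_four, Matrix.of_apply, Matrix.cons_val', Matrix.cons_val, Matrix.cons_val_fin_one, Fin.mk_zero, Fin.mk_one, Fin.zero_eta, Fin.reduceFinMk, Fin.isValue]
      try linear_combination (0) * H.five + (0) * H.qx
    · simp only [E21, E32, Matrix.mul_apply, Matrix.map_apply, Fin.sum_univ_four, Matrix.of_apply, Matrix.cons_val', Matrix.cons_val, Matrix.cons_val_fin_one, Fin.mk_zero, Fin.mk_one, Fin.zero_eta, Fin.reduceFinMk, Fin.isValue]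
      try linear_combination (0) * H.five + (0) * H.qx
    · simp only [E21, E32, Matrix.mul_apply, Matrix.map_apply, Fin.sum_univ_four, Matrix.of_apply, Matrix.cons_val', Matrix.cons_val, Matrix.cons_val_fin_one, Fin.mk_zero, Fin.mk_one, Fin.zero_eta, Fin.reduceFinMk, Fin.isValue]
      try linear_combination (0) * H.five + (0) * H.qx
    · simp only [E21, E32, Matrix.mul_apply, Matrix.map_apply, Fin.sum_univ_four, Matrix.of_apply, Matrix.cons_val', Matrix.cons_val, Matrix.cons_val_fin_one, Fin.mk_zero, Fin.mk_one, Fin.zero_eta, Fin.reduceFinMk, Fin.isValue]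
      try linear_combination (0) * H.five + (0) * H.qx
    · simp only [E21, E32, Matrix.mul_apply, Matrix.map_apply, Fin.sum_univ_four, Matrix.of_apply, Matrix.cons_val', Matrix.cons_val, Matrix.cons_val_fin_one, Fin.mk_zero, Fin.mk_one, Fin.zero_eta, Fin.reduceFinMk, Fin.isValue]
      try linear_combination (0) * H.five + (0) * H.qx
    · simp only [E21, E32, Matrix.mul_apply, Matrix.map_apply, Fin.sum_univ_four, Matrix.of_apply, Matrix.cons_val', Matrix.cons_val, Matrix.cons_val_fin_one, Fin.mk_zero, Fin.mk_one, Fin.zero_eta, Fin.reduceFinMk, Fin.isValue]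
      try linear_combination (0) * H.five + (0) * H.qx
    · simp only [E21, E32, Matrix.mul_apply, Matrix.map_apply, Fin.sum_univ_four, Matrix.of_apply, Matrix.cons_val', Matrix.cons_val, Matrix.cons_val_fin_one, Fin.mk_zero, Fin.mk_one, Fin.zero_eta, Fin.reduceFinMk, Fin.isValue]
      try linear_combination (0) * H.five + (0) * H.qx
    · simp only [E21, E32, Matrix.mul_apply, Matrix.map_apply, Fin.sum_univ_four, Matrix.of_apply, Matrix.cons_val', Matrix.cons_val, Matrix.cons_val_fin_one, Fin.mk_zero, Fin.mk_one, Fin.zero_eta, Fin.reduceFinMk, Fin.isValue]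
      try linear_combination (0) * H.five + (0) * H.qx
    · simp only [E21, E32, Matrix.mul_apply, Matrix.map_apply, Fin.sum_univ_four, Matrix.of_apply, Matrix.cons_val', Matrix.cons_val, Matrix.cons_val_fin_one, Fin.mk_zero, Fin.mk_one, Fin.zero_eta, Fin.reduceFinMk, Fin.isValue]
      try linear_combination (0) * H.five + (-2) * H.qx
    · simp only [E21, E32, Matrix.mul_apply, Matrix.map_apply, Fin.sum_univ_four, Matrix.of_apply, Matrix.cons_val', Matrix.cons_val, Matrix.cons_val_fin_one, Fin.mk_zero, Fin.mk_one, Fin.zero_eta, Fin.reduceFinMk, Fin.isValue]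
      try linear_combination (0) * H.five + (-1) * H.qx
    · simp only [E21, E32, Matrix.mul_apply, Matrix.map_apply, Fin.sum_univ_four, Matrix.of_apply, Matrix.cons_val', Matrix.cons_val, Matrix.cons_val_fin_one, Fin.mk_zero, Fin.mk_one, Fin.zero_eta, Fin.reduceFinMk, Fin.isValue]
      try linear_combination (0) * H.five + (0) * H.qx
    · simp only [E21, E32, Matrix.mul_apply, Matrix.map_apply, Fin.sum_univ_four, Matrix.of_apply, Matrix.cons_val', Matrix.cons_val, Matrix.cons_val_fin_one, Fin.mk_zero, Fin.mk_one, Fin.zero_eta, Fin.reduceFinMk, Fin.isValue]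
      try linear_combination (0) * H.five + (0) * H.qx
    · simp only [E21, E32, Matrix.mul_apply, Matrix.map_apply, Fin.sum_univ_four, Matrix.of_apply, Matrix.cons_val', Matrix.cons_val, Matrix.cons_val_fin_one, Fin.mk_zero, Fin.mk_one, Fin.zero_eta, Fin.reduceFinMk, Fin.isValue]
      try linear_combination (0) * H.five + (0) * H.qx
    · simp only [E21, E32, Matrix.mul_apply, Matrix.map_apply, Fin.sum_univ_four, Matrix.of_apply, Matrix.cons_val', Matrix.cons_val, Matrix.cons_val_fin_one, Fin.mk_zero, Fin.mk_one, Fin.zero_eta, Fin.reduceFinMk, Fin.isValue]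
      try linear_combination (0) * H.five + (0) * H.qx
  rw [Matrix.mul_assoc, e1, e2]
  simp only [Matrix.trace, Matrix.diag_apply, Matrix.mul_apply, Fin.sum_univ_four, Matrix.of_apply, Matrix.cons_val', Matrix.cons_val, Matrix.cons_val_fin_one, Fin.isValue]
  linear_combination (d.q x^4) * H.five + (0) * H.qx

omit H in
theorem map_one_D (k : Fin 3) : (1 : Matrix (Fin 4) (Fin 4) A).map (d.D k) = 0 := by
  ext i j
  by_cases h : i = j
  · subst h; simp [D_one]
  · simp [h, D_zero]

theorem g1_pow_mod (n : ℕ) : g1 x z t ^ (n + 5) = g1 x z t ^ n := by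
  rw [pow_add, g1_pow_five x z t H.rel, mul_one]

theorem g1_pow_five_mul (n : ℕ) : g1 x z t ^ (5 * n) = 1 := by
  rw [pow_mul, g1_pow_five x z t H.rel, one_pow]

theorem sum_2 : ∑ i ∈ Finset.range 5, Matrix.trace ((((g1 x z t ^ 3) ^ (i + 2)).map d.q) * (g1 x z t ^ 2).map (d.D 0) *
    ((g1 x z t ^ 2) ^ i).map (d.D 1) * (g1 x z t ^ 2).map (d.D 2)) = (d.q x) ^ 4 := by
  have hm : g1 x z t ^ 2 = P2 x z t := g1_pow_two x z t H.rel
  have h2 := g1_pow_two x z t H.rel
  have h3 := g1_pow_three x z t H.rel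
  have h4 := g1_pow_four x z t H.rel
  have t0 : Matrix.trace ((((g1 x z t ^ 3) ^ (0 + 2)).map d.q) * (g1 x z t ^ 2).map (d.D 0) *
    ((g1 x z t ^ 2) ^ 0).map (d.D 1) * (g1 x z t ^ 2).map (d.D 2)) = 0 := by
    rw [pow_zero, map_one_D, Matrix.mul_zero, Matrix.zero_mul, Matrix.trace_zero]
  have t1 : Matrix.trace ((((g1 x z t ^ 3) ^ (1 + 2)).map d.q) * (g1 x z t ^ 2).map (d.D 0) *
    ((g1 x z t ^ 2) ^ 1).map (d.D 1) * (g1 x z t ^ 2).map (d.D 2)) = 0 := by
    have a1 : (g1 x z t ^ 3) ^ (1 + 2) = P4 x z t := by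
      rw [← pow_mul, show 3 * (1 + 2) = 5 * 1 + 4 from rfl, pow_add, g1_pow_five_mul H, one_mul, h4]
    have a2 : (g1 x z t ^ 2) ^ 1 = P2 x z t := by
      rw [← pow_mul, show 2 * 1 = 5 * 0 + 2 from rfl, pow_add, g1_pow_five_mul H, one_mul, h2]
    rw [a1, a2, hm, map_q_4 H, map_D_2_0 H, map_D_2_1 H, map_D_2_2 H, tr_2_4_2 H]
  have t2 : Matrix.trace ((((g1 x z t ^ 3) ^ (2 + 2)).map d.q) * (g1 x z t ^ 2).map (d.D 0) *
    ((g1 x z t ^ 2) ^ 2).map (d.D 1) * (g1 x z t ^ 2).map (d.D 2)) = 2*d.q x^4 := by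
    have a1 : (g1 x z t ^ 3) ^ (2 + 2) = P2 x z t := by
      rw [← pow_mul, show 3 * (2 + 2) = 5 * 2 + 2 from rfl, pow_add, g1_pow_five_mul H, one_mul, h2]
    have a2 : (g1 x z t ^ 2) ^ 2 = P4 x z t := by
      rw [← pow_mul, show 2 * 2 = 5 * 0 + 4 from rfl, pow_add, g1_pow_five_mul H, one_mul, h4]
    rw [a1, a2, hm, map_q_2 H, map_D_2_0 H, map_D_4_1 H, map_D_2_2 H, tr_2_2_4 H]
  have t3 : Matrix.trace ((((g1 x z t ^ 3) ^ (3 + 2)).map d.q) * (g1 x z t ^ 2).map (d.D 0) *
    ((g1 x z t ^ 2) ^ 3).map (d.D 1) * (g1 x z t ^ 2).map (d.D 2)) = -d.q x^4 := by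
    have a1 : (g1 x z t ^ 3) ^ (3 + 2) = 1 := by
      rw [← pow_mul, show 3 * (3 + 2) = 5 * 3 + 0 from rfl, pow_add, g1_pow_five_mul H, one_mul, pow_zero]
    have a2 : (g1 x z t ^ 2) ^ 3 = g1 x z t := by
      rw [← pow_mul, show 2 * 3 = 5 * 1 + 1 from rfl, pow_add, g1_pow_five_mul H, one_mul, pow_one]
    rw [a1, a2, hm, show (1 : Matrix (Fin 4) (Fin 4) A).map d.q = 1 from by simp [Matrix.map_one], map_D_2_0 H, map_D_1_1 H, map_D_2_2 H, tr_2_0_1 H]
  have t4 : Matrix.trace ((((g1 x z t ^ 3) ^ (4 + 2)).map d.q) * (g1 x z t ^ 2).map (d.D 0) *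
    ((g1 x z t ^ 2) ^ 4).map (d.D 1) * (g1 x z t ^ 2).map (d.D 2)) = 0 := by
    have a1 : (g1 x z t ^ 3) ^ (4 + 2) = P3 x z t := by
      rw [← pow_mul, show 3 * (4 + 2) = 5 * 3 + 3 from rfl, pow_add, g1_pow_five_mul H, one_mul, h3]
    have a2 : (g1 x z t ^ 2) ^ 4 = P3 x z t := by
      rw [← pow_mul, show 2 * 4 = 5 * 1 + 3 from rfl, pow_add, g1_pow_five_mul H, one_mul, h3]
    rw [a1, a2, hm, map_q_3 H, map_D_2_0 H, map_D_3_1 H, map_D_2_2 H, tr_2_3_3 H]
  rw [Finset.sum_range_succ, Finset.sum_range_succ, Finset.sum_range_succ, Finset.sum_range_succ, Finset.sum_range_one, t0, t1, t2, t3, t4]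
  linear_combination (0) * H.five + (0) * H.qx

theorem sum_3 : ∑ i ∈ Finset.range 5, Matrix.trace ((((g1 x z t ^ 2) ^ (i + 2)).map d.q) * (g1 x z t ^ 3).map (d.D 0) *
    ((g1 x z t ^ 3) ^ i).map (d.D 1) * (g1 x z t ^ 3).map (d.D 2)) = (d.q x) ^ 4 := by
  have hm : g1 x z t ^ 3 = P3 x z t := g1_pow_three x z t H.rel
  have h2 := g1_pow_two x z t H.rel
  have h3 := g1_pow_three x z t H.rel
  have h4 := g1_pow_four x z t H.rel
  have t0 : Matrix.trace ((((g1 x z t ^ 2) ^ (0 + 2)).map d.q) * (g1 x z t ^ 3).map (d.D 0) *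
    ((g1 x z t ^ 3) ^ 0).map (d.D 1) * (g1 x z t ^ 3).map (d.D 2)) = 0 := by
    rw [pow_zero, map_one_D, Matrix.mul_zero, Matrix.zero_mul, Matrix.trace_zero]
  have t1 : Matrix.trace ((((g1 x z t ^ 2) ^ (1 + 2)).map d.q) * (g1 x z t ^ 3).map (d.D 0) *
    ((g1 x z t ^ 3) ^ 1).map (d.D 1) * (g1 x z t ^ 3).map (d.D 2)) = -2*d.q x^4 := by
    have a1 : (g1 x z t ^ 2) ^ (1 + 2) = g1 x z t := by
      rw [← pow_mul, show 2 * (1 + 2) = 5 * 1 + 1 from rfl, pow_add, g1_pow_five_mul H, one_mul, pow_one]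
    have a2 : (g1 x z t ^ 3) ^ 1 = P3 x z t := by
      rw [← pow_mul, show 3 * 1 = 5 * 0 + 3 from rfl, pow_add, g1_pow_five_mul H, one_mul, h3]
    rw [a1, a2, hm, map_q_1 H, map_D_3_0 H, map_D_3_1 H, map_D_3_2 H, tr_3_1_3 H]
  have t2 : Matrix.trace ((((g1 x z t ^ 2) ^ (2 + 2)).map d.q) * (g1 x z t ^ 3).map (d.D 0) *
    ((g1 x z t ^ 3) ^ 2).map (d.D 1) * (g1 x z t ^ 3).map (d.D 2)) = 0 := by
    have a1 : (g1 x z t ^ 2) ^ (2 + 2) = P3 x z t := by
      rw [← pow_mul, show 2 * (2 + 2) = 5 * 1 + 3 from rfl, pow_add, g1_pow_five_mul H, one_mul, h3]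
    have a2 : (g1 x z t ^ 3) ^ 2 = g1 x z t := by
      rw [← pow_mul, show 3 * 2 = 5 * 1 + 1 from rfl, pow_add, g1_pow_five_mul H, one_mul, pow_one]
    rw [a1, a2, hm, map_q_3 H, map_D_3_0 H, map_D_1_1 H, map_D_3_2 H, tr_3_3_1 H]
  have t3 : Matrix.trace ((((g1 x z t ^ 2) ^ (3 + 2)).map d.q) * (g1 x z t ^ 3).map (d.D 0) *
    ((g1 x z t ^ 3) ^ 3).map (d.D 1) * (g1 x z t ^ 3).map (d.D 2)) = -2*d.q x^4 := by
    have a1 : (g1 x z t ^ 2) ^ (3 + 2) = 1 := by
      rw [← pow_mul, show 2 * (3 + 2) = 5 * 2 + 0 from rfl, pow_add, g1_pow_five_mul H, one_mul, pow_zero]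
    have a2 : (g1 x z t ^ 3) ^ 3 = P4 x z t := by
      rw [← pow_mul, show 3 * 3 = 5 * 1 + 4 from rfl, pow_add, g1_pow_five_mul H, one_mul, h4]
    rw [a1, a2, hm, show (1 : Matrix (Fin 4) (Fin 4) A).map d.q = 1 from by simp [Matrix.map_one], map_D_3_0 H, map_D_4_1 H, map_D_3_2 H, tr_3_0_4 H]
  have t4 : Matrix.trace ((((g1 x z t ^ 2) ^ (4 + 2)).map d.q) * (g1 x z t ^ 3).map (d.D 0) *
    ((g1 x z t ^ 3) ^ 4).map (d.D 1) * (g1 x z t ^ 3).map (d.D 2)) = 0 := by
    have a1 : (g1 x z t ^ 2) ^ (4 + 2) = P2 x z t := by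
      rw [← pow_mul, show 2 * (4 + 2) = 5 * 2 + 2 from rfl, pow_add, g1_pow_five_mul H, one_mul, h2]
    have a2 : (g1 x z t ^ 3) ^ 4 = P2 x z t := by
      rw [← pow_mul, show 3 * 4 = 5 * 2 + 2 from rfl, pow_add, g1_pow_five_mul H, one_mul, h2]
    rw [a1, a2, hm, map_q_2 H, map_D_3_0 H, map_D_2_1 H, map_D_3_2 H, tr_3_2_2 H]
  rw [Finset.sum_range_succ, Finset.sum_range_succ, Finset.sum_range_succ, Finset.sum_range_succ, Finset.sum_range_one, t0, t1, t2, t3, t4]
  linear_combination (-d.q x^4) * H.five + (0) * H.qx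

end Der


/-! ### the final value -/

theorem g1_eq_base {A : Type*} [CommRing A] (x z t : A) : MatBase.g1 x z t = g1 x z t := by
  ext i j
  fin_cases i <;> fin_cases j <;> simp [MatBase.g1, g1] <;> ring

section Final

variable {A Q : Type*} [CommRing A] [CommRing Q]

theorem block_pow (a b : Matrix (Fin 4) (Fin 4) A) (n : ℕ) :
    (fromBlocks a 0 0 b) ^ n = fromBlocks (a ^ n) 0 0 (b ^ n) := by
  induction n with
  | zero => simp
  | succ n ih => rw [pow_succ, ih, fromBlocks_multiply]; simp [pow_succ]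

theorem trace_sum (𝒟 : DerData A Q) (x z t : A) (hE : z ^ 2 - z - 1 = t * x ^ 5)
    (h5 : (5 : Q) = 0) (hz : 𝒟.q z = 3) (hx : 𝒟.q x ^ 5 = 0)
    (h0x : 𝒟.D 0 x = 1) (h0z : 𝒟.D 0 z = 0) (h0t : 𝒟.D 0 t = 0)
    (h1x : 𝒟.D 1 x = 0) (h1z : 𝒟.D 1 z = 1) (h1t : 𝒟.D 1 t = 0)
    (h2x : 𝒟.D 2 x = 0) (h2z : 𝒟.D 2 z = 0) (h2t : 𝒟.D 2 t = 1)
    (U : Matrix (Fin 4 ⊕ Fin 4) (Fin 4 ⊕ Fin 4) A)
    (hU : U = fromBlocks (MatBase.g1 x z t * MatBase.g1 x z t) 0 0
      (MatBase.g1 x z t ^ 4 * MatBase.g1 x z t ^ 4))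
    (P : ℕ → Matrix (Fin 4 ⊕ Fin 4) (Fin 4 ⊕ Fin 4) A)
    (hP : ∀ i < 5, P i * (U * U ^ i * U) = 1) :
    ∑ i ∈ Finset.range 5, Matrix.trace ((P i).map 𝒟.q * U.map (𝒟.D 0) * (U ^ i).map (𝒟.D 1) *
      U.map (𝒟.D 2)) = 2 * 𝒟.q x ^ 4 := by
  have H : Hyp 𝒟 x z t :=
    ⟨by rw [hE, mul_comm], hz, h5, hx, h0x, h0z, h0t, h1x, h1z, h1t, h2x, h2z, h2t⟩
  have hg5 : g1 x z t ^ 5 = 1 := g1_pow_five x z t H.rel
  have hU' : U = fromBlocks (g1 x z t ^ 2) 0 0 (g1 x z t ^ 3) := by
    rw [hU, g1_eq_base, ← pow_two, ← pow_add, show (4 + 4 : ℕ) = 5 + 3 from rfl, pow_add, hg5,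
      one_mul]
  have hP' : ∀ i < 5, P i = fromBlocks ((g1 x z t ^ 3) ^ (i + 2)) 0 0 ((g1 x z t ^ 2) ^ (i + 2)) := by
    intro i hi
    have h1 : (U * U ^ i * U) *
        fromBlocks ((g1 x z t ^ 3) ^ (i + 2)) 0 0 ((g1 x z t ^ 2) ^ (i + 2)) = 1 := by
      rw [← pow_succ', ← pow_succ, hU', block_pow, fromBlocks_multiply]
      have e1 : (g1 x z t ^ 2) ^ (i + 1 + 1) * (g1 x z t ^ 3) ^ (i + 2) = 1 := by
        rw [← pow_mul, ← pow_mul, ← pow_add,
          show 2 * (i + 1 + 1) + 3 * (i + 2) = 5 * (i + 2) by ring, pow_mul, hg5, one_pow]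
      have e2 : (g1 x z t ^ 3) ^ (i + 1 + 1) * (g1 x z t ^ 2) ^ (i + 2) = 1 := by
        rw [← pow_mul, ← pow_mul, ← pow_add,
          show 3 * (i + 1 + 1) + 2 * (i + 2) = 5 * (i + 2) by ring, pow_mul, hg5, one_pow]
      simp only [mul_zero, zero_mul, add_zero, zero_add, e1, e2, fromBlocks_one]
    calc P i = P i * ((U * U ^ i * U) *
        fromBlocks ((g1 x z t ^ 3) ^ (i + 2)) 0 0 ((g1 x z t ^ 2) ^ (i + 2))) := by
          rw [h1, mul_one]
      _ = _ := by rw [← mul_assoc, hP i hi, one_mul]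
  have hD0 : ∀ k : Fin 3, (0 : Matrix (Fin 4) (Fin 4) A).map (𝒟.D k) = 0 := by
    intro k; ext i j; simp [D_zero]
  have hterm : ∀ i ∈ Finset.range 5,
      Matrix.trace ((P i).map 𝒟.q * U.map (𝒟.D 0) * (U ^ i).map (𝒟.D 1) * U.map (𝒟.D 2)) =
      Matrix.trace ((((g1 x z t ^ 3) ^ (i + 2)).map 𝒟.q) * (g1 x z t ^ 2).map (𝒟.D 0) *
        ((g1 x z t ^ 2) ^ i).map (𝒟.D 1) * (g1 x z t ^ 2).map (𝒟.D 2)) +
      Matrix.trace ((((g1 x z t ^ 2) ^ (i + 2)).map 𝒟.q) * (g1 x z t ^ 3).map (𝒟.D 0) *
        ((g1 x z t ^ 3) ^ i).map (𝒟.D 1) * (g1 x z t ^ 3).map (𝒟.D 2)) := by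
    intro i hi
    rw [hP' i (Finset.mem_range.mp hi), hU', block_pow]
    simp only [fromBlocks_map, hD0, Matrix.map_zero _ (map_zero 𝒟.q), fromBlocks_multiply,
      mul_zero, zero_mul, add_zero, zero_add]
    rw [Matrix.trace, Fintype.sum_sum_type]
    rfl
  rw [Finset.sum_congr rfl hterm, Finset.sum_add_distrib, sum_2 H, sum_3 H, two_mul]

end Final

end Crest.Agent.R171.MatComp
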