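import Crest.Agent.R171.Defs

set_option autoImplicit false

/-!
The two dimensional regular local ring
`A = (ℤ[x,y,t]/(y² + 5y + 5 - t x⁵))_(x,y)`.
-/

namespace Crest.Agent.R171.Ring5

open Polynomial

/-- `ℤ[y][x]` (inner variable `y`, outer variable `x`). -/
abbrev R0 : Type := Polynomial (Polynomial ℤ)

/-- `y² + 5y + 5` in `ℤ[y]`. -/
noncomputable def pe : Polynomial ℤ := X ^ 2 + 5 * X + 5

theorem pe_ne_zero : pe ≠ 0 := by
  intro h
  have : pe.eval 0 = 5 := by simp [pe]
  rw [h] at this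
  simp at this

/-- `f = y² + 5y + 5 - x⁵ t` in `ℤ[y][x][t]`. -/
noncomputable def f : Polynomial R0 := C (-(X : R0) ^ 5) * X + C (C pe)

theorem irreducible_f : Irreducible f := by
  apply irreducible_C_mul_X_add_C
  · simp
  · rw [IsRelPrime.neg_left_iff]
    apply IsRelPrime.pow_left
    rw [Polynomial.prime_X.irreducible.isRelPrime_iff_not_dvd]
    intro h
    rw [Polynomial.X_dvd_iff] at h
    simp at h
    exact pe_ne_zero h

theorem prime_f : Prime f := irreducible_f.prime

/-- `B = ℤ[x,y,t]/(f)`. -/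
abbrev B : Type := AdjoinRoot f

instance : IsDomain B := AdjoinRoot.isDomain_of_prime prime_f

instance : IsNoetherianRing B := inferInstance

/-- the element `x` of `B` -/
noncomputable def xB : B := AdjoinRoot.of f X
/-- the element `y` of `B` -/
noncomputable def yB : B := AdjoinRoot.of f (C X)
/-- the element `t` of `B` -/
noncomputable def tB : B := AdjoinRoot.root f

theorem relB : yB ^ 2 + 5 * yB + 5 = tB * xB ^ 5 := by
  have h : AdjoinRoot.mk f f = 0 := AdjoinRoot.mk_self
  have h2 : AdjoinRoot.mk f f = -xB ^ 5 * tB + (yB ^ 2 + 5 * yB + 5) := by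
    change AdjoinRoot.mk f (C (-(X : R0) ^ 5) * X + C (C pe)) = _
    simp only [map_add, map_mul, AdjoinRoot.mk_C, AdjoinRoot.mk_X, map_neg, map_pow, pe,
      xB, yB, tB, map_ofNat]
  rw [h2] at h
  linear_combination h

section lift

variable {S : Type*} [CommRing S]

/-- ring homs out of `B`. -/
noncomputable def Blift (x y t : S) (h : y ^ 2 + 5 * y + 5 = t * x ^ 5) : B →+* S :=
  AdjoinRoot.lift (eval₂RingHom (eval₂RingHom (Int.castRingHom S) y) x) t (by
    simp only [f, eval₂_add, eval₂_mul, eval₂_C, eval₂_X, pe, map_neg, map_pow, coe_eval₂RingHom,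
      eval₂_pow, eval₂_ofNat, eval₂_neg]
    linear_combination h)

variable (x y t : S) (h : y ^ 2 + 5 * y + 5 = t * x ^ 5)

@[simp] theorem Blift_x : Blift x y t h xB = x := by
  simp [Blift, xB]

@[simp] theorem Blift_y : Blift x y t h yB = y := by
  simp [Blift, yB]

@[simp] theorem Blift_t : Blift x y t h tB = t := by
  simp [Blift, tB]

theorem B_ringHom_ext {φ ψ : B →+* S} (hx : φ xB = ψ xB) (hy : φ yB = ψ yB) (ht : φ tB = ψ tB) :
    φ = ψ := by
  apply AdjoinRoot.ringHom_ext
  · apply Polynomial.ringHom_ext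
    · intro p
      have : ((φ.comp (AdjoinRoot.of f)).comp (C : Polynomial ℤ →+* R0)) =
          ((ψ.comp (AdjoinRoot.of f)).comp (C : Polynomial ℤ →+* R0)) := by
        apply Polynomial.ringHom_ext
        · intro n
          simp
        · exact hy
      exact RingHom.congr_fun this p
    · exact hx
  · exact ht

end lift

instance fact5 : Fact (Nat.Prime 5) := ⟨by norm_num⟩

/-- residue map `B → F₅[t]`. -/
noncomputable def r0 : B →+* Polynomial (ZMod 5) :=
  Blift 0 0 X (by
    have : (5 : Polynomial (ZMod 5)) = 0 := by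
      have := CharP.cast_eq_zero (Polynomial (ZMod 5)) 5
      simpa using this
    simp [this])

/-- the prime `(x,y)` of `B`. -/
noncomputable abbrev P : Ideal B := RingHom.ker r0

instance : P.IsPrime := RingHom.ker_isPrime r0

/-- The ring. -/
abbrev A : Type := Localization.AtPrime P

noncomputable instance : CommRing A := inferInstance

instance : IsDomain A :=
  IsLocalization.isDomain_localization (Ideal.primeCompl_le_nonZeroDivisors P)

instance : IsNoetherianRing A := IsLocalization.isNoetherianRing P.primeCompl A inferInstance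

instance : IsLocalRing A := inferInstance

/-- the element `x` -/
noncomputable def x : A := algebraMap B A xB
/-- the element `y` -/
noncomputable def y : A := algebraMap B A yB
/-- the element `t` -/
noncomputable def t : A := algebraMap B A tB

theorem rel : y ^ 2 + 5 * y + 5 = t * x ^ 5 := by
  have := congrArg (algebraMap B A) relB
  simp only [map_add, map_mul, map_pow, map_ofNat] at this
  exact this

theorem r0_x : r0 xB = 0 := Blift_x _ _ _ _
theorem r0_y : r0 yB = 0 := Blift_y _ _ _ _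
theorem r0_t : r0 tB = X := Blift_t _ _ _ _

theorem xB_mem_P : xB ∈ P := r0_x
theorem yB_mem_P : yB ∈ P := r0_y

theorem five_mem_span : (5 : B) ∈ Ideal.span ({xB, yB} : Set B) := by
  rw [Ideal.mem_span_pair]
  refine ⟨tB * xB ^ 4, -yB - 5, ?_⟩
  linear_combination -relB

theorem P_eq : P = Ideal.span ({xB, yB} : Set B) := by
  have hle : Ideal.span ({xB, yB} : Set B) ≤ P := by
    rw [Ideal.span_le]
    rintro z (rfl | rfl)
    · exact xB_mem_P
    · exact yB_mem_P
  apply le_antisymm _ hle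
  intro g hg
  set J : Ideal B := Ideal.span ({xB, yB} : Set B) with hJ
  have hJtop : J ≠ ⊤ := by
    intro h
    rw [h, top_le_iff] at hle
    exact (inferInstance : P.IsPrime).ne_top hle
  have : Nontrivial (B ⧸ J) := Ideal.Quotient.nontrivial_iff.mpr hJtop
  have : CharP (B ⧸ J) 5 := by
    rw [CharP.charP_iff_prime_eq_zero (by norm_num)]
    have := Ideal.Quotient.eq_zero_iff_mem.mpr five_mem_span
    rw [map_ofNat] at this
    exact_mod_cast this
  let s : Polynomial (ZMod 5) →+* B ⧸ J :=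
    eval₂RingHom (ZMod.castHom (dvd_refl 5) (B ⧸ J)) (Ideal.Quotient.mk J tB)
  have hs : s.comp r0 = Ideal.Quotient.mk J := by
    apply B_ringHom_ext
    · rw [RingHom.comp_apply, r0_x, map_zero, eq_comm, Ideal.Quotient.eq_zero_iff_mem]
      exact Ideal.subset_span (by simp)
    · rw [RingHom.comp_apply, r0_y, map_zero, eq_comm, Ideal.Quotient.eq_zero_iff_mem]
      exact Ideal.subset_span (by simp)
    · rw [RingHom.comp_apply, r0_t]
      simp [s]
  have h1 : Ideal.Quotient.mk J g = 0 := by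
    rw [← hs, RingHom.comp_apply]
    have : r0 g = 0 := hg
    rw [this, map_zero]
  exact Ideal.Quotient.eq_zero_iff_mem.mp h1

theorem maximalIdeal_eq : IsLocalRing.maximalIdeal A = Ideal.span ({x, y} : Set A) := by
  have h1 : Ideal.map (algebraMap B A) P = IsLocalRing.maximalIdeal A :=
    Localization.AtPrime.map_eq_maximalIdeal
  have h2 : Ideal.map (algebraMap B A) P =
      Ideal.map (algebraMap B A) (Ideal.span ({xB, yB} : Set B)) :=
    congrArg (Ideal.map (algebraMap B A)) P_eq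
  rw [← h1, h2, Ideal.map_span, Set.image_pair]
  rfl

theorem x_mem : x ∈ IsLocalRing.maximalIdeal A := by
  rw [maximalIdeal_eq]; exact Ideal.subset_span (by simp)

theorem y_mem : y ∈ IsLocalRing.maximalIdeal A := by
  rw [maximalIdeal_eq]; exact Ideal.subset_span (by simp)

theorem isUnit_one_add_of_mem {a : A} (ha : a ∈ IsLocalRing.maximalIdeal A) : IsUnit (1 + a) := by
  by_contra h
  have h1 : 1 + a ∈ IsLocalRing.maximalIdeal A := h
  have h2 : (1 : A) ∈ IsLocalRing.maximalIdeal A := by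
    have := Ideal.sub_mem _ h1 ha
    rwa [add_sub_cancel_right] at this
  exact (IsLocalRing.maximalIdeal.isMaximal A).ne_top ((Ideal.eq_top_iff_one _).mpr h2)

theorem isUnit_one_add_y : IsUnit (1 + y) := isUnit_one_add_of_mem y_mem

theorem five_mem : (5 : A) ∈ IsLocalRing.maximalIdeal A ^ 2 := by
  have h1 : (1 + y) * 5 ∈ IsLocalRing.maximalIdeal A ^ 2 := by
    have : (1 + y) * 5 = t * x ^ 3 * (x ^ 2) - y ^ 2 := by
      linear_combination rel
    rw [this]
    exact Ideal.sub_mem _ (Ideal.mul_mem_left _ _ (Ideal.pow_mem_pow x_mem 2))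
      (Ideal.pow_mem_pow y_mem 2)
  exact (Ideal.unit_mul_mem_iff_mem _ isUnit_one_add_y).mp h1

theorem algebraMap_injective : Function.Injective (algebraMap B A) :=
  IsLocalization.injective A (Ideal.primeCompl_le_nonZeroDivisors P)

/-- evaluation `B → ℤ`, `x = 1`, `y = 0`, `t = 5`. -/
noncomputable def evZ : B →+* ℤ := Blift 1 0 5 (by norm_num)

instance : CharZero B := by
  constructor
  intro a b h
  have := congrArg evZ h
  simpa using this

instance : CharZero A := charZero_of_injective_algebraMap algebraMap_injective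

/-- `F₅(t)`. -/
abbrev K : Type := FractionRing (Polynomial (ZMod 5))

/-- the element `t` of `K` -/
noncomputable def tK : K := algebraMap (Polynomial (ZMod 5)) K X

section lift

variable {S : Type*} [CommRing S] (x' y' t' : S) (h : y' ^ 2 + 5 * y' + 5 = t' * x' ^ 5)
  (ρ : S →+* K) [IsLocalHom ρ] (hx : ρ x' = 0) (hy : ρ y' = 0) (ht : ρ t' = tK)

include hx hy ht in
theorem isUnit_Blift (g : P.primeCompl) : IsUnit (Blift x' y' t' h g) := by
  apply isUnit_of_map_unit ρ
  have h1 : ρ.comp (Blift x' y' t' h) = (algebraMap (Polynomial (ZMod 5)) K).comp r0 := by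
    apply B_ringHom_ext
    · rw [RingHom.comp_apply, RingHom.comp_apply, Blift_x, hx, r0_x, map_zero]
    · rw [RingHom.comp_apply, RingHom.comp_apply, Blift_y, hy, r0_y, map_zero]
    · rw [RingHom.comp_apply, RingHom.comp_apply, Blift_t, ht, r0_t, tK]
  have h2 : ρ (Blift x' y' t' h g) = algebraMap (Polynomial (ZMod 5)) K (r0 g) :=
    RingHom.congr_fun h1 g
  rw [h2, isUnit_iff_ne_zero]
  intro h3
  have h4 : r0 (g : B) = 0 := by
    apply IsFractionRing.injective (Polynomial (ZMod 5)) K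
    rw [h3, map_zero]
  exact g.2 h4

/-- ring homs out of `A`. -/
noncomputable def Alift : A →+* S :=
  IsLocalization.lift (M := P.primeCompl) (isUnit_Blift x' y' t' h ρ hx hy ht)

@[simp] theorem Alift_x : Alift x' y' t' h ρ hx hy ht x = x' := by
  rw [Alift, x, IsLocalization.lift_eq, Blift_x]

@[simp] theorem Alift_y : Alift x' y' t' h ρ hx hy ht y = y' := by
  rw [Alift, y, IsLocalization.lift_eq, Blift_y]

@[simp] theorem Alift_t : Alift x' y' t' h ρ hx hy ht t = t' := by
  rw [Alift, t, IsLocalization.lift_eq, Blift_t]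

theorem A_ringHom_ext {φ ψ : A →+* S} (hx : φ x = ψ x) (hy : φ y = ψ y) (ht : φ t = ψ t) :
    φ = ψ := by
  apply IsLocalization.ringHom_ext P.primeCompl
  apply B_ringHom_ext
  · exact hx
  · exact hy
  · exact ht

end lift

theorem five_K : (5 : K) = 0 := by
  have h : (5 : Polynomial (ZMod 5)) = 0 := by
    have := CharP.cast_eq_zero (Polynomial (ZMod 5)) 5
    simpa using this
  have h2 := congrArg (algebraMap (Polynomial (ZMod 5)) K) h
  rwa [map_ofNat, map_zero] at h2

theorem tK_ne_zero : tK ≠ 0 := by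
  intro h
  have : (X : Polynomial (ZMod 5)) = 0 := by
    apply IsFractionRing.injective (Polynomial (ZMod 5)) K
    rw [map_zero]; exact h
  exact X_ne_zero this

instance : IsLocalHom (PowerSeries.constantCoeff (R := K)) :=
  ⟨fun _ h => PowerSeries.isUnit_iff_constantCoeff.mpr h⟩

/-- the arc `x = t s²`, `y = t³ s⁵` in characteristic `5`. -/
noncomputable def arc : A →+* PowerSeries K :=
  Alift (PowerSeries.C tK * PowerSeries.X ^ 2) (PowerSeries.C tK ^ 3 * PowerSeries.X ^ 5)
    (PowerSeries.C tK) (by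
      have h5 : (5 : PowerSeries K) = 0 := by
        have := congrArg (PowerSeries.C (R := K)) five_K
        rwa [map_ofNat, map_zero] at this
      rw [h5]; ring) (PowerSeries.constantCoeff (R := K)) (by simp) (by simp) (by simp)

theorem arc_five : arc 5 = 0 := by
  have h5 : (5 : PowerSeries K) = 0 := by
    have := congrArg (PowerSeries.C (R := K)) five_K
    rwa [map_ofNat, map_zero] at this
  rw [map_ofNat, h5]

theorem arc_x_eq : arc x = PowerSeries.C tK * PowerSeries.X ^ 2 :=
  Alift_x _ _ _ _ _ _ _ _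

theorem arc_x : arc x ≠ 0 := by
  rw [arc_x_eq]
  apply mul_ne_zero
  · rw [Ne, map_eq_zero]
    exact tK_ne_zero
  · exact pow_ne_zero _ PowerSeries.X_ne_zero

theorem two_le_ringKrullDim : (2 : WithBot ℕ∞) ≤ ringKrullDim A := by
  rw [← IsLocalRing.maximalIdeal_height_eq_ringKrullDim]
  have hker : (RingHom.ker arc).IsPrime := RingHom.ker_isPrime arc
  have h1 : (⊥ : Ideal A) < RingHom.ker arc := by
    rw [bot_lt_iff_ne_bot]
    intro h
    have : (5 : A) ∈ RingHom.ker arc := arc_five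
    rw [h, Ideal.mem_bot] at this
    have h5 : ((5 : ℕ) : A) = 0 := by exact_mod_cast this
    rw [Nat.cast_eq_zero] at h5
    omega
  have h2 : RingHom.ker arc < IsLocalRing.maximalIdeal A := by
    apply lt_of_le_of_ne
    · exact IsLocalRing.le_maximalIdeal hker.ne_top
    · intro h
      have := x_mem
      rw [← h] at this
      exact arc_x this
  have h3 := Ideal.height_add_one_le_of_lt_of_isPrime h1
  have h4 := Ideal.height_add_one_le_of_lt_of_isPrime h2
  have h5 : (2 : ℕ∞) ≤ (IsLocalRing.maximalIdeal A).height := by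
    refine le_trans ?_ h4
    refine le_trans ?_ (add_le_add_left h3 1)
    rw [Ideal.height_bot]
    norm_num
  exact WithBot.coe_le_coe.mpr h5

theorem spanFinrank_le : (IsLocalRing.maximalIdeal A).spanFinrank ≤ 2 := by
  rw [maximalIdeal_eq]
  refine (Submodule.spanFinrank_span_le_ncard_of_finite (Set.toFinite _)).trans ?_
  refine (Set.ncard_insert_le _ _).trans ?_
  rw [Set.ncard_singleton]

instance : IsRegularLocalRing A := by
  apply IsRegularLocalRing.of_spanFinrank_maximalIdeal_le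
  refine le_trans ?_ two_le_ringKrullDim
  exact_mod_cast spanFinrank_le

theorem ringKrullDim_A : ringKrullDim A = 2 := by
  apply le_antisymm _ two_le_ringKrullDim
  refine (ringKrullDim_le_spanFinrank_maximalIdeal A).trans ?_
  exact_mod_cast spanFinrank_le

/-- `Q = F₅(t)[x]/(x⁵)`. -/
abbrev Q : Type := AdjoinRoot (X ^ 5 : Polynomial K)

/-- the element `x` of `Q` -/
noncomputable def xQ : Q := AdjoinRoot.root _

/-- the element `t` of `Q` -/
noncomputable def tQ : Q := AdjoinRoot.of _ tK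

theorem xQ_pow : xQ ^ 5 = 0 := by
  have h : AdjoinRoot.mk (X ^ 5 : Polynomial K) (X ^ 5) = 0 := AdjoinRoot.mk_self
  rw [map_pow, AdjoinRoot.mk_X] at h
  exact h

theorem xQ_pow_four : xQ ^ 4 ≠ 0 := by
  have h : AdjoinRoot.mk (X ^ 5 : Polynomial K) (X ^ 4) ≠ 0 :=
    AdjoinRoot.mk_ne_zero_of_natDegree_lt (monic_X_pow 5) (pow_ne_zero _ X_ne_zero) (by simp)
  rw [map_pow, AdjoinRoot.mk_X] at h
  exact h

instance : Nontrivial Q := ⟨⟨xQ ^ 4, 0, xQ_pow_four⟩⟩

theorem five_Q : (5 : Q) = 0 := by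
  have h2 := congrArg (AdjoinRoot.of (X ^ 5 : Polynomial K)) five_K
  rwa [map_ofNat, map_zero] at h2

/-- the residue map of `Q`. -/
noncomputable def ρQ : Q →+* K := AdjoinRoot.lift (RingHom.id K) 0 (by simp)

theorem ρQ_x : ρQ xQ = 0 := by simp [ρQ, xQ]
theorem ρQ_t : ρQ tQ = tK := by simp [ρQ, tQ]

instance : IsLocalHom ρQ := by
  constructor
  intro q hq
  induction q using AdjoinRoot.induction_on with
  | ih p =>
    have h1 : ρQ (AdjoinRoot.mk _ p) = p.coeff 0 := by
      rw [ρQ, AdjoinRoot.lift_mk, eval₂_at_zero]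
      rfl
    rw [h1] at hq
    have h2 : AdjoinRoot.mk (X ^ 5 : Polynomial K) p =
        AdjoinRoot.of _ (p.coeff 0) + AdjoinRoot.mk _ p.divX * xQ := by
      conv_lhs => rw [← divX_mul_X_add p]
      rw [map_add, map_mul, AdjoinRoot.mk_X, AdjoinRoot.mk_C, add_comm]
      rfl
    rw [h2]
    apply IsNilpotent.isUnit_add_left_of_commute
    · exact ⟨5, by rw [mul_pow, xQ_pow, mul_zero]⟩
    · exact hq.map _
    · exact Commute.all _ _

/-- the ring hom `A → Q`. -/
noncomputable def q : A →+* Q :=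
  Alift xQ 0 tQ (by rw [xQ_pow, five_Q]; ring) ρQ ρQ_x (map_zero _) ρQ_t

@[simp] theorem q_x : q x = xQ := Alift_x _ _ _ _ _ _ _ _
@[simp] theorem q_y : q y = 0 := Alift_y _ _ _ _ _ _ _ _
@[simp] theorem q_t : q t = tQ := Alift_t _ _ _ _ _ _ _ _

open TrivSqZeroExt in
theorem five_DQ : (5 : DualNumber Q) = 0 := by
  have h2 := congrArg (inlHom Q Q) five_Q
  rwa [map_ofNat, map_zero] at h2

/-- the residue map of `Q[ε]`. -/
noncomputable def ρD : DualNumber Q →+* K :=
  ρQ.comp (TrivSqZeroExt.fstHom Q Q Q).toRingHom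

instance : IsLocalHom ρD := by
  constructor
  intro a ha
  rw [TrivSqZeroExt.isUnit_iff_isUnit_fst]
  exact isUnit_of_map_unit ρQ _ ha

theorem dual_rel (v : Fin 3 → Q) :
    (TrivSqZeroExt.inr (v 1) : DualNumber Q) ^ 2 + 5 * TrivSqZeroExt.inr (v 1) + 5 =
      (TrivSqZeroExt.inl tQ + TrivSqZeroExt.inr (v 2)) *
        (TrivSqZeroExt.inl xQ + TrivSqZeroExt.inr (v 0)) ^ 5 := by
  have h1 : (TrivSqZeroExt.inr (v 1) : DualNumber Q) * TrivSqZeroExt.inr (v 1) = 0 :=
    TrivSqZeroExt.inr_mul_inr _ _ _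
  have h2 : (TrivSqZeroExt.inr (v 0) : DualNumber Q) * TrivSqZeroExt.inr (v 0) = 0 :=
    TrivSqZeroExt.inr_mul_inr _ _ _
  have h3 : (TrivSqZeroExt.inl xQ : DualNumber Q) ^ 5 = 0 := by
    change (TrivSqZeroExt.inlHom Q Q xQ) ^ 5 = 0
    rw [← map_pow, xQ_pow, map_zero]
  have h5 := five_DQ
  set a : DualNumber Q := TrivSqZeroExt.inl xQ
  set b : DualNumber Q := TrivSqZeroExt.inr (v 0)
  set c : DualNumber Q := TrivSqZeroExt.inr (v 1)
  set d : DualNumber Q := TrivSqZeroExt.inr (v 2)
  set e : DualNumber Q := TrivSqZeroExt.inl tQ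
  linear_combination h1 + (c + 1) * h5 - (e + d) * (h3 + a ^ 4 * b * h5 +
    (10 * a ^ 3 + 10 * a ^ 2 * b + 5 * a * b ^ 2 + b ^ 3) * h2)

/-- the ring hom `A → Q[ε]` attached to a vector field `v`. -/
noncomputable def dual (v : Fin 3 → Q) : A →+* DualNumber Q :=
  Alift (TrivSqZeroExt.inl xQ + TrivSqZeroExt.inr (v 0)) (TrivSqZeroExt.inr (v 1))
    (TrivSqZeroExt.inl tQ + TrivSqZeroExt.inr (v 2)) (dual_rel v) ρD
    (by simp [ρD, ρQ_x]) (by simp [ρD]) (by simp [ρD, ρQ_t])

theorem dual_x (v : Fin 3 → Q) :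
    dual v x = TrivSqZeroExt.inl xQ + TrivSqZeroExt.inr (v 0) := Alift_x _ _ _ _ _ _ _ _
theorem dual_y (v : Fin 3 → Q) :
    dual v y = TrivSqZeroExt.inr (v 1) := Alift_y _ _ _ _ _ _ _ _
theorem dual_t (v : Fin 3 → Q) :
    dual v t = TrivSqZeroExt.inl tQ + TrivSqZeroExt.inr (v 2) := Alift_t _ _ _ _ _ _ _ _

theorem fst_dual (v : Fin 3 → Q) (a : A) : (dual v a).fst = q a := by
  have h : ((TrivSqZeroExt.fstHom Q Q Q).toRingHom.comp (dual v)) = q := by
    apply A_ringHom_ext
    · simp [dual_x]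
    · simp [dual_y]
    · simp [dual_t]
  exact RingHom.congr_fun h a

/-- the three derivations `∂/∂x`, `∂/∂y`, `∂/∂t`. -/
noncomputable def der : DerData A Q where
  q := q
  D k a := (dual (Pi.single k 1) a).snd
  add k a b := by rw [map_add, TrivSqZeroExt.snd_add]
  leib k a b := by
    rw [map_mul, TrivSqZeroExt.snd_mul, fst_dual, fst_dual, smul_eq_mul, op_smul_eq_mul]

theorem exists_ring5 :
    ∃ (A : Type) (_ : CommRing A) (_ : IsDomain A) (_ : IsRegularLocalRing A),
      ringKrullDim A = 2 ∧ CharZero A ∧ (5 : A) ∈ IsLocalRing.maximalIdeal A ^ 2 ∧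
      ∃ (M : Type) (_ : CommRing M) (𝒟 : DerData A M) (x y t : A),
        y ^ 2 + 5 * y + 5 = t * x ^ 5 ∧
        x ∈ IsLocalRing.maximalIdeal A ∧ y ∈ IsLocalRing.maximalIdeal A ∧
        x ≠ 0 ∧ y ≠ 0 ∧ t ≠ 0 ∧ IsUnit (1 + y) ∧ (5 : M) = 0 ∧
        𝒟.D 0 x = 1 ∧ 𝒟.D 0 y = 0 ∧ 𝒟.D 0 t = 0 ∧
        𝒟.D 1 x = 0 ∧ 𝒟.D 1 y = 1 ∧ 𝒟.D 1 t = 0 ∧
        𝒟.D 2 x = 0 ∧ 𝒟.D 2 y = 0 ∧ 𝒟.D 2 t = 1 ∧
        𝒟.q y = 0 ∧ 𝒟.q x ^ 5 = 0 ∧ 𝒟.q x ^ 4 ≠ 0 := by
  refine ⟨A, inferInstance, inferInstance, inferInstance, ringKrullDim_A, inferInstance, five_mem,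
    Q, inferInstance, der, x, y, t, rel, x_mem, y_mem, ?_, ?_, ?_, isUnit_one_add_y, five_Q,
    ?_, ?_, ?_, ?_, ?_, ?_, ?_, ?_, ?_, q_y, ?_, ?_⟩
  · intro h
    apply arc_x
    rw [h, map_zero]
  · intro h
    have := dual_y (Pi.single 1 1)
    rw [h, map_zero] at this
    have h2 := congrArg TrivSqZeroExt.snd this
    simp at h2
  · intro h
    have := dual_t (Pi.single 2 1)
    rw [h, map_zero] at this
    have h2 := congrArg TrivSqZeroExt.snd this
    simp at h2
  · simp [der, dual_x]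
  · simp [der, dual_y]
  · simp [der, dual_t]
  · simp [der, dual_x]
  · simp [der, dual_y]
  · simp [der, dual_t]
  · simp [der, dual_x]
  · simp [der, dual_y]
  · simp [der, dual_t]
  · change q x ^ 5 = 0
    rw [q_x, xQ_pow]
  · change q x ^ 4 ≠ 0
    rw [q_x]; exact xQ_pow_four

end Crest.Agent.R171.Ring5
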