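import Crest.Agent.R171.Defs

/-!
T3: slant product of a 3-cocycle with an element `s`: a central extension of the centralizer of
`s` whose commutator pairing is `f.pair · · s`.
-/

set_option autoImplicit false

namespace Crest.Agent.R171

variable {G : Type*} [Group G] {M : Type*} [AddCommGroup M]

/-- The 2-cocycle on the centralizer of `s` is
`F a b = f s a b - f a s b + f a b s`; the extension is `M × centralizer s`. -/
theorem Cocycle3.exists_slant (f : Cocycle3 G M) (s : G) :
    ∃ (Y : Type _) (_ : Group Y) (π : Y →* Subgroup.centralizer ({s} : Set G))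
      (ι : Multiplicative M →* Y),
      Function.Surjective π ∧ (∀ m, π (ι m) = 1) ∧ (∀ m y, ι m * y = y * ι m) ∧
      (∀ y, π y = 1 → ∃ m, ι m = y) ∧ Function.Injective ι ∧
      (∀ y y' : Y, (π y : G) * (π y' : G) = (π y' : G) * (π y : G) →
        y * y' = ι (Multiplicative.ofAdd (f.pair (π y : G) (π y' : G) s)) * (y' * y)) := by
  sorry

theorem Cocycle3.pair_swap12 (f : Cocycle3 G M) (a b c : G) : f.pair b a c = - f.pair a b c := by
  sorry

theorem Cocycle3.pair_swap23 (f : Cocycle3 G M) (a b c : G) : f.pair a c b = - f.pair a b c := by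
  sorry

theorem Cocycle3.pair_cycl (f : Cocycle3 G M) (a b c : G) : f.pair b c a = f.pair a b c := by
  sorry

/-- `pair` is multiplicative in the first variable on the centralizer of the other two. -/
theorem Cocycle3.pair_mul (f : Cocycle3 G M) {a a' b c : G} (h1 : a * b = b * a)
    (h2 : a * c = c * a) (h1' : a' * b = b * a') (h2' : a' * c = c * a') (h3 : b * c = c * b) :
    f.pair (a * a') b c = f.pair a b c + f.pair a' b c := by
  sorry

end Crest.Agent.R171
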