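import Crest.Agent.R171.Basic
import Crest.Agent.R171.Lift
import Crest.Agent.R171.Slant

/-!
T4: torus lemmas, the view lemma, and the vanishing theorem over a field.
-/

set_option autoImplicit false

namespace Crest.Agent.R171

variable {R : Type*} [CommRing R] {G : Type*} [Group G] {M : Type*} [AddCommGroup M]

theorem StFam.g1_comm_g2 (X : StFam (Fin 12) R G) (u v : Rˣ) :
    X.g1 u * X.g2 v = X.g2 v * X.g1 u := by
  sorry

theorem StFam.g1_comm_g3 (X : StFam (Fin 12) R G) (u w : Rˣ) :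
    X.g1 u * X.g3 w = X.g3 w * X.g1 u := by
  sorry

theorem StFam.g2_comm_g3 (X : StFam (Fin 12) R G) (v w : Rˣ) :
    X.g2 v * X.g3 w = X.g3 w * X.g2 v := by
  sorry

theorem pair_mul_left (f : Cocycle3 G M) (X : StFam (Fin 12) R G) (u u' v w : Rˣ) :
    f.pair (X.g1 (u * u')) (X.g2 v) (X.g3 w) =
      f.pair (X.g1 u) (X.g2 v) (X.g3 w) + f.pair (X.g1 u') (X.g2 v) (X.g3 w) := by
  sorry

theorem pair_mul_right (f : Cocycle3 G M) (X : StFam (Fin 12) R G) (u v v' w : Rˣ) :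
    f.pair (X.g1 u) (X.g2 (v * v')) (X.g3 w) =
      f.pair (X.g1 u) (X.g2 v) (X.g3 w) + f.pair (X.g1 u) (X.g2 v') (X.g3 w) := by
  sorry

theorem pair_steinberg (f : Cocycle3 G M) (X : StFam (Fin 12) R G) (u v w : Rˣ)
    (huv : (u : R) + v = 1) : f.pair (X.g1 u) (X.g2 v) (X.g3 w) = 0 := by
  sorry

/-- swapping the roles of the last two variables is relabelling the indices
by `2↔3, 6↔7, 10↔11`. -/
theorem pair_swap (f : Cocycle3 G M) (X : StFam (Fin 12) R G) :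
    ∃ X' : StFam (Fin 12) R G, ∀ u v w : Rˣ,
      f.pair (X.g1 u) (X.g2 v) (X.g3 w) = - f.pair (X'.g1 u) (X'.g2 w) (X'.g3 v) := by
  sorry

/-- the vanishing theorem -/
theorem vanish {F : Type*} [Field F] (f : Cocycle3 G M) (X : StFam (Fin 12) F G)
    (U V W : Fˣ) (ζ y a : F) (hζ : ζ ≠ 0) (hy : y ≠ 0) (ha : a ≠ 0)
    (h1 : 1 - a * y = ζ ^ 5) (hU : (U : F) * (1 - a) = 1 - a * y) (hV : (V : F) * (1 - a) = y - 1)
    (hW : (W : F) = 1 + ζ) :
    2 • f.pair (X.g1 U) (X.g2 V) (X.g3 W) = 0 := by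
  sorry

end Crest.Agent.R171
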